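import Vale.Agent.P014X.Ac.St2
import Vale.Agent.P014X.Ac.Wct
import Vale.Agent.P014X.Ac.Rkq
import Vale.Agent.P014X.Ac.Amd
import Vale.Agent.P014X.Ac.Zct

/-! # P014Z, the anchor: the count of the singular numbers for a quasi-idempotent -/

set_option autoImplicit false
set_option linter.all false

open Function Finset Module
open scoped Classical

noncomputable section

namespace Vale.Agent.P014Z.Ac

open Vale.Agent.P014X.Ac
open Wct (eqm nr_apply pow_com nr_com)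

variable (M I : Type) [AddCommGroup M] [AddCommGroup I] in
/-- a layer with a quasi-idempotent -/
structure Mq (p k : ℕ) where
  d : M →+ I
  g : AddMonoid.End M
  g' : AddMonoid.End I
  m : M →+ M
  m' : I →+ I
  J : AddSubgroup I
  M0 : AddSubgroup M
  κ : ℕ

namespace Mq

variable {M I : Type} [AddCommGroup M] [AddCommGroup I] {p k : ℕ} (Y : Mq M I p k)

/-- the norms -/
def X : Dp M I := ⟨Y.d, nr p k Y.g, nr p k Y.g', Y.J⟩

/-- the map on pairs -/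
def m2 : M × I →+ M × I := Y.m.prodMap Y.m'

/-- the singular numbers -/
def W : AddSubgroup M := (Y.J ⊔ pw I p).comap Y.d ⊓ (pw M p).comap Y.X.N ⊓
  (pw M p).comap (Y.m - nsmulAddMonoidHom Y.κ)

/-- the axioms -/
structure Ok : Prop where
  pr : p.Prime
  cop : ¬ p ∣ Y.κ
  dg : ∀ x, Y.d (Y.g x) = Y.g' (Y.d x)
  dm : ∀ x, Y.d (Y.m x) = Y.m' (Y.d x)
  gm : ∀ x, Y.m (Y.g x) = Y.g (Y.m x)
  gm' : ∀ x, Y.m' (Y.g' x) = Y.g' (Y.m' x)
  gp : Y.g ^ p ^ (k + 1) = 1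
  gp' : Y.g' ^ p ^ (k + 1) = 1
  mm : ∀ x, Y.m (Y.m x) = Y.κ • Y.m x
  mm' : ∀ x, Y.m' (Y.m' x) = Y.κ • Y.m' x
  gJ : ∀ x ∈ Y.J, Y.g' x ∈ Y.J
  mJ : ∀ x ∈ Y.J, Y.m' x ∈ Y.J
  M0 : ∀ x, x ∈ Y.M0 ↔ (Y.g ^ p ^ k) x = x
  tf : ∀ x, p • x ∈ Y.J → x ∈ Y.J
  tf0 : ∀ x : I, p • x = 0 → x = 0
  mu : ∀ x : M, p • x = 0 → Y.m x = 0

theorem mem_W {x : M} : x ∈ Y.W ↔ (Y.d x ∈ Y.J ⊔ pw I p ∧ Y.X.N x ∈ pw M p) ∧
    Y.m x - Y.κ • x ∈ pw M p := Iff.rfl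

end Mq

namespace Wq

variable {M I : Type} [AddCommGroup M] [AddCommGroup I] {p k : ℕ} {Y : Mq M I p k}

theorem mem_R {z : M × I} : z ∈ Y.X.R ⊤ ⊤ ↔ ∃ x, Y.X.N x = z.1 ∧ z.2 - Y.d x ∈ Y.J := by
  constructor
  · intro h
    obtain ⟨_, ⟨x, -, rfl⟩, ⟨a, b⟩, ⟨h1, -, h2⟩, rfl⟩ := AddSubgroup.mem_sup.1 h
    obtain rfl : a = 0 := h1
    exact ⟨x, (add_zero _).symm, by
      have : (Y.X.d x + b) - Y.d x = b := add_sub_cancel_left _ _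
      exact this.symm ▸ h2⟩
  · rintro ⟨x, h1, h2⟩
    refine AddSubgroup.mem_sup.2 ⟨_, ⟨x, trivial, rfl⟩, (0, z.2 - Y.d x), ⟨rfl, trivial, h2⟩, ?_⟩
    exact Prod.ext ((add_zero _).trans h1) (add_sub_cancel _ _)

theorem mem_P {z : M × I} : z ∈ Y.X.P Y.M0 ⊤ ↔ z.1 ∈ Y.M0 ∧ Y.d z.1 - Y.X.N' z.2 ∈ Y.J := by
  have : (Y.X.d.coprod (-Y.X.N')) z = Y.d z.1 - Y.X.N' z.2 := (sub_eq_add_neg _ _).symm
  exact ⟨fun h => ⟨h.1.1, this ▸ h.2⟩, fun h => ⟨⟨h.1, trivial⟩, show _ ∈ Y.J from this.symm ▸ h.2⟩⟩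

theorem m2_eq (z : M × I) : Y.m2 z = (Y.m z.1, Y.m' z.2) := rfl

variable (o : Y.Ok)
include o

theorem mN (x : M) : Y.m (Y.X.N x) = Y.X.N (Y.m x) := nr_com Y.m o.gm p k x

theorem mN' (x : I) : Y.m' (Y.X.N' x) = Y.X.N' (Y.m' x) := nr_com Y.m' o.gm' p k x

theorem tm (x : M) : Y.m (Y.m x) - Y.κ • Y.m x ∈ pw M p := by
  rw [o.mm, sub_self]
  exact zero_mem _

theorem mM {x : M} (h : x ∈ Y.M0) : Y.m x ∈ Y.M0 := (o.M0 _).2 <|
  (pow_com Y.m o.gm _ x).symm.trans (congrArg _ ((o.M0 x).1 h))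

theorem m2R {z : M × I} (h : z ∈ Y.X.R ⊤ ⊤) : Y.m2 z ∈ Y.X.R ⊤ ⊤ := by
  obtain ⟨x, h1, h2⟩ := mem_R.1 h
  refine mem_R.2 ⟨Y.m x, by rw [← mN o, h1]; rfl, ?_⟩
  have := o.mJ _ h2
  rwa [map_sub, ← o.dm] at this

theorem m2m2 (z : M × I) : Y.m2 (Y.m2 z) = Y.κ • Y.m2 z := Prod.ext (o.mm _) (o.mm' _)

omit o in
variable (Y) in
/-- the action on pairs -/
def G : AddMonoid.End (M × I) := AddMonoidHom.prodMap Y.g Y.g'

theorem GR (z : M × I) (h : z ∈ Y.X.R ⊤ ⊤) : G Y z ∈ Y.X.R ⊤ ⊤ := by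
  obtain ⟨x, h1, h2⟩ := mem_R.1 h
  refine mem_R.2 ⟨Y.g x, ?_, ?_⟩
  · exact (nr_com Y.g (g := Y.g) (fun _ => rfl) p k x).symm.trans (congrArg _ h1)
  · have := o.gJ _ h2
    rwa [map_sub, ← o.dg] at this

theorem GP (z : M × I) (h : z ∈ Y.X.P Y.M0 ⊤) : G Y z ∈ Y.X.P Y.M0 ⊤ := by
  obtain ⟨h1, h2⟩ := mem_P.1 h
  refine mem_P.2 ⟨(o.M0 _).2 ?_, ?_⟩
  · exact (pow_com Y.g (g := Y.g) (fun _ => rfl) _ z.1).symm.trans (congrArg _ ((o.M0 _).1 h1))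
  · have := o.gJ _ h2
    rwa [map_sub, ← o.dg, show Y.g' (Y.X.N' z.2) = Y.X.N' (Y.g' z.2) from
      nr_com Y.g' (g := Y.g') (fun _ => rfl) p k _] at this

theorem Gm (z : M × I) : Y.m2 (G Y z) = G Y (Y.m2 z) := Prod.ext (o.gm _) (o.gm' _)

theorem G1 : G Y ^ p ^ (k + 1) = 1 := AddMonoidHom.ext fun z => Prod.ext
  ((pow_com (AddMonoidHom.fst M I) (g := G Y) (g' := Y.g) (fun _ => rfl) _ z).trans
    (by rw [o.gp]; rfl))
  ((pow_com (AddMonoidHom.snd M I) (g := G Y) (g' := Y.g') (fun _ => rfl) _ z).trans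
    (by rw [o.gp']; rfl))

theorem nP (z : M × I) (h : z ∈ Y.X.P Y.M0 ⊤) : nr p k (G Y) z ∈ Y.X.R ⊤ ⊤ := by
  obtain ⟨h1, h2⟩ := mem_P.1 h
  refine mem_R.2 ⟨z.1, (nr_com (AddMonoidHom.fst M I) (g := G Y) (g' := Y.g)
    (fun _ => rfl) p k z).symm, ?_⟩
  have e : (nr p k (G Y) z).2 = Y.X.N' z.2 :=
    nr_com (AddMonoidHom.snd M I) (g := G Y) (g' := Y.g') (fun _ => rfl) p k z
  rw [e, ← neg_sub]
  exact neg_mem h2

theorem nR (z : M × I) (h : z ∈ Y.X.R ⊤ ⊤) : nr p k (G Y) z ∈ Y.X.R ⊤ ⊤ := by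
  rw [nr_apply]
  refine sum_mem fun i _ => ?_
  generalize p ^ k * i = n
  induction n with
  | zero => exact h
  | succ n ih => rw [pow_succ']; exact GR o _ ih

omit o in
variable (Y) in
/-- the triples -/
def V : AddSubgroup (M × M × I) where
  carrier := {v | v.2.1 ∈ Y.M0 ∧ p • v.2.1 = Y.X.N v.1 ∧ p • v.2.2 - Y.d v.1 ∈ Y.J ∧
    Y.m v.1 - Y.κ • v.1 ∈ pw M p}
  zero_mem' := ⟨zero_mem _, by simp, by simp, by simp⟩
  add_mem' := fun {v w} a b => ⟨add_mem a.1 b.1, by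
      rw [Prod.fst_add, Prod.snd_add, Prod.fst_add, nsmul_add, map_add, a.2.1, b.2.1], by
      have := add_mem a.2.2.1 b.2.2.1
      rw [Prod.fst_add, Prod.snd_add, Prod.snd_add, nsmul_add, map_add]
      exact eqm this (by abel), by
      have := add_mem a.2.2.2 b.2.2.2
      rw [Prod.fst_add, map_add, nsmul_add]
      exact eqm this (by abel)⟩
  neg_mem' := fun {v} a => ⟨neg_mem a.1, by
      rw [Prod.fst_neg, Prod.snd_neg, Prod.fst_neg, neg_nsmul, map_neg, a.2.1], by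
      have := neg_mem a.2.2.1
      rw [Prod.fst_neg, Prod.snd_neg, Prod.snd_neg, neg_nsmul, map_neg]
      exact eqm this (by abel), by
      have := neg_mem a.2.2.2
      rw [Prod.fst_neg, map_neg, neg_nsmul]
      exact eqm this (by abel)⟩

omit o in
theorem VW : (V Y).map (AddMonoidHom.fst _ _) ≤ Y.W := by
  rintro _ ⟨v, ⟨-, h2, h3, h4⟩, rfl⟩
  refine ⟨⟨?_, ⟨_, h2⟩⟩, h4⟩
  exact AddSubgroup.mem_sup.2 ⟨_, neg_mem h3, _, ⟨v.2.2, rfl⟩, by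
    rw [neg_sub]; exact sub_add_cancel _ _⟩

theorem ker {v : M × M × I} (h : v ∈ V Y) (a : v.1 ∈ pw M p) : Y.m2 v.2 ∈ Y.X.R ⊤ ⊤ := by
  obtain ⟨-, h2, h3, -⟩ := h
  obtain ⟨w, e⟩ := a
  replace e : p • w = v.1 := e
  rw [← e, map_nsmul] at h2 h3
  rw [← nsmul_sub] at h3
  have a := o.mu (v.2.1 - Y.X.N w) (by rw [nsmul_sub, h2, sub_self])
  have b := o.mJ _ (o.tf _ h3)
  rw [map_sub] at a b
  refine mem_R.2 ⟨Y.m w, ?_, ?_⟩
  · rw [← mN o]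
    exact (sub_eq_zero.1 a).symm
  · rw [o.dm]
    exact b

theorem cp2 : (Y.κ * Y.κ).Coprime p :=
  have := (o.pr.coprime_iff_not_dvd.2 o.cop).symm
  Nat.Coprime.mul_left this this

theorem onto : ((Y.X.P Y.M0 ⊤).map Y.m2 ⊔ Y.X.R ⊤ ⊤) ⊓ (Y.X.R ⊤ ⊤).comap (nsmulAddMonoidHom p) ≤
    (V Y).map (Y.m2.comp (AddMonoidHom.snd _ _)) ⊔ Y.X.R ⊤ ⊤ := by
  rintro q ⟨h1, h2⟩
  obtain ⟨_, ⟨z, hz, rfl⟩, r, hr, rfl⟩ := AddSubgroup.mem_sup.1 h1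
  refine add_mem ?_ (AddSubgroup.mem_sup_right hr)
  replace h2 : p • (Y.m2 z + r) ∈ Y.X.R ⊤ ⊤ := h2
  rw [nsmul_add, AddSubgroup.add_mem_cancel_right _ (nsmul_mem hr p)] at h2
  obtain ⟨x, e1, e2⟩ := mem_R.1 h2
  have a : (Y.κ * Y.κ) • Y.m2 z ∈ (V Y).map (Y.m2.comp (AddMonoidHom.snd _ _)) := by
    refine ⟨(Y.m x, Y.m2 (Y.m2 z)), ⟨mM o (mM o (mem_P.1 hz).1), ?_, ?_, tm o x⟩, ?_⟩
    · rw [← mN o, e1]
      exact (map_nsmul Y.m p _).symm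
    · have := o.mJ _ e2
      rwa [map_sub, Prod.smul_snd, map_nsmul, ← o.dm] at this
    · show Y.m2 (Y.m2 (Y.m2 z)) = _
      rw [m2m2 o, m2m2 o, ← mul_nsmul']
  exact Rq.cpr (cp2 o) (AddSubgroup.mem_sup_left a) (AddSubgroup.mem_sup_right h2)

theorem unit : Y.X.U.map Y.m ≤ ((Y.X.R ⊤ ⊤).comap (Y.m2.comp (AddMonoidHom.snd _ _)) ⊓ V Y).map
    (AddMonoidHom.fst _ _) := by
  rintro _ ⟨u, ⟨h1, h2⟩, rfl⟩
  replace h1 : Y.d u = 0 := h1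
  replace h2 : Y.X.N u = 0 := h2
  refine ⟨(Y.m u, 0), ⟨?_, zero_mem _, ?_, ?_, tm o u⟩, rfl⟩
  · exact show Y.m2 0 ∈ Y.X.R ⊤ ⊤ from (map_zero Y.m2).symm ▸ zero_mem _
  · rw [← mN o, h2, map_zero]
    exact nsmul_zero _
  · rw [o.dm, h1, map_zero, sub_zero]
    exact (nsmul_zero p : p • (0 : I) = 0).symm ▸ zero_mem _

end Wq

open Wq AddSubgroup

variable {M I : Type} [AddCommGroup M] [AddCommGroup I] {p k : ℕ} {Y : Mq M I p k}

/-- **the count of the singular numbers** -/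
theorem wct (o : Y.Ok) (hb : Y.X.bm Y.M0 Y.m Y.m' ≠ 0) (hW : (pw M p).relIndex Y.W ≠ 0) :
    (pw M p).relIndex (Y.X.U.map Y.m) *
      p ^ min (padicValNat p (Y.X.bm Y.M0 Y.m Y.m')) ((p - 1) * p ^ k) ≤ (pw M p).relIndex Y.W := by
  have s := Wct.sub amd o.pr (G Y) ((Y.X.P Y.M0 ⊤).map Y.m2 ⊔ Y.X.R ⊤ ⊤) _ ?_ (GR o) (G1 o) ?_ hb
  · set A := (pw M p).comap (AddMonoidHom.fst M (M × I))
    set K := (Y.X.R ⊤ ⊤).comap (Y.m2.comp (AddMonoidHom.snd M (M × I)))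
    have le : A.relIndex (V Y) ≤ (pw M p).relIndex Y.W := by
      rw [relIndex_comap]
      exact relIndex_le_of_le_right VW hW
    have ne : A.relIndex (V Y) ≠ 0 := by
      rw [relIndex_comap]
      exact fun e => hW (relIndex_eq_zero_of_le_right VW e)
    have e := relIndex_mul_relIndex (A ⊓ V Y) (K ⊓ V Y) (V Y)
      (fun v h => ⟨ker o h.2 h.1, h.2⟩) inf_le_right
    rw [inf_relIndex_right, inf_relIndex_right, ← inf_relIndex_right (A ⊓ V Y), inf_assoc,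
      inf_eq_right.2 (inf_le_right : K ⊓ V Y ≤ V Y), inf_relIndex_right] at e
    rw [← e] at le ne
    refine le_trans (Nat.mul_le_mul ?_ (s.trans ?_)) le
    · have := left_ne_zero_of_mul ne
      rw [relIndex_comap] at this ⊢
      exact relIndex_le_of_le_right (unit o) this
    · have := right_ne_zero_of_mul ne
      rw [relIndex_comap, ← relIndex_sup_right] at this
      rw [relIndex_comap, ← relIndex_sup_right (map _ (V Y))]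
      exact relIndex_le_of_le_right (onto o) this
  · intro x h
    obtain ⟨_, ⟨z, hz, rfl⟩, r, hr, rfl⟩ := mem_sup.1 h
    rw [map_add, ← Gm o]
    exact add_mem (mem_sup_left ⟨_, GP o z hz, rfl⟩) (mem_sup_right (GR o r hr))
  · intro x h
    obtain ⟨_, ⟨z, hz, rfl⟩, r, hr, rfl⟩ := mem_sup.1 h
    rw [map_add, ← nr_com Y.m2 (Gm o)]
    exact add_mem (m2R o (nP o z hz)) (nR o r hr)

/-- **the rank** -/
theorem rnk (o : Y.Ok) [Module.Finite ℤ Y.X.U] {r : ℕ} (h : r ≤ finrank ℤ (Y.X.U.map Y.m)) :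
    p ^ r ≤ (pw M p).relIndex (Y.X.U.map Y.m) := by
  have := Rk.fin_map (A := Y.X.U) Y.m
  refine (Nat.pow_le_pow_right o.pr.pos h).trans
    ((Rk.idx o.pr.ne_zero).trans_eq (congrArg AddSubgroup.index ?_))
  refine le_antisymm ?_ ?_
  · rintro _ ⟨x, rfl⟩
    exact ⟨x, rfl⟩
  · rintro ⟨_, u, ⟨u1, u2⟩, rfl⟩ ⟨w, hw⟩
    change p • w = Y.m u at hw
    change Y.d u = 0 at u1
    change Y.X.N u = 0 at u2
    have d0 : Y.d w = 0 := o.tf0 _ (by rw [← map_nsmul, hw, o.dm, u1, map_zero])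
    have n0 := o.mu (Y.X.N w) (by rw [← map_nsmul, hw, ← mN o, u2, map_zero])
    have w1 : Y.m w ∈ Y.X.U := ⟨show Y.d _ = 0 by rw [o.dm, d0, map_zero],
      show Y.X.N _ = 0 by rw [← mN o, n0]⟩
    refine Rq.cpr (cp2 o) ⟨⟨Y.m (Y.m w), _, w1, rfl⟩, Subtype.ext ?_⟩ ⟨_, rfl⟩
    change p • Y.m (Y.m w) = (Y.κ * Y.κ) • Y.m u
    rw [← map_nsmul, ← map_nsmul, hw, o.mm, o.mm, ← mul_nsmul']

/-- **the algebra**: the class number formula against the singular numbers and the units -/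
theorem paa (o : Y.Ok) {r E : ℕ} {C : AddSubgroup M} (g : Pg p r E Y.X Y.M0 C Y.m Y.m')
    {W Z : AddSubgroup M} (hW : Y.W ≤ W) (hZ : C.map Y.m ≤ Z) (w0 : (pw M p).relIndex W ≠ 0)
    (z0 : (pw M p).relIndex Z ≠ 0) (lt : (pw M p).relIndex W < p ^ (r + (p - 1) * p ^ k)) :
    p ^ (2 * r) ≤ (pw M p).relIndex W * (pw M p).relIndex Z * p ^ E := by
  have := g.fg
  have hr := rnk o g.rk
  have lw := relIndex_le_of_le_right hW w0
  have lz := relIndex_le_of_le_right hZ z0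
  have w1 : (pw M p).relIndex Y.W ≠ 0 := fun e => w0 (relIndex_eq_zero_of_le_right hW e)
  have z1 : (pw M p).relIndex (C.map Y.m) ≠ 0 := fun e => z0 (relIndex_eq_zero_of_le_right hZ e)
  have k4 := (wct o g.bm w1).trans lw
  have k5 := zct M p _ _ o.pr (map_mono g.CU) g.im z1
  have p1 := o.pr.one_lt
  have key := g.key
  generalize padicValNat p (Y.X.bm Y.M0 Y.m Y.m') = b at *
  have mn : min b ((p - 1) * p ^ k) = b := by
    refine min_eq_left (not_lt.1 fun h => ?_)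
    rw [min_eq_right h.le] at k4
    rw [pow_add] at lt
    exact ((Nat.mul_le_mul_right _ hr).trans k4).not_gt lt
  rw [mn] at k4
  have k6 : p ^ r ≤ (pw M p).relIndex Z * p ^ (b + E) :=
    (hr.trans k5).trans (Nat.mul_le_mul lz (Nat.pow_le_pow_right p1.le key))
  have k7 := (Nat.mul_le_mul_right _ hr).trans k4
  refine Nat.le_of_mul_le_mul_right ?_ (pow_pos o.pr.pos b)
  calc p ^ (2 * r) * p ^ b = p ^ r * p ^ b * p ^ r := by ring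
    _ ≤ (pw M p).relIndex W * ((pw M p).relIndex Z * p ^ (b + E)) := Nat.mul_le_mul k7 k6
    _ = _ := by ring

end Vale.Agent.P014Z.Ac
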