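import Vale.Agent.P014Z.Ac.St
import Vale.Agent.P014Z.Ac.Wct
import Vale.Agent.P014X.Ac.Exf
import Vale.Agent.P014X.Ac.Jsf

/-! # P014Z, the class number step: glue -/

set_option autoImplicit false
set_option linter.all false

open NumberField NumberField.Units IsDedekindDomain Function Finset
open scoped Classical

noncomputable section

namespace Vale.Agent.P014Z.Ac

open P014X.Ac (Dp Pg pw nr AM AI am ai ad au pm Js Lo dp fxM EXF exf jsf)
open P014X.An (Pm nU vU hR Cr xs)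
open P014X.Ac.Fld (aM aI)

namespace Aa

theorem vprod {ι : Type} (p : ℕ) [Fact p.Prime] (s : Finset ι) (f : ι → ℚ) (h : ∀ i ∈ s, f i ≠ 0) :
    padicValRat p (∏ i ∈ s, f i) = ∑ i ∈ s, padicValRat p (f i) := by
  induction s using Finset.induction_on with
  | empty => simp
  | insert a s n ih =>
    have k := fun i m => h i (mem_insert_of_mem m)
    rw [prod_insert n, sum_insert n, padicValRat.mul (h a (mem_insert_self a s))
      (prod_ne_zero_iff.2 k), ih k]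

theorem val {ι : Type} {p a b n : ℕ} (hp : p.Prime) (S : Finset ι) (l r : Finset ι → ℕ)
    (h : ∀ T ⊆ S, l T ≠ 0 ∧ r T ≠ 0) (hb : ¬ p ∣ b) (ha : a ≠ 0)
    (e : ∏ T ∈ S.powerset, ((l T : ℝ) / r T) ^ ((-1 : ℤ) ^ T.card) = ((b : ℝ) / a) ^ n) :
    alt S (fun T => padicValNat p (l T)) ≤ alt S fun T => padicValNat p (r T) := by
  have := Fact.mk hp
  have b0 : b ≠ 0 := fun z => hb (z ▸ dvd_zero p)
  have q : ∏ T ∈ S.powerset, ((l T : ℚ) / r T) ^ ((-1 : ℤ) ^ T.card) = ((b : ℚ) / a) ^ n :=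
    Rat.cast_injective (α := ℝ) (by push_cast; exact e)
  have n0 : ∀ T ∈ S.powerset, (l T : ℚ) ≠ 0 ∧ (r T : ℚ) ≠ 0 := fun T m =>
    (h T (mem_powerset.1 m)).imp Nat.cast_ne_zero.2 Nat.cast_ne_zero.2
  have k := congrArg (padicValRat p) q
  rw [vprod p _ _ fun T m => zpow_ne_zero _ (div_ne_zero (n0 T m).1 (n0 T m).2), padicValRat.pow,
    padicValRat.div (Nat.cast_ne_zero.2 b0) (Nat.cast_ne_zero.2 ha), padicValRat.of_nat,
    padicValRat.of_nat, padicValNat.eq_zero_of_not_dvd hb,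
    sum_congr rfl fun T m => by
      rw [padicValRat.zpow, padicValRat.div (n0 T m).1 (n0 T m).2, padicValRat.of_nat,
        padicValRat.of_nat, mul_sub], sum_sub_distrib] at k
  have : (0 : ℤ) ≤ n * padicValNat p a := by positivity
  simp only [alt]
  rw [Nat.cast_zero] at k
  linarith

theorem mm_sq {Λ ι : Type} [CommRing Λ] {S : Finset ι} {e : ι → ℕ} {n : ι → Λ}
    (h : ∀ i ∈ S, n i * n i = e i * n i) : mm S e n * mm S e n = (∏ i ∈ S, e i : ℕ) * mm S e n := by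
  rw [mm, Nat.cast_prod, ← prod_mul_distrib, ← prod_mul_distrib]
  exact prod_congr rfl fun i m => by linear_combination h i m

theorem n_mm {Λ ι : Type} [CommRing Λ] {S : Finset ι} {e : ι → ℕ} {n : ι → Λ} {i : ι} (m : i ∈ S)
    (h : n i * n i = e i * n i) : n i * mm S e n = 0 := by
  rw [mm, ← mul_prod_erase S _ m, ← mul_assoc, show n i * (e i - n i) = 0 by linear_combination -h,
    zero_mul]

variable {Λ M : Type} [CommRing Λ] [AddCommGroup M] (a : Λ →+* AddMonoid.End M)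

theorem ap (x y : Λ) (z : M) : a x (a y z) = a (x * y) z := by rw [map_mul]; rfl

theorem apn (n : ℕ) (y : Λ) (z : M) : a (n * y) z = n • a y z := by
  rw [← nsmul_eq_mul, map_nsmul]; rfl

theorem bez {p n : ℕ} (hp : p.Prime) (h : ¬ p ∣ n) {x : M} (k : n • x ∈ pw M p) : x ∈ pw M p := by
  obtain ⟨c, hc⟩ := Nat.exists_mul_mod_eq_one_of_coprime ((Nat.Prime.coprime_iff_not_dvd hp).2 h).symm
    hp.one_lt
  have e : x = c • n • x - p • (n * c / p) • x := by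
    rw [← mul_nsmul', ← mul_nsmul', eq_sub_iff_add_eq, ← succ_nsmul']
    congr 1
    have := Nat.div_add_mod (n * c) p
    rw [hc.2] at this
    rw [this, mul_comm]
  rw [e]
  exact sub_mem (nsmul_mem k c) ⟨_, rfl⟩

variable {H Γ : Type} [Field H] [NumberField H] [CommGroup Γ] (ρ : Γ →* (H ≃+* H))

/-- the action on units -/
def ac (γ : Γ) : (𝓞 H)ˣ →* (𝓞 H)ˣ :=
  Units.map (RingOfIntegers.mapRingHom (ρ γ).toRingHom).toMonoidHom

theorem vU_div (v w : (𝓞 H)ˣ) : vU (v / w) = vU v / vU w := by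
  rw [eq_div_iff (show vU w ≠ 0 by simp [vU])]
  exact congrArg vU (div_mul_cancel v w)

theorem ac_val (γ : Γ) (v : (𝓞 H)ˣ) : vU (ac ρ γ (ac ρ 1 v)) = ρ γ (ρ 1 (vU v)) := rfl

theorem un (σ γ : Γ) (v : (𝓞 H)ˣ) : vU (ac ρ γ (ac ρ σ v / v)) = ρ γ (ρ σ (vU v) / vU v) :=
  congrArg (ρ γ) (vU_div _ _)

theorem nr_eq {M : Type} [AddCommGroup M] (f : (H ≃+* H) →* AddMonoid.End M) (p k : ℕ) (g : Γ) :
    nr p k (f (ρ g)) = ∑ i ∈ range p, f (ρ (g ^ p ^ k) ^ i) :=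
  sum_congr rfl fun i _ => by rw [← map_pow, map_pow ρ, pow_mul]

theorem hpos (F : Type) [Field F] [NumberField F] : 0 < hR F :=
  div_pos (mul_pos (Nat.cast_pos.2 (classNumber_pos F)) (regulator_pos F))
    (Nat.cast_pos.2 (torsionOrder_pos F))

end Aa

open Aa in
theorem aca (nut : NUT) (iex : IEX) (rkf : RKF) (okf : OKF) (cvt : CVT) (cn0 : CN0) (gen : GEN)
    (key : KEY) : ACA := by
  intro H Γ _ _ _ _ ρ φ p k a b g S t Y L G u B fr da zf ct pb a0 hx hB hB' mu W Z hW hZ w0 z0 lt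
  set σ := g ^ p ^ k with hσ
  have c0 := cn0 H Γ ρ φ p σ S t Y L G fr da zf ct
  have b0 : (b : ℝ) ≠ 0 := Nat.cast_ne_zero.2 fun z => pb (z ▸ dvd_zero p)
  have g0 : ∏ χ ∈ Y, ‖G χ 0‖ ≠ 0 := c0 ▸ prod_ne_zero_iff.2 fun T _ =>
    zpow_ne_zero _ (div_pos (hpos _) (hpos _)).ne'
  obtain ⟨v, v1, v2, v3⟩ := gen H Γ ρ φ p σ S t Y u B fr da hB hB' fun χ m e =>
    mul_ne_zero b0 (prod_ne_zero_iff.1 g0 χ m) (by rw [← hx χ m, e]; simp)
  have v0 : vU v ≠ 0 := by simp [vU]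
  have un' : ∀ γ, ∃ w, vU w = ρ γ (ρ σ (vU v) / vU v) := fun γ => ⟨_, un ρ σ γ v⟩
  have ok := okf H Γ ρ φ exf p σ S t Y _ fr da v0 un'
  have fin : ∀ P : (Γ →* ℂˣ) → Prop, ∃ X : Finset (Γ →* ℂˣ), ∀ χ, χ ∈ X ↔ P χ := fun P =>
    ⟨(Set.toFinite {χ | P χ}).toFinset, fun χ => Set.Finite.mem_toFinset _⟩
  choose X hX using fun T => fin fun χ => χ σ ≠ 1 ∧ χ (tT t T) = 1
  have cv := fun T m => cvt H Γ ρ φ exf p σ S t Y _ fr da v0 un' v1 T m (X T) (hX T)
  obtain ⟨i1, i2⟩ := iex Γ p σ S t Y da X fun T _ => hX T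
  set V := mv ρ exf p σ S t (vU v) with hV
  set κ := ∏ l ∈ S, l with hκ
  have pκ : ¬ p ∣ κ := fun d => by
    obtain ⟨l, m, d⟩ := (Prime.dvd_finsetProd_iff da.pr.prime _).1 d
    exact (ok.nn l m).1 d
  have vl : alt S (fun T => padicValNat p (V.l T)) ≤ alt S fun T => padicValNat p (V.r T) := by
    refine val (b := κ * b) (n := Y.card) da.pr S _ _ (fun T m => ⟨(cv T m).1, (cv T m).2.1⟩)
      (fun d => (da.pr.dvd_mul.1 d).elim pκ pb) a0 (mul_right_cancel₀ g0 ?_)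
    have a' : (a : ℝ) ≠ 0 := Nat.cast_ne_zero.2 a0
    rw [← prod_const, ← prod_mul_distrib, ← c0, ← prod_mul_distrib, prod_congr rfl (g := fun χ =>
      ‖2 * xs ρ φ (vU v) χ‖) fun χ m => by
        rw [v2 χ m, mul_left_comm, norm_mul, Complex.norm_natCast, Nat.cast_mul, mul_div_assoc,
          mul_assoc, div_mul_eq_mul_div, ← hx χ m, mul_div_cancel_left₀ _ a'],
      ← i2 ℝ _ fun χ m => norm_ne_zero_iff.2 (mul_ne_zero two_ne_zero (v1 χ m))]
    refine prod_congr rfl fun T m => ?_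
    obtain ⟨-, r0, e, -⟩ := cv T (mem_powerset.1 m)
    rw [← mul_zpow, div_mul_div_comm, e, mul_div_cancel_left₀]
    exact mul_ne_zero (Nat.cast_ne_zero.2 r0) (hpos _).ne'
  have rk : (Y.card : ℤ) + alt S V.k0 ≤ alt S V.k1 := by
    rw [← i1, alt, alt, alt, ← sum_add_distrib]
    refine (sum_congr rfl fun T m => ?_).le
    obtain ⟨-, -, -, e1, e0⟩ := cv T (mem_powerset.1 m)
    obtain ⟨X₁, h1⟩ := fin fun χ => χ (tT t T) = 1
    obtain ⟨X₂, h2⟩ := fin fun χ => χ (tT t T) = 1 ∧ χ σ = 1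
    obtain ⟨f1, f2⟩ := (rkf H Γ ρ φ fr).2 _ σ X₁ X₂ h1 h2
    have r1 := ((rkf H Γ ρ φ fr).1 _ _ _ _ f1).2
    have r2 := ((rkf H Γ ρ φ fr).1 _ _ _ _ f2).2
    have r3 : X₁.card = (X T).card + X₂.card := by
      rw [← card_union_of_disjoint (disjoint_left.2 fun χ m n => ((hX T χ).1 m).1 ((h2 χ).1 n).2)]
      refine congrArg card (Finset.ext fun χ => ?_)
      rw [mem_union, h1, hX, h2]
      tauto
    rw [← mul_add, e1, e0]
    congr 1
    omega
  have pg := key _ _ _ _ V p Y.card ok (exf.2 H).2.2.2.1 (fun T m => ⟨(cv T m).1, (cv T m).2.1⟩) vl rk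
  have sq := mm_sq fun i m => (ok.nn i m).2
  have gp : ρ g ^ p ^ (k + 1) = 1 := by
    rw [← map_pow, pow_succ, pow_mul, ← hσ, ← da.os, pow_orderOf_eq_one, map_one]
  have og : ∀ γ, V.a (MonoidAlgebra.of ℤ Γ γ) = aM H (ρ γ) := gr_of _
  have og' : ∀ γ, V.a' (MonoidAlgebra.of ℤ Γ γ) = aI H exf (ρ γ) := gr_of _
  have j0 : ∀ x, x ∈ Js (∅ : Finset (Pm H)) ↔ x = 0 := fun x => by simp [Js]
  let Q : Mq (AM H) (AI H) p k := ⟨ad H, aM H (ρ g), aI H exf (ρ g), V.m, V.m', Js ∅, fxM (ρ σ), κ⟩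
  have hQ : Q.X = V.X := congrArg₂ (Dp.mk (ad H) · · (Js ∅)) (nr_eq ρ _ p k g) (nr_eq ρ _ p k g)
  have oq : Q.Ok := by
    refine ⟨da.pr, pκ, P014X.Ac.Fld.da exf _, ok.da _, fun x => ?_, fun x => ?_, ?_, ?_,
      fun x => (ap _ _ _ x).trans (sq ▸ apn _ _ _ x), fun x => (ap _ _ _ x).trans (sq ▸ apn _ _ _ x),
      fun x m => ?_, ok.aJ _, fun x => ?_, (jsf.1 H ∅ p da.pr.ne_zero).1, fun x z => ?_, fun x z => ?_⟩
    · change V.a _ (aM H (ρ g) x) = aM H (ρ g) (V.a _ x)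
      rw [← og, ap, ap, mul_comm]
    · change V.a' _ (aI H exf (ρ g) x) = aI H exf (ρ g) (V.a' _ x)
      rw [← og', ap, ap, mul_comm]
    · exact (map_pow (aM H) ..).symm.trans ((congrArg _ gp).trans (map_one (aM H)))
    · exact (map_pow (aI H exf) ..).symm.trans ((congrArg _ gp).trans (map_one (aI H exf)))
    · change aI H exf (ρ g) x ∈ _
      exact og' g ▸ ok.aJ _ x m
    · rw [show Q.g ^ p ^ k = aM H (ρ σ) by rw [hσ, map_pow, map_pow]]
      rfl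
    · exact (j0 x).1 ((jsf.1 H ∅ p da.pr.ne_zero).1 x (z ▸ zero_mem _))
    · rw [show x = 0 from Units.ext (mu _ (congrArg (fun y : AM H => ((y.toMul : Hˣ) : H)) z)), map_zero]
  have := paa oq (hQ ▸ pg) (W := W) (Z := Z) ?_ ?_ w0 z0 lt
  · rwa [pow_zero, mul_one] at this
  · rintro x ⟨⟨x1, x2⟩, x3⟩
    refine hW x ?_ ?_ fun l m => bez da.pr pκ ?_
    · obtain ⟨y, y0, z, z0, e⟩ := AddSubgroup.mem_sup.1 x1
      rw [(j0 y).1 y0, zero_add] at e
      exact e ▸ z0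
    · rw [hQ] at x2
      simp only [map_pow]
      exact (AddMonoidHom.finset_sum_apply (fun i => am (ρ σ ^ i).toRingHom) (range p) x) ▸ x2
    · obtain ⟨y, e⟩ := x3
      replace e : p • y = V.m x - κ • x := e
      have q : V.a (nl t l) x = ∑ i ∈ range l, am (ρ (t l ^ i)).toRingHom x := by
        rw [nl, map_sum]
        exact (AddMonoidHom.finset_sum_apply _ _ x).trans (sum_congr rfl fun i _ => by rw [og]; rfl)
      refine ⟨-V.a (nl t l) y, ?_⟩
      have z : V.a (nl t l) (V.m x) = 0 := by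
        refine (ap _ _ _ x).trans ?_
        rw [show nl t l * mm V.S V.e V.n = 0 from n_mm m (ok.nn l m).2, map_zero]
        rfl
      rw [nsmulAddMonoidHom_apply, ← q, neg_nsmul, ← map_nsmul, e, map_sub, z, zero_sub, neg_neg, map_nsmul]
  · refine AddSubgroup.map_le_iff_le_comap.2 (AddSubgroup.map_le_iff_le_comap.2 ?_)
    refine fun x m => (Subgroup.closure_le (AddSubgroup.toSubgroup' ((Z.comap V.m).comap (au H)))).2 ?_ m
    rintro w ⟨γ, e⟩
    have q : au H (.ofMul w) = V.a (MonoidAlgebra.of ℤ Γ (γ * σ) - MonoidAlgebra.of ℤ Γ γ)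
        (au H (.ofMul v)) := by
      rw [map_sub, og, og]
      refine Units.ext (e.trans ?_)
      rw [map_div₀, map_mul]
      exact (Units.val_div_eq_div_val (aM H (ρ γ * ρ σ) (au H (.ofMul v))).toMul
        (aM H (ρ γ) (au H (.ofMul v))).toMul).symm
    change V.a (mm S id (nl t)) (au H (.ofMul w)) ∈ Z
    rw [q, ap, mul_comm, ← ap]
    erw [v3, ap]
    rw [show mm S id (nl t) * mm S id (nl t) = _ from sq, mul_left_comm, mul_comm _ (mm _ _ _), apn]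
    exact nsmul_mem (hZ γ) _

end Vale.Agent.P014Z.Ac
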