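import Vale.Agent.P014Z.Ac.St2
import Vale.Agent.P004R.Ki
import Vale.Agent.P014X.Ac.Exf

/-! # P014Z, the class number step: the export -/

set_option autoImplicit false
set_option linter.all false

open NumberField Function Finset
open scoped Classical

noncomputable section

namespace Vale.Agent.P014Z.Ac

open Vale.Agent.P022 (Qb GQ GK)
open Vale.Agent.P027M.S (LI)
open Vale.Agent.P014U
open P014X.Ac (pw AM AI am ai ad pm Js exf)
open P014X.Ac.Fld (aM aI)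
open Gl (Lt Pw dT)

namespace Ax

theorem ari {p n d w y a b : ℕ} (hp : p.Prime) (hd : d ∣ p - 1) (hw : w * p < p ^ n)
    (hy : d.totient * (p ^ (n + 1) - p ^ n) ≤ y) (ha : a ≤ p ^ (d.totient * (p ^ (n + 1) - p ^ n + w)))
    (hb : p * b ≤ p ^ (d.totient * (p ^ (n + 1) - p ^ n - w))) :
    a < p ^ (y + (p - 1) * p ^ n) ∧ ¬ p ^ (2 * y) ≤ a * b := by
  have p1 := hp.one_lt
  have e : p ^ (n + 1) - p ^ n = (p - 1) * p ^ n := by rw [Nat.sub_one_mul, pow_succ']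
  have l1 : d.totient ≤ p := (Nat.totient_le d).trans ((Nat.le_of_dvd (by omega) hd).trans (by omega))
  have l2 : p ^ n ≤ (p - 1) * p ^ n := Nat.le_mul_of_pos_left _ (by omega)
  have l3 : d.totient * w ≤ w * p := mul_comm w p ▸ Nat.mul_le_mul_right _ l1
  have l4 : w ≤ w * p := Nat.le_mul_of_pos_right _ hp.pos
  rw [e] at hy ha hb
  refine ⟨ha.trans_lt (Nat.pow_lt_pow_right p1 (by rw [mul_add]; omega)), fun h => ?_⟩
  have k := Nat.mul_le_mul ha hb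
  rw [← pow_add, ← mul_add, show (p - 1) * p ^ n + w + ((p - 1) * p ^ n - w) = 2 * ((p - 1) * p ^ n) by
    omega, mul_left_comm, mul_left_comm d.totient] at k
  have := ((Nat.mul_le_mul_left p h).trans k).trans (Nat.pow_le_pow_right hp.pos
    (Nat.mul_le_mul_left 2 hy))
  rw [← pow_succ'] at this
  exact absurd ((Nat.pow_le_pow_iff_right p1).1 this) (by omega)

end Ax

open Ax in
theorem acx [Pp] (aca : ACA) (zfg : ZFG) (gr1 : GR1) (gr2 : GR2) (exa : EXA) (xau : XAU) (wvb : WVB)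
    (sup : SUP) (ana : ANA) : Gl.ACX := by
  intro e D b n L w hw h hn
  obtain ⟨op, cm, ⟨τ, gt⟩, dv, mu, gr⟩ := gr1 e D b n L
  obtain ⟨g1, g2⟩ := gr τ gt
  have le : L.U ≤ b.Γ := fun g m => ((L.ug g).1 m).1
  obtain ⟨H, Γ, _, _, _, _, jH, π, ρ, θ, ga, fr, zf, pc⟩ := zfg b.K b.j b.iq L.U op le cm
  obtain ⟨u0, uf, xa⟩ := xau e D b n L
  have fx : ∀ x : Qb, (∀ g ∈ L.U, g x = x) → ∃ y, jH y = x := fun x h =>
    P004R.Ki.fixed fun g m => h g (ga.gk ▸ m)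
  have fx' : ∀ x : H, ∀ g ∈ L.U, g (jH x) = jH x := fun x g m => (ga.gk.symm ▸ m : g ∈ GK jH) x
  obtain ⟨u', hu'⟩ := fx _ uf
  obtain ⟨u, hu⟩ : ∃ u : Hˣ, jH u = uu L := ⟨Units.mk0 u' fun z => u0 (by rw [← hu', z, map_zero]), hu'⟩
  have r1 : ∀ i j : ℕ, π τ ^ i * π (gam L) ^ j = 1 ↔ orderOf D.η ∣ i ∧ pp ^ (n + 1) ∣ j := fun i j => by
    rw [← map_pow, ← map_pow, ← map_mul, ga.ker]
    exact g1 i j
  have r2 : ∀ γ, ∃ i j : ℕ, γ = π τ ^ i * π (gam L) ^ j := fun γ => by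
    obtain ⟨g, rfl⟩ := ga.sur γ
    obtain ⟨i, -, m⟩ := g2 g.1 g.2
    refine ⟨i, (L.χ g).val, ?_⟩
    rw [← inv_mul_eq_one, ← map_pow, ← map_pow, ← map_mul, ← map_inv, ← map_mul, ga.ker]
    exact m
  have hp : pp.Prime := Fact.out
  obtain ⟨Y, da, cd⟩ := gr2 Γ pp n _ _ _ hp dv r1 r2
  obtain ⟨B, b1, b2⟩ := sup e D b n L H Γ jH π ρ τ u ga gt hu
  obtain ⟨a, a', pa, a0, an⟩ := ana e D b n L H Γ jH π ρ τ u ga gt hu
  choose! G ct hG using fun ξ (m : ξ ∈ Y) => an ξ _ ((da.mem ξ).1 m).1 ((da.mem ξ).1 m).2 (pc ξ)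
  set A := (aM H).comp ρ with hA
  let v : AM H → Qb := fun y => jH (y.toMul : Hˣ)
  have vA : ∀ g y, v (A (π g) y) = g.1 (v y) := fun g y => ga.act g _
  have vs : ∀ y z, v (y - z) = v y / v z := fun y z => by
    simp only [v, toMul_sub, Units.val_div_eq_div_val, map_div₀]
  have pi : ∀ y, y ∈ pw (AM H) pp ↔ Pw L.U (v y) := fun y => by
    refine ⟨fun ⟨z, k⟩ => ⟨v z, fx' _, by rw [← k]; simp [v]⟩, fun ⟨z, k, l⟩ => ?_⟩
    obtain ⟨x, rfl⟩ := fx z k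
    rw [← map_pow] at l
    have l' := jH.injective l
    refine ⟨.ofMul (Units.mk0 x fun z => y.toMul.ne_zero (by rw [l', z, zero_pow hp.ne_zero])),
      Units.ext (Eq.trans ?_ l'.symm)⟩
    exact Units.val_pow_eq_pow_val _ _
  have dt : ∀ (i : ℕ) y, v (((A (π (gam L)) - 1) ^ i) y) = (dT L.γ)^[i] (v y) := fun i => by
    induction i with
    | zero => exact fun _ => rfl
    | succ i ih =>
      intro y
      rw [pow_succ, iterate_succ_apply, dT, ← show (gam L).1 = L.γ from rfl, ← vA, ← vs]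
      exact ih _
  let x : ℕ → AM H := fun a => ∑ i ∈ range (orderOf D.η), ((D.η τ.1 ^ i)⁻¹ ^ a).val •
    A (π τ ^ i) (.ofMul u)
  have xv : ∀ a, v (x a) = L.X a := fun a => by
    rw [xa τ gt a, ← hu]
    simp only [v, x, toMul_sum, Units.coe_prod, map_prod, toMul_nsmul, Units.val_pow_eq_pow_val,
      map_pow jH]
    refine prod_congr rfl fun i _ => congrArg (· ^ _) ?_
    rw [← map_pow π]
    exact vA _ _
  obtain ⟨W, Z, w1, z1, w0, z0, w2, z2⟩ := exa (AM H) Γ A pp n _ w (π τ) (π (gam L)) _ (.ofMul u) x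
    ((pw (AI H) pp).comap (ad H)) gt.prim dv (by simpa using (r1 _ 0).2 ⟨dvd_rfl, dvd_zero _⟩)
    (by simpa using (r1 0 _).2 ⟨dvd_zero _, dvd_rfl⟩) r2
    (fun y ⟨z, k⟩ => ⟨aI H exf (ρ (π τ)) z, ((map_nsmul _ pp z).symm.trans (congrArg _ k)).trans
      (P014X.Ac.Fld.da exf _ y).symm⟩) hw (fun _ => rfl)
    (fun a c => (pi _).2 (by rw [dt, xv]; exact (h a c).2)) ((pi _).2 (by rw [dt, xv]; exact hn))
    fun a c => by
      obtain ⟨Z, _, κ, k1, k2⟩ := (h a c).1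
      exact ⟨Z, ‹_›, fun y => κ (v y), k1, fun y y0 z z0 y1 z1 y2 z2 k => (pi _).2 (vs y z ▸
        k2 _ _ (wvb e D b n L H Γ jH π ρ τ ga gt a y y0 y1) (wvb e D b n L H Γ jH π ρ τ ga gt a z z0 z1)
          (dt _ y ▸ (pi _).1 y2) (dt _ z ▸ (pi _).1 z2) k)⟩
  obtain ⟨k1, k2⟩ := ari hp dv hw cd w2 z2
  exact k2 (aca H Γ ρ (ph jH) pp n a a' (π (gam L)) _ _ Y _ G u B fr da zf ct pa a0 hG b1 b2
    (fun y k => jH.injective ((mu _ (by rw [← map_pow, k, map_one]) (fx' y)).trans (map_one _).symm))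
    W Z w1 z1 w0 z0 k1)

end Vale.Agent.P014Z.Ac
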