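import Vale.Agent.P014Z.Su.Lfa
import Vale.Agent.P014X.An.Cnf0

/-! # P014Z: the class number formula at zero for families of abelian layers -/

set_option autoImplicit false
set_option linter.all false

open NumberField NumberField.Units IsDedekindDomain Finset Module
open scoped Classical

noncomputable section

namespace Vale.Agent.P014Z.La

open Vale.Agent.P022 Vale.Agent.P022.H916 P004R.Gl
open Vale.Agent.P027M.S (Inert LI Pr)
open Vale.Agent.P027M.S.Eul (fv)
open P004R.La (euler)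
open P014X.An (hR)

variable {K L : Type} [Field K] [NumberField K] [Field L] [NumberField L]
  {j : K →+* Qb} {jL : L →+* Qb} {X : Finset (GK j →* ℂˣ)}

/-- the series does not depend on the choice -/
theorem Pc.li_eq {φ : GK j →* ℂˣ} {θ θ' : Ideal (𝓞 K) →* ℂ} (h : Pc j φ θ) (h' : Pc j φ θ')
    {s : ℝ} (hs : 1 < s) : LI θ s = LI θ' s := by
  refine inv_injective ((euler h.le hs).unique ((euler h'.le hs).congr_fun fun v => ?_))
  obtain ⟨P, hP, hv⟩ := exists_above j v.asIdeal v.isPrime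
  obtain ⟨ψ, hψ⟩ := exists_frob j hP (P016Z.EP.rc_prime v)
    ((mem_below (j := j) (P := P) _).1 (hv ▸ P016Z.EP.rc_mem v))
  have h0 : below j P ≠ ⊥ := hv ▸ v.ne_bot
  rw [fv, fv, ← hv]
  by_cases k : ∀ t : GK j, Inert P t → φ t = 1
  · rw [h.unr P hP h0 k ψ hψ, h'.unr P hP h0 k ψ hψ]
  · push Not at k
    obtain ⟨t, i, ne⟩ := k
    rw [h.ram P hP h0 t i ne, h'.ram P hP h0 t i ne]

/-- the number of characters, their values -/
theorem Ab.card (A : Ab j jL X) : X.card * finrank ℚ K = finrank ℚ L ∧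
    (∀ φ ∈ X, ∀ g, ‖(φ g : ℂ)‖ = 1) ∧ (IsTotallyComplex K → IsTotallyComplex L) := by
  obtain ⟨ι, hι⟩ := ex_hom A.le
  let _ := ι.toAlgebra
  obtain ⟨_, ρ, D⟩ := ex_dict (j := j) (jL := jL) hι fun g hg u hu => by
    simpa using mul_mem (A.cm g hg u (A.le hu)) hu
  let _ : CommGroup (L ≃ₐ[K] L) := { (inferInstance : Group (L ≃ₐ[K] L)) with
    mul_comm := fun x y => by
      obtain ⟨x, rfl⟩ := D.surj x
      obtain ⟨y, rfl⟩ := D.surj y
      rw [← mul_inv_eq_one, ← map_mul, ← map_mul, ← map_inv, ← map_mul, D.ker, mul_inv_rev,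
        ← mul_assoc]
      exact A.cm _ x.2 _ y.2 }
  have : NeZero (Monoid.exponent (L ≃ₐ[K] L) : ℂ) :=
    ⟨Nat.cast_ne_zero.2 Monoid.exponent_ne_zero_of_finite⟩
  have := Fintype.ofFinite ((L ≃ₐ[K] L) →* ℂˣ)
  have hX : ∀ φ, φ ∈ X ↔ ∀ g, ρ g = 1 → φ g = 1 := fun φ => by simp only [A.mem, D.ker]
  refine ⟨?_, fun φ h g => Complex.norm_eq_one_of_pow_eq_one (n := Nat.card (L ≃ₐ[K] L)) (by
    rw [← Units.val_pow_eq_pow_val, ← map_pow, (hX φ).1 h _ (by rw [map_pow, pow_card_eq_one']),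
      Units.val_one]) Nat.card_pos.ne', fun _ => isTotallyComplex_of_algebra K L⟩
  have e := dual ρ D.surj hX fun _ => 2
  rw [prod_const, prod_const, card_univ, ← Nat.card_eq_fintype_card,
    CommGroup.card_monoidHom_of_hasEnoughRootsOfUnity, IsGalois.card_aut_eq_finrank] at e
  rw [← Nat.pow_right_injective le_rfl (show 2 ^ finrank K L = 2 ^ X.card by exact_mod_cast e),
    mul_comm, finrank_mul_finrank]

theorem cx (hK : P004K.Iq K) : IsTotallyComplex K := ⟨fun w => InfinitePlace.not_isReal_iff_isComplex.1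
  fun h => hK.im.false (InfinitePlace.embedding_of_isReal h)⟩

theorem Ab.rank (A : Ab j jL X) (hK : P004K.Iq K) :
    IsTotallyComplex L ∧ rank L + 1 = X.card := by
  obtain ⟨a, -, b⟩ := A.card
  have := b (cx hK)
  have c := IsTotallyComplex.finrank L
  have d := InfinitePlace.card_eq_nrRealPlaces_add_nrComplexPlaces L
  have e : 0 < Fintype.card (InfinitePlace L) := Fintype.card_pos
  rw [hK.two] at a
  rw [IsTotallyComplex.nrRealPlaces_eq_zero] at d
  exact ⟨this, by unfold NumberField.Units.rank; omega⟩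

/-- the leading term at zero -/
def Ld (θ : Ideal (𝓞 K) → ℂ) (a : ℂ) : Prop := ∃ G : ℂ → ℂ,
  DifferentiableOn ℂ G {s | -1 < s.re} ∧ (∀ s : ℝ, 1 < s → s * G s = (s - 1) * LI θ s) ∧ G 0 = a

theorem prod_cnt {ι α M : Type} [Fintype ι] [CommMonoid M] {X Y : ι → Finset α} {Z : Finset α}
    (h : ∀ φ, #{i | φ ∈ X i} = #{i | φ ∈ Y i} + if φ ∈ Z then 1 else 0) (f : α → M) :
    ∏ i, ∏ φ ∈ X i, f φ = (∏ i, ∏ φ ∈ Y i, f φ) * ∏ φ ∈ Z, f φ := by
  let U := univ.biUnion X ∪ univ.biUnion Y ∪ Z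
  have k : ∀ W : ι → Finset α, (∀ i, W i ⊆ U) →
      ∏ i, ∏ φ ∈ W i, f φ = ∏ φ ∈ U, f φ ^ #{i | φ ∈ W i} := fun W hW => by
    simp only [← prod_const, prod_filter]
    rw [prod_comm]
    exact prod_congr rfl fun i _ => by rw [prod_ite_mem, inter_eq_right.2 (hW i)]
  rw [k X fun i => (subset_biUnion_of_mem X (mem_univ i)).trans
      (subset_union_left.trans subset_union_left),
    k Y fun i => (subset_biUnion_of_mem Y (mem_univ i)).trans
      (subset_union_right.trans subset_union_left),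
    ← inter_eq_right.2 (subset_union_right : Z ⊆ U), ← prod_ite_mem, ← prod_mul_distrib]
  refine prod_congr rfl fun φ _ => ?_
  rw [h, pow_add]
  split_ifs <;> simp

/-- **the class number formula at zero** for two families of layers -/
theorem cnf (hK : P004K.Iq K) {ι : Type} [Fintype ι] {F F' : ι → Type} [∀ i, Field (F i)]
    [∀ i, NumberField (F i)] [∀ i, Field (F' i)] [∀ i, NumberField (F' i)]
    {jF : ∀ i, F i →+* Qb} {jF' : ∀ i, F' i →+* Qb} {X Y : ι → Finset (GK j →* ℂˣ)}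
    {Z : Finset (GK j →* ℂˣ)} (A : ∀ i, Ab j (jF i) (X i)) (B : ∀ i, Ab j (jF' i) (Y i))
    (h : ∀ φ, #{i | φ ∈ X i} = #{i | φ ∈ Y i} + if φ ∈ Z then 1 else 0) {a : (GK j →* ℂˣ) → ℂ}
    (ha : ∀ φ ∈ Z, ∃ θ, Pc j φ θ ∧ Ld θ (a φ)) :
    ∏ i, hR (F i) = (∏ i, hR (F' i)) * ∏ φ ∈ Z, ‖a φ‖ := by
  have ex : ∀ φ : GK j →* ℂˣ, ∃ θ : Ideal (𝓞 K) →* ℂ, ((∀ g, ‖(φ g : ℂ)‖ = 1) → Pc j φ θ) ∧
      (φ ∈ Z → Ld θ (a φ)) := fun φ => by
    by_cases k : φ ∈ Z
    · obtain ⟨θ, p, q⟩ := ha φ k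
      exact ⟨θ, fun _ => p, fun _ => q⟩
    by_cases n : ∀ g, ‖(φ g : ℂ)‖ = 1
    · obtain ⟨θ, p⟩ := ex_pc φ fun g => (n g).le
      exact ⟨θ, fun _ => p, fun z => absurd z k⟩
    · exact ⟨1, fun z => absurd z n, fun z => absurd z k⟩
  choose θ t1 t2 using ex
  choose! G G1 G2 G3 using t2
  have c1 := fun i => ((A i).rank hK).1
  have c2 := fun i => ((B i).rank hK).1
  choose H H1 H2 H3 using fun i => P014X.zf0 (F i)
  choose H' H1' H2' H3' using fun i => P014X.zf0 (F' i)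
  have key := P014X.An.Cnf0.idn (f := fun s => (s - 1) ^ Z.card * ∏ i, H i s)
    (g := fun s => (∏ i, H' i s) * ∏ φ ∈ Z, G φ s)
    (DifferentiableOn.mul (by fun_prop) (DifferentiableOn.fun_finsetProd fun i _ => H1 i))
    ((DifferentiableOn.fun_finsetProd fun i _ => H1' i).mul
      (DifferentiableOn.fun_finsetProd fun φ k => G1 φ k)) fun t ht => by
      have t0 : (t : ℂ) ≠ 0 := Complex.ofReal_ne_zero.2 (by linarith)
      have a1 := prod_cnt h fun φ => LI (θ φ) t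
      have a2 := prod_cnt h fun _ => (t : ℂ)
      rw [← prod_congr rfl fun i _ => lfa (A i) (fun φ k => t1 φ ((A i).card.2.1 φ k)) ht,
        ← prod_congr rfl fun i _ => lfa (B i) (fun φ k => t1 φ ((B i).card.2.1 φ k)) ht] at a1
      simp only [prod_const, ← ((A _).rank hK).2, ← ((B _).rank hK).2, pow_succ,
        prod_mul_distrib] at a2
      have a3 := prod_congr rfl fun i (_ : i ∈ univ) => H2 i t (by simpa using ht)
      have a4 := prod_congr rfl fun i (_ : i ∈ univ) => H2' i t (by simpa using ht)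
      have a5 := prod_congr rfl fun φ (k : φ ∈ Z) => G2 φ k t ht
      simp only [prod_mul_distrib, prod_const] at a3 a4 a5
      have n : ∏ i, (t : ℂ) ^ rank (F' i) ≠ 0 := prod_ne_zero_iff.2 fun _ _ => pow_ne_zero _ t0
      rw [mul_right_comm, mul_left_inj' (pow_ne_zero _ t0)] at a2
      rw [a2, a1] at a3
      refine mul_left_cancel₀ (mul_ne_zero n (pow_ne_zero Z.card t0)) ?_
      linear_combination (t - 1 : ℂ) ^ Z.card * a3 -
        ((∏ i, (t : ℂ) ^ rank (F' i)) * ∏ i, H' i t) * a5 -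
        ((t - 1 : ℂ) ^ Z.card * ∏ φ ∈ Z, LI (θ φ) t) * a4
  have k := congrArg norm key
  have p : ∀ (K : Type) [Field K] [NumberField K],
      ‖((classNumber K * regulator K / torsionOrder K : ℝ) : ℂ)‖ = hR K := fun K _ _ => by
    have := regulator_pos K
    rw [Complex.norm_real, Real.norm_of_nonneg (by positivity), hR]
  simp only [zero_sub, norm_mul, norm_pow, norm_neg, norm_one, one_pow, one_mul, norm_prod, H3, H3',
    p] at k
  rw [k, prod_congr rfl fun φ z => congrArg norm (G3 φ z)]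

/-- one pair -/
theorem cnf2 (hK : P004K.Iq K) {F : Type} [Field F] [NumberField F] {jF : F →+* Qb}
    {Y : Finset (GK j →* ℂˣ)} (A : Ab j jL X) (B : Ab j jF Y) (le : GK jL ≤ GK jF)
    {a : (GK j →* ℂˣ) → ℂ} (ha : ∀ φ ∈ X \ Y, ∃ θ, Pc j φ θ ∧ Ld θ (a φ)) :
    hR L = hR F * ∏ φ ∈ X \ Y, ‖a φ‖ := by
  have sub : Y ⊆ X := fun φ k => (A.mem φ).2 fun g hg => (B.mem φ).1 k g (le hg)
  simpa using cnf hK (ι := Unit) (F := fun _ => L) (F' := fun _ => F) (fun _ => A) (fun _ => B)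
    (fun φ => by
      by_cases k : φ ∈ Y
      · simp [k, sub k]
      · by_cases x : φ ∈ X <;> simp [k, x]) ha

end Vale.Agent.P014Z.La
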