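import Vale.Agent.P014X.Ac.Fld
import Vale.Agent.P014X.Ac.Lay

/-! # P014Z, the class number step on the faithful part (words and rows) -/

set_option autoImplicit false
set_option linter.all false

open NumberField NumberField.Units IsDedekindDomain Function Finset
open scoped Classical

noncomputable section

namespace Vale.Agent.P014Z.Ac

open P014X.Ac (Dp Pg pw nr AM AI am ai ad au pm Js Lo dp fxM EXF)
open P014X.An (Pm nU vU hR Cr xs)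

/-! ## algebra -/

section

variable {Λ M I ι : Type} [CommRing Λ] [AddCommGroup M] [AddCommGroup I]

/-- the norm of a set of primes -/
def nu (n : ι → Λ) (T : Finset ι) : Λ := ∏ i ∈ T, n i

/-- the projector on the faithful part -/
def mm (S : Finset ι) (e : ι → ℕ) (n : ι → Λ) : Λ := ∏ i ∈ S, ((e i : Λ) - n i)

/-- alternating sums -/
def alt (S : Finset ι) (v : Finset ι → ℕ) : ℤ := ∑ T ∈ S.powerset, (-1) ^ T.card * (v T : ℤ)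

/-- `P' T` is the part of `P` which is fixed by the group of `T` -/
structure Sb (a : Λ →+* AddMonoid.End M) (S : Finset ι) (e : ι → ℕ) (n : ι → Λ) (P : AddSubgroup M)
    (P' : Finset ι → AddSubgroup M) : Prop where
  le : ∀ T ⊆ S, P' T ≤ P
  nm : ∀ T ⊆ S, ∀ x ∈ P, a (nu n T) x ∈ P' T
  fx : ∀ T ⊆ S, ∀ x ∈ P' T, a (nu n T) x = (∏ i ∈ T, e i) • x

variable (Λ M I ι) in
/-- a family of layers -/
structure Mv where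
  X : Dp M I
  a : Λ →+* AddMonoid.End M
  a' : Λ →+* AddMonoid.End I
  S : Finset ι
  e : ι → ℕ
  n : ι → Λ
  M0 : AddSubgroup M
  Mt : Finset ι → AddSubgroup M
  It : Finset ι → AddSubgroup I
  Iq : Finset ι → AddSubgroup I
  C : AddSubgroup M

namespace Mv

variable (Y : Mv Λ M I ι)

/-- the projector on numbers -/
def m : M →+ M := Y.a (mm Y.S Y.e Y.n)

/-- the projector on divisors -/
def m' : I →+ I := Y.a' (mm Y.S Y.e Y.n)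

/-- unit index times lower class number -/
def l (T : Finset ι) : ℕ :=
  (Y.C.map (Y.a (nu Y.n T))).relIndex (Y.X.U ⊓ Y.Mt T) * Y.X.h (Y.M0 ⊓ Y.Mt T) (Y.Iq T)

/-- norm index times upper class number -/
def r (T : Finset ι) : ℕ :=
  Y.X.e (Y.Mt T) (Y.M0 ⊓ Y.Mt T) * Y.X.h (Y.Mt T) (Y.It T) * Y.X.f (Y.It T) (Y.Iq T)

/-- the upper rank -/
def k1 (T : Finset ι) : ℕ := Module.finrank ℤ ↥(Y.Mt T ⊓ Y.X.d.ker)

/-- the lower rank -/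
def k0 (T : Finset ι) : ℕ := Module.finrank ℤ ↥(Y.M0 ⊓ Y.Mt T ⊓ Y.X.d.ker)

/-- the axioms -/
structure Ok (p : ℕ) : Prop where
  pr : p.Prime
  nn : ∀ i ∈ Y.S, ¬ p ∣ Y.e i ∧ Y.n i * Y.n i = Y.e i * Y.n i
  da : ∀ l x, Y.X.d (Y.a l x) = Y.a' l (Y.X.d x)
  aN : ∀ l x, Y.X.N (Y.a l x) = Y.a l (Y.X.N x)
  aN' : ∀ l x, Y.X.N' (Y.a' l x) = Y.a' l (Y.X.N' x)
  aJ : ∀ l, ∀ x ∈ Y.X.J, Y.a' l x ∈ Y.X.J
  a0 : ∀ l, ∀ x ∈ Y.M0, Y.a l x ∈ Y.M0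
  aC : ∀ l, ∀ x ∈ Y.C, Y.a l x ∈ Y.C
  CU : Y.C ≤ Y.X.U
  m0 : Y.Mt ∅ = ⊤
  i0 : Y.It ∅ = ⊤
  lay : ∀ T ⊆ Y.S, Y.X.Lp (Y.Mt T) (Y.M0 ⊓ Y.Mt T) (Y.It T) (Y.Iq T)
  sM : Sb Y.a Y.S Y.e Y.n ⊤ Y.Mt
  sI : Sb Y.a' Y.S Y.e Y.n ⊤ Y.It
  sQ : Sb Y.a' Y.S Y.e Y.n (Y.Iq ∅) Y.Iq

end Mv

end

/-- **inclusion and exclusion for indices** -/
def MOB : Prop := ∀ (Λ M ι : Type) [CommRing Λ] [AddCommGroup M] (a : Λ →+* AddMonoid.End M) (p : ℕ)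
  (S : Finset ι) (e : ι → ℕ) (n : ι → Λ) (R P : AddSubgroup M) (R' P' : Finset ι → AddSubgroup M),
  p.Prime → (∀ i ∈ S, ¬ p ∣ e i ∧ n i * n i = e i * n i) → R ≤ P → Sb a S e n R R' →
  Sb a S e n P P' → R.relIndex P ≠ 0 → (∀ T ⊆ S, R' T ≤ P' T ∧ (R' T).relIndex (P' T) ≠ 0) →
  alt S (fun T => padicValNat p ((R' T).relIndex (P' T))) =
    padicValNat p (R.relIndex (P.map (a (mm S e n)))) ∧
  (R.map (a (mm S e n))).relIndex (P.map (a (mm S e n))) ≠ 0 ∧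
  padicValNat p ((R.map (a (mm S e n))).relIndex (P.map (a (mm S e n)))) =
    padicValNat p (R.relIndex (P.map (a (mm S e n))))

/-- inclusion and exclusion for ranks -/
def RKM : Prop := ∀ (Λ M ι : Type) [CommRing Λ] [AddCommGroup M] (a : Λ →+* AddMonoid.End M)
  (S : Finset ι) (e : ι → ℕ) (n : ι → Λ) (P : AddSubgroup M) (P' : Finset ι → AddSubgroup M),
  (∀ i ∈ S, e i ≠ 0 ∧ n i * n i = e i * n i) → Sb a S e n P P' → Module.Finite ℤ P →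
  alt S (fun T => Module.finrank ℤ (P' T)) = Module.finrank ℤ (P.map (a (mm S e n)))

/-- **the package** -/
def KEY : Prop := ∀ (Λ M I ι : Type) [CommRing Λ] [AddCommGroup M] [AddCommGroup I] (Y : Mv Λ M I ι)
  (p r : ℕ), Y.Ok p → Module.Finite ℤ Y.X.d.ker → (∀ T ⊆ Y.S, Y.l T ≠ 0 ∧ Y.r T ≠ 0) →
  alt Y.S (fun T => padicValNat p (Y.l T)) ≤ alt Y.S (fun T => padicValNat p (Y.r T)) →
  r + alt Y.S Y.k0 ≤ alt Y.S Y.k1 → Pg p r 0 Y.X Y.M0 Y.C Y.m Y.m'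

/-- the eigenspaces -/
def DEC : Prop := ∀ (M : Type) [AddCommGroup M] (p d : ℕ) (t : AddMonoid.End M) (V : AddSubgroup M)
  (W : ZMod p → AddSubgroup M), p.Prime → d ∣ p - 1 → t ^ d = 1 → (∀ x ∈ V, t x ∈ V) →
  (∀ l : ℕ, l.Prime → l ∣ d → ∀ x ∈ V, ∑ i ∈ range l, (t ^ (d / l * i)) x ∈ pw M p) →
  (∀ a, IsPrimitiveRoot a d → ∀ x ∈ V, t x - a.val • x ∈ pw M p → x ∈ W a) →
  (∀ a, IsPrimitiveRoot a d → (pw M p).relIndex (W a) ≠ 0) → ∀ A : Finset (ZMod p),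
  (∀ a, a ∈ A ↔ IsPrimitiveRoot a d) →
  (pw M p).relIndex V ≠ 0 ∧ (pw M p).relIndex V ≤ ∏ a ∈ A, (pw M p).relIndex (W a)

/-! ## fields -/

section

variable {H Γ : Type} [Field H] [NumberField H] [CommGroup Γ] (ρ : Γ →* (H ≃+* H))

/-- the field fixed by `τ` -/
abbrev K1 (τ : Γ) : Subfield H := P014X.Ac.Ly.Fx (ρ τ)

theorem com (τ γ : Γ) (x : H) : ρ τ (ρ γ x) = ρ γ (ρ τ x) :=
  congrArg (fun s : H ≃+* H => s x) ((map_mul ρ τ γ).symm.trans ((congrArg ρ (mul_comm τ γ)).trans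
    (map_mul ρ γ τ)))

/-- restriction -/
def rs0 (τ γ : Γ) : K1 ρ τ →+* K1 ρ τ :=
  ((ρ γ).toRingHom.comp (K1 ρ τ).subtype).codRestrict _ fun x =>
    (com ρ τ γ x).trans (congrArg (ρ γ) x.2)

theorem rs_mul (τ γ δ : Γ) : (rs0 ρ τ γ).comp (rs0 ρ τ δ) = rs0 ρ τ (γ * δ) :=
  RingHom.ext fun x => Subtype.ext (congrArg (fun s : H ≃+* H => s x) (map_mul ρ γ δ).symm)

theorem rs_one (τ : Γ) : rs0 ρ τ 1 = RingHom.id _ :=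
  RingHom.ext fun x => Subtype.ext (congrArg (fun s : H ≃+* H => s x) (map_one ρ))

/-- the action on the fixed field -/
def rs (τ : Γ) : Γ →* (K1 ρ τ ≃+* K1 ρ τ) :=
  MonoidHom.mk' (fun γ => RingEquiv.ofRingHom (rs0 ρ τ γ) (rs0 ρ τ γ⁻¹)
    (by rw [rs_mul, mul_inv_cancel, rs_one]) (by rw [rs_mul, inv_mul_cancel, rs_one]))
    fun γ δ => RingEquiv.ext fun x => (DFunLike.congr_fun (rs_mul ρ τ γ δ) x).symm

theorem rs_val (τ γ : Γ) (x : K1 ρ τ) : (rs ρ τ γ x : H) = ρ γ x := rfl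

/-- the field fixed by `τ` and `σ` -/
abbrev K2 (τ σ : Γ) : Subfield (K1 ρ τ) := P014X.Ac.Ly.Fx (rs ρ τ σ)

/-- the action of the group ring -/
def gr {M : Type} [AddCommGroup M] (f : Γ →* AddMonoid.End M) :
    MonoidAlgebra ℤ Γ →+* AddMonoid.End M :=
  MonoidAlgebra.liftNCRingHom (Int.castRingHom _) f fun n _ => Int.cast_commute n _

theorem gr_of {M : Type} [AddCommGroup M] (f : Γ →* AddMonoid.End M) (γ : Γ) :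
    gr f (MonoidAlgebra.of ℤ Γ γ) = f γ := by
  simp [gr, MonoidAlgebra.liftNCRingHom]

/-- the group ring acts on numbers -/
def gM : MonoidAlgebra ℤ Γ →+* AddMonoid.End (AM H) := gr ((P014X.Ac.Fld.aM H).comp ρ)

/-- the group ring acts on divisors -/
def gI (e : EXF) : MonoidAlgebra ℤ Γ →+* AddMonoid.End (AI H) := gr ((P014X.Ac.Fld.aI H e).comp ρ)

/-- the norm element -/
def nl (t : ℕ → Γ) (l : ℕ) : MonoidAlgebra ℤ Γ := ∑ i ∈ range l, MonoidAlgebra.of ℤ Γ (t l ^ i)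

/-- the generator of the group of `T` -/
def tT (t : ℕ → Γ) (T : Finset ℕ) : Γ := ∏ l ∈ T, t l

/-- the family of layers of `H` -/
def mv (e : EXF) (p : ℕ) (σ : Γ) (S : Finset ℕ) (t : ℕ → Γ) (u : H) :
    Mv (MonoidAlgebra ℤ Γ) (AM H) (AI H) ℕ :=
  ⟨dp p (ρ σ) ∅, gM ρ, gI ρ e, S, id, nl t, fxM (ρ σ), fun T => fxM (ρ (tT t T)),
    fun T => (ai (algebraMap (K1 ρ (tT t T)) H)).range,
    fun T => (ai ((algebraMap (K1 ρ (tT t T)) H).comp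
      (algebraMap (K2 ρ (tT t T) σ) (K1 ρ (tT t T))))).range,
    (Cr ρ (ρ σ u / u)).toAddSubgroup.map (au H)⟩

/-- `F` is the fixed field of `A`, `X` is the dual of `Γ / A` -/
structure Fi {F : Type} [Field F] (i : F →+* H) (A : Subgroup Γ) (X : Finset (Γ →* ℂˣ)) : Prop where
  fix : ∀ x, x ∈ i.range ↔ ∀ γ ∈ A, ρ γ x = x
  mem : ∀ χ, χ ∈ X ↔ ∀ γ ∈ A, χ γ = 1

/-- `Γ` permutes the places simply transitively and its fixed field is complex -/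
structure Fr (φ : H →+* ℂ) : Prop where
  cx : ∀ (F : Type) [Field F] [NumberField F] (i : F →+* H),
    (∀ x, (∀ γ, ρ γ x = x) → x ∈ i.range) → IsTotallyComplex F
  bij : Bijective fun γ => InfinitePlace.mk (φ.comp (ρ γ).toRingHom)

/-- the zeta functions of the subfields -/
structure Zf (L : (Γ →* ℂˣ) → ℝ → ℂ) : Prop where
  ne : ∀ χ (s : ℝ), 1 < s → L χ s ≠ 0
  eq : ∀ (F : Type) [Field F] [NumberField F] (i : F →+* H) A X, Fi ρ i A X → ∀ s : ℝ, 1 < s →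
    dedekindZeta F s = ∏ χ ∈ X, L χ s

/-- the elements, and the faithful characters -/
structure Da (p : ℕ) (σ : Γ) (S : Finset ℕ) (t : ℕ → Γ) (Y : Finset (Γ →* ℂˣ)) : Prop where
  pr : p.Prime
  os : orderOf σ = p
  ot : ∀ l ∈ S, l.Prime ∧ l ≠ p ∧ orderOf (t l) = l
  mem : ∀ χ, χ ∈ Y ↔ χ σ ≠ 1 ∧ ∀ l ∈ S, χ (t l) ≠ 1

/-- the continuation to zero -/
def Ct (L : ℝ → ℂ) (G : ℂ → ℂ) : Prop :=
  DifferentiableOn ℂ G {s | -1 < s.re} ∧ ∀ s : ℝ, 1 < s → s * G s = (s - 1) * L s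

end

/-- the norm element of `T` -/
def NUT : Prop := ∀ (Γ : Type) [CommGroup Γ] (p : ℕ) (σ : Γ) S t Y, Da p σ S t Y → ∀ T ⊆ S,
  orderOf (tT t T) = ∏ l ∈ T, l ∧
  nu (nl t) T = ∑ i ∈ range (∏ l ∈ T, l), MonoidAlgebra.of ℤ Γ (tT t T ^ i) ∧
  (∀ χ : Γ →* ℂˣ, χ (tT t T) = 1 ↔ ∀ l ∈ T, χ (t l) = 1) ∧ ∀ l ∈ T, nl t l * nl t l = l * nl t l

/-- inclusion and exclusion for characters -/
def IEX : Prop := ∀ (Γ : Type) [CommGroup Γ] (p : ℕ) (σ : Γ) S t Y, Da p σ S t Y →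
  ∀ X : Finset ℕ → Finset (Γ →* ℂˣ), (∀ T ⊆ S, ∀ χ, χ ∈ X T ↔ χ σ ≠ 1 ∧ χ (tT t T) = 1) →
  alt S (fun T => (X T).card) = Y.card ∧ ∀ (β : Type) [Field β] (f : (Γ →* ℂˣ) → β),
    (∀ χ : Γ →* ℂˣ, χ σ ≠ 1 → f χ ≠ 0) →
    ∏ T ∈ S.powerset, (∏ χ ∈ X T, f χ) ^ ((-1 : ℤ) ^ T.card) = ∏ χ ∈ Y, f χ

/-- ranks -/
def RKF : Prop := ∀ (H Γ : Type) [Field H] [NumberField H] [CommGroup Γ] [Fintype Γ]
  (ρ : Γ →* (H ≃+* H)) φ, Fr ρ φ → (∀ (F : Type) [Field F] [NumberField F] (i : F →+* H) A X,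
    Fi ρ i A X → IsTotallyComplex F ∧ rank F + 1 = X.card) ∧
  ∀ (τ σ : Γ) (X₁ X₂ : Finset (Γ →* ℂˣ)), (∀ χ, χ ∈ X₁ ↔ χ τ = 1) →
    (∀ χ, χ ∈ X₂ ↔ χ τ = 1 ∧ χ σ = 1) →
    Fi ρ (algebraMap (K1 ρ τ) H) (Subgroup.zpowers τ) X₁ ∧
    Fi ρ ((algebraMap (K1 ρ τ) H).comp (algebraMap (K2 ρ τ σ) (K1 ρ τ)))
      (Subgroup.zpowers τ ⊔ Subgroup.zpowers σ) X₂

/-- a unit of Minkowski -/
def MNK : Prop := ∀ (H Γ : Type) [Field H] [NumberField H] [CommGroup Γ] [Fintype Γ]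
  (ρ : Γ →* (H ≃+* H)) φ, Fr ρ φ → ∃ v : (𝓞 H)ˣ, ∀ χ : Γ →* ℂˣ, χ ≠ 1 → xs ρ φ (vU v) χ ≠ 0

/-- **the axioms hold** -/
def OKF : Prop := ∀ (H Γ : Type) [Field H] [NumberField H] [CommGroup Γ] [Fintype Γ]
  (ρ : Γ →* (H ≃+* H)) φ (e : EXF) p σ S t Y (u : H), Fr ρ φ → Da p σ S t Y → u ≠ 0 →
  (∀ γ, ∃ v, vU v = ρ γ (ρ σ u / u)) → (mv ρ e p σ S t u).Ok p

/-- **covolumes of one pair of fields** -/
def CVT : Prop := ∀ (H Γ : Type) [Field H] [NumberField H] [CommGroup Γ] [Fintype Γ]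
  (ρ : Γ →* (H ≃+* H)) φ (e : EXF) p σ S t Y (u : H), Fr ρ φ → Da p σ S t Y → u ≠ 0 →
  (∀ γ, ∃ v, vU v = ρ γ (ρ σ u / u)) → (∀ χ : Γ →* ℂˣ, χ σ ≠ 1 → xs ρ φ u χ ≠ 0) → ∀ T ⊆ S,
  ∀ X : Finset (Γ →* ℂˣ), (∀ χ, χ ∈ X ↔ χ σ ≠ 1 ∧ χ (tT t T) = 1) →
  (mv ρ e p σ S t u).l T ≠ 0 ∧ (mv ρ e p σ S t u).r T ≠ 0 ∧
  ((mv ρ e p σ S t u).l T : ℝ) * hR (K1 ρ (tT t T)) =
    (mv ρ e p σ S t u).r T * hR (K2 ρ (tT t T) σ) * ∏ χ ∈ X, ‖2 * xs ρ φ u χ‖ ∧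
  (mv ρ e p σ S t u).k1 T = rank (K1 ρ (tT t T)) ∧ (mv ρ e p σ S t u).k0 T = rank (K2 ρ (tT t T) σ)

/-- **the class number formula at zero for the faithful characters** -/
def CN0 : Prop := ∀ (H Γ : Type) [Field H] [NumberField H] [CommGroup Γ] [Fintype Γ]
  (ρ : Γ →* (H ≃+* H)) φ p σ S t Y L (G : (Γ →* ℂˣ) → ℂ → ℂ), Fr ρ φ → Da p σ S t Y → Zf ρ L →
  (∀ χ ∈ Y, Ct (L χ) (G χ)) →
  ∏ T ∈ S.powerset, (hR (K1 ρ (tT t T)) / hR (K2 ρ (tT t T) σ)) ^ ((-1 : ℤ) ^ T.card) =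
    ∏ χ ∈ Y, ‖G χ 0‖

/-- the generic unit -/
def GEN : Prop := ∀ (H Γ : Type) [Field H] [NumberField H] [CommGroup Γ] [Fintype Γ]
  (ρ : Γ →* (H ≃+* H)) φ p σ S t Y (u : Hˣ) (B : Finset (Pm H)), Fr ρ φ → Da p σ S t Y →
  ad H (.ofMul u) ∈ Js B → (∀ w ∈ B, ∃ l ∈ S, ai (ρ (t l)).toRingHom (pm w) = pm w) →
  (∀ χ ∈ Y, xs ρ φ (u : H) χ ≠ 0) → ∃ v : (𝓞 H)ˣ, (∀ χ : Γ →* ℂˣ, χ σ ≠ 1 → xs ρ φ (vU v) χ ≠ 0) ∧
    (∀ χ ∈ Y, xs ρ φ (vU v) χ = (∏ l ∈ S, l : ℕ) * xs ρ φ (u : H) χ) ∧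
    gM ρ (mm S id (nl t)) (au H (.ofMul v)) =
      gM ρ (mm S id (nl t) * mm S id (nl t)) (.ofMul u)

/-- **the class number step** -/
def ACA : Prop := ∀ (H Γ : Type) [Field H] [NumberField H] [CommGroup Γ] [Fintype Γ]
  (ρ : Γ →* (H ≃+* H)) φ (p k a b : ℕ) (g : Γ) S t Y L (G : (Γ →* ℂˣ) → ℂ → ℂ) (u : Hˣ)
  (B : Finset (Pm H)), Fr ρ φ → Da p (g ^ p ^ k) S t Y → Zf ρ L → (∀ χ ∈ Y, Ct (L χ) (G χ)) →
  ¬ p ∣ b → a ≠ 0 → (∀ χ ∈ Y, a * ‖2 * xs ρ φ (u : H) χ‖ = b * ‖G χ 0‖) →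
  ad H (.ofMul u) ∈ Js B → (∀ w ∈ B, ∃ l ∈ S, ai (ρ (t l)).toRingHom (pm w) = pm w) →
  (∀ x : H, x ^ p = 1 → x = 1) → ∀ W Z : AddSubgroup (AM H),
  (∀ x, ad H x ∈ pw (AI H) p → ∑ i ∈ range p, am (ρ ((g ^ p ^ k) ^ i)).toRingHom x ∈ pw (AM H) p →
    (∀ l ∈ S, ∑ i ∈ range l, am (ρ (t l ^ i)).toRingHom x ∈ pw (AM H) p) → x ∈ W) →
  (∀ γ, gM ρ (mm S id (nl t) * (MonoidAlgebra.of ℤ Γ (γ * g ^ p ^ k) - MonoidAlgebra.of ℤ Γ γ))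
    (.ofMul u) ∈ Z) →
  (pw (AM H) p).relIndex W ≠ 0 → (pw (AM H) p).relIndex Z ≠ 0 →
  (pw (AM H) p).relIndex W < p ^ (Y.card + (p - 1) * p ^ k) →
  p ^ (2 * Y.card) ≤ (pw (AM H) p).relIndex W * (pw (AM H) p).relIndex Z

end Vale.Agent.P014Z.Ac
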