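import Vale.Agent.P014Z.Su.Mod
import Vale.Agent.P014Z.Su.Lfz0
import Vale.Agent.P014Z.Lk.Cyc
import Vale.Agent.P022K.G2.Tr

/-! # P014Z, block Ac: the character sum of the logarithms of the unit at Heegner points -/

set_option autoImplicit false
set_option linter.all false

open NumberField UpperHalfPlane Finset
open scoped Classical

noncomputable section

namespace Vale.Agent.P014Z.Ac.Sm

open Vale.Agent.P022 (Qb GQ GK)
open P027M.M (io)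
open P004K
open Vale.Agent.P027M.S (Inert)
open Vale.Agent.P022E.GW (Ov)
open Vale.Agent.P022K.G2 (Tv)
open P014X.An (lg lg_lat)
open Su (us LL yy us_log nl_unit)
open Lk.Cy (cy cy_cy ex_hc)

variable {f : ℕ} [NeZero f]

/-- the logarithm at a torsion point -/
def lq (τ : ℍ) (x y : ZMod f) : ℂ := (lg τ (x.val / f * τ + y.val / f) : ℝ)

theorem su (F : ZMod f → ℂ) (h : ∀ x, ¬ IsUnit x → F x = 0) :
    ∑ x, F x = ∑ x : (ZMod f)ˣ, F x :=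
  (Fintype.sum_of_injective _ Units.val_injective _ F (fun x k => h x k) fun _ => rfl).symm

theorem LL_eq (ψ : DirichletCharacter ℂ f) (τ : ℍ) :
    LL ψ τ = ∑ x : (ZMod f)ˣ, ∑ y : (ZMod f)ˣ, ψ (x * y) * lq τ (x : ZMod f) y := by
  rw [LL, su _ fun x k => by simp [ψ.map_nonunit k]]
  exact sum_congr rfl fun x _ => su (fun y => ψ ((x : ZMod f) * y) * lq τ (x : ZMod f) y) fun y k => by
    simp [ψ.map_nonunit k]

theorem sh (ψ : DirichletCharacter ℂ f) (k x : (ZMod f)ˣ) (F : ZMod f → ℂ) :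
    ∑ a : (ZMod f)ˣ, ψ a * F (k * yy f a x) = ψ⁻¹ k * ∑ y : (ZMod f)ˣ, ψ (x * y) * F y := by
  rw [mul_sum, ← Equiv.sum_comp (Equiv.mulLeft (k⁻¹ * x))]
  refine sum_congr rfl fun y _ => ?_
  have e : (k : ZMod f) * yy f (k⁻¹ * x * y : (ZMod f)ˣ) x = y := by
    rw [yy, ← Units.val_mul, ← Units.val_mul]
    congr 1
    simp [mul_comm x y, mul_assoc]
  simp only [Equiv.coe_mulLeft]
  rw [e, MulChar.inv_apply_eq_inv', mul_assoc k⁻¹, Units.val_mul, map_mul,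
    Units.val_mul, mul_assoc, ← MulChar.coe_toUnitHom, ← MulChar.coe_toUnitHom ψ k, map_inv,
    Units.val_inv_eq_inv_val]

theorem lq_mul (hf : 1 < f) {τ τ' : ℍ} (e : (τ' : ℂ) = f * τ) (x : (ZMod f)ˣ) (c : ℕ) (y : ZMod f) :
    (lg (f * τ) ((x : ZMod f).val * τ + c * y.val / f) : ℝ) = lq τ' (x : ZMod f) (c * y) := by
  have f0 : (f : ℂ) ≠ 0 := NeZero.ne _
  obtain ⟨n, k⟩ := (ZMod.intCast_eq_intCast_iff_dvd_sub ((c : ZMod f) * y).val (c * y.val) f).1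
    (by simp)
  have k : (c : ℂ) * y.val - ((c : ZMod f) * y).val = f * n := by exact_mod_cast k
  have := lg_lat τ'.2 (nl_unit hf τ' x.isUnit (((c : ZMod f) * y).val / f)) 0 n
  push_cast at this
  rw [lq, ← this, ← e]
  congr 2
  rw [e]
  field_simp
  linear_combination k

/-- **the sum over the conjugates under the cyclotomic group** -/
theorem us_sum (hf : 1 < f) (ψ : DirichletCharacter ℂ f) {c : ℕ} (cc : c.Coprime f) (m : ℕ)
    {τ τ' : ℍ} (e : (τ' : ℂ) = f * τ) :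
    ∑ a : (ZMod f)ˣ, ψ a * (Real.log ‖us f c m a τ‖ : ℝ) = 12 * m * (c - ψ⁻¹ c) * LL ψ τ' := by
  have k : ∀ a : (ZMod f)ˣ, ψ a * (Real.log ‖us f c m a τ‖ : ℝ) = 12 * m * ∑ x : (ZMod f)ˣ,
      (c * (ψ a * lq τ' (x : ZMod f) ((1 : (ZMod f)ˣ) * yy f a x)) -
        ψ a * lq τ' (x : ZMod f) (ZMod.unitOfCoprime c cc * yy f a x)) := fun a => by
    rw [us_log hf]
    push_cast
    rw [mul_left_comm, mul_sum]
    refine congrArg _ (sum_congr rfl fun x _ => ?_)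
    have := lq_mul hf e x 1 (yy f a x)
    simp only [Nat.cast_one, one_mul] at this
    rw [ZMod.coe_unitOfCoprime, ← lq_mul hf e, one_mul, ← this]
    ring
  simp only [k]
  rw [← mul_sum, sum_comm, LL_eq, mul_assoc (12 * m : ℂ), mul_sum _ _ (_ - _)]
  refine congrArg _ (sum_congr rfl fun x _ => ?_)
  rw [sum_sub_distrib, ← mul_sum, sh, sh, ZMod.coe_unitOfCoprime, Units.val_one, map_one]
  ring

variable {K : Type} [Field K] [NumberField K] {j : K →+* Qb} {c c₀ m : ℕ} {I : Ideal (𝓞 K)} {s : Qb}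

variable (j f I c c₀ m s) in
/-- `s` is the value of the unit at the Heegner point -/
def Uv : Prop := ∀ g ∈ GK j, ∀ σ τ τ' (t : ℤ), Ex σ g → Hp (JJ j) (f ^ 2) I c τ →
  Cj0 σ (f ^ 2) τ τ' → Cy σ f t → io (g s) = us f c₀ m (t : ZMod f) τ'

theorem Uv.val (hg1 : HG1) (iq : Iq K) (c0 : 0 < c) (cop : c.Coprime f) (cn : Cn (f ^ 2) I)
    (u : Uv f j c c₀ m I s) {τ₀ τ : ℍ} (h0 : Hp (JJ j) (f ^ 2) I c τ₀) {g h : GQ} (hg : g ∈ GK j)
    (hh : h ∈ Hc j c) {σ : ℂ ≃+* ℂ} (e : Ex σ g) (q : Cj0 σ (f ^ 2) τ₀ τ) :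
    io ((g * h) s) = us f c₀ m (cy f g * cy f h : (ZMod f)ˣ) τ := by
  obtain ⟨-, -, -, fx, -⟩ := hg1 K j iq _ c I (pow_pos (NeZero.pos f) 2) c0 (cop.pow_right 2) cn
  obtain ⟨σ', e'⟩ := ex_ex h
  have := u _ (mul_mem hg hh.1) _ τ₀ τ _ (e.mul e') h0 (((fx τ₀ σ' h hh.1 h0 e').1 hh).trans q)
    (cy_cy (e.mul e'))
  simpa using this

theorem Uv.fix (hg1 : HG1) (iq : Iq K) (c0 : 0 < c) (cop : c.Coprime f) (cn : Cn (f ^ 2) I)
    (u : Uv f j c c₀ m I s) {h : GQ} (hh : h ∈ Hc j c) (e : cy f h = 1) : h s = s := by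
  have M0 := pow_pos (NeZero.pos f) 2
  obtain ⟨⟨τ₀, h0⟩, -⟩ := hg1 K j iq _ c I M0 c0 (cop.pow_right 2) cn
  have a : ∀ h ∈ Hc j c, io ((1 * h : GQ) s) = us f c₀ m (cy f 1 * cy f h : (ZMod f)ˣ) τ₀ :=
    fun h hh => u.val hg1 iq c0 cop cn h0 (one_mem _) hh (σ := 1) (fun _ => rfl)
      ((cj0 1 _ M0).2.2.2.2.2.1 τ₀)
  refine P004K.io_inj ?_
  have b := a h hh
  rw [e, ← map_one (cy f), ← a 1 (one_mem _), one_mul, one_mul] at b
  exact b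

theorem Uv.ne (hg1 : HG1) (iq : Iq K) (c0 : 0 < c) (cop : c.Coprime f) (cn : Cn (f ^ 2) I)
    (hf : 1 < f) (u : Uv f j c c₀ m I s) : s ≠ 0 := fun z => by
  have M0 := pow_pos (NeZero.pos f) 2
  obtain ⟨⟨τ₀, h0⟩, -⟩ := hg1 K j iq _ c I M0 c0 (cop.pow_right 2) cn
  have := u.val hg1 iq c0 cop cn h0 (one_mem _) (one_mem _) (σ := 1) (fun _ => rfl)
    ((cj0 1 _ M0).2.2.2.2.2.1 τ₀)
  rw [z, map_zero, map_zero] at this
  exact Su.us_ne hf _ _ _ _ this.symm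

/-- **the sum over the conjugates of the value at the Heegner point** -/
theorem heeg (r1 : P004K.RC1) (r2 : RC2) (hg1 : HG1) (iq : Iq K) (c0 : 0 < c) (cop : c.Coprime f)
    (cn : Cn (f ^ 2) I) (spl : ∀ l P, Ov l P → l ∣ f → ∀ g, Inert P g → g ∈ GK j) (hf : 1 < f)
    (cc : c₀.Coprime f) (u : Uv f j c c₀ m I s) {V : Subgroup GQ}
    (hV : ∀ g, g ∈ V ↔ g ∈ Hc j c ∧ cy f g = 1) {R R' : Finset GQ} (t : Tv (GK j) (Hc j c) R)
    (t' : Tv (GK j) V R') {τ₀ : ℍ} (h0 : Hp (JJ j) (f ^ 2) I c τ₀) {τ τ' : GQ → ℍ}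
    (hτ : ∀ g ∈ R, ∃ σ, Ex σ g ∧ Cj0 σ (f ^ 2) τ₀ (τ g)) (e : ∀ g ∈ R, (τ' g : ℂ) = f * τ g)
    {χ : GQ → ℂ} (rt : ∀ g ∈ GK j, ∀ h ∈ Hc j c, χ (g * h) = χ g) (ψ : DirichletCharacter ℂ f) :
    ∑ g ∈ R', χ g * ψ (cy f g) * (Real.log ‖io (g s)‖ : ℝ) =
      12 * m * (c₀ - ψ⁻¹ c₀) * ∑ g ∈ R, χ g * LL ψ (τ' g) := by
  choose h h1 h2 using ex_hc r1 r2 iq c0 cop spl
  rw [← t'.sum_of (R ×ˢ univ) (fun i => i.1 * h i.2)
    (fun i k => mul_mem (t.mem _ (mem_product.1 k).1) (h1 _).1) (fun g k => ?_)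
    (fun i k i' k' q => ?_) (fun g => χ g * ψ (cy f g) * (Real.log ‖io (g s)‖ : ℝ))
    fun y k v _ q => ?_, sum_product, mul_sum]
  · refine sum_congr rfl fun g k => ?_
    obtain ⟨σ, a, b⟩ := hτ g k
    rw [mul_left_comm, ← us_sum hf ψ cc m (e g k), mul_sum, eq_comm,
      ← Equiv.sum_comp (Equiv.mulLeft (cy f g))]
    refine sum_congr rfl fun x _ => ?_
    simp only [Equiv.coe_mulLeft]
    rw [u.val hg1 iq c0 cop cn h0 (t.mem g k) (h1 x) a b, rt g (t.mem g k) _ (h1 x), map_mul (cy f),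
      h2, mul_assoc]
  · obtain ⟨r, a, b⟩ := t.ex g k
    refine ⟨(r, cy f (r⁻¹ * g)), mem_product.2 ⟨a, mem_univ _⟩, (hV _).2 ⟨?_, ?_⟩⟩
    · rw [mul_inv_rev, mul_assoc]
      exact mul_mem (inv_mem (h1 _)) b
    · rw [mul_inv_rev, mul_assoc, map_mul, map_inv, h2, inv_mul_cancel]
  · obtain ⟨a, b⟩ := (hV _).1 q
    have z : i.1 = i'.1 := t.un _ (mem_product.1 k).1 _ (mem_product.1 k').1 (by
      simpa [mul_assoc] using mul_mem (mul_mem (h1 i.2) a) (inv_mem (h1 i'.2)))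
    refine Prod.ext z ?_
    simpa [z, h2, inv_mul_eq_one] using b
  · obtain ⟨a, b⟩ := (hV _).1 q
    rw [rt y k v a, map_mul, b, mul_one, AlgEquiv.mul_apply, u.fix hg1 iq c0 cop cn a b]

end Vale.Agent.P014Z.Ac.Sm
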