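import Vale.Agent.P014X.An.Gal
import Vale.Agent.P022K.G2.Tr

/-! # P014Z, block Ac: the norm of an element and its character sums -/

set_option autoImplicit false
set_option linter.all false

open NumberField Finset
open scoped Classical

noncomputable section

namespace Vale.Agent.P014Z.Ac.Sm

open Vale.Agent.P022 (Qb GQ GK)
open P027M.M (io)
open Vale.Agent.P022K.G2 (Tv)
open P014X.An (xs)

variable {G U V : Subgroup GQ} {R : Finset GQ} {s : Qb}

/-- representatives in a subgroup -/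
theorem tv_sub (t : Tv G V R) (le : U ≤ G) (hV : V ≤ U) : Tv U V (R.filter (· ∈ U)) :=
  ⟨fun r k => (mem_filter.1 k).2, fun g k => by
    obtain ⟨r, a, b⟩ := t.ex g (le k)
    exact ⟨r, mem_filter.2 ⟨a, by simpa using inv_mem (mul_mem (hV b) (inv_mem k))⟩, b⟩,
    fun r k r' k' => t.un r (mem_filter.1 k).1 r' (mem_filter.1 k').1⟩

/-- the norm is fixed -/
theorem nm_fix (t : Tv G V R) (le : U ≤ G) (hV : V ≤ U) (fx : ∀ v ∈ V, v s = s) {g : GQ}
    (k : g ∈ U) : g (∏ h ∈ R with h ∈ U, h s) = ∏ h ∈ R with h ∈ U, h s := by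
  rw [map_prod]
  exact (tv_sub t le hV).sum_mul (M := Additive Qb) k (fun h => Additive.ofMul (h s))
    fun y _ v _ q => by rw [AlgEquiv.mul_apply, fx v q]

theorem nm_ne (s0 : s ≠ 0) : ∏ h ∈ R with h ∈ U, h s ≠ 0 :=
  prod_ne_zero_iff.2 fun h _ => (map_ne_zero h).2 s0

/-- sums over `G / V` in two steps -/
theorem two {M Γ : Type} [AddCommMonoid M] [Group Γ] [Fintype Γ] {π : G →* Γ}
    (ker : ∀ g, π g = 1 ↔ g.1 ∈ U) (t : Tv G V R) (le : U ≤ G) (hV : V ≤ U) {r : Γ → G}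
    (hr : ∀ γ, π (r γ) = γ) (F : GQ → M) (hF : ∀ y ∈ G, ∀ v ∈ V, F (y * v) = F y) :
    ∑ γ, ∑ h ∈ R with h ∈ U, F (r γ * h) = ∑ g ∈ R, F g := by
  have t' := tv_sub t le hV
  rw [← sum_product', t.sum_of (univ ×ˢ R.filter (· ∈ U)) (fun i => (r i.1 : GQ) * i.2)
    (fun i k => mul_mem (r _).2 (le (t'.mem _ (mem_product.1 k).2))) (fun g k => ?_)
    (fun i k i' k' q => ?_) F fun y k v _ => hF y k v]
  · obtain ⟨h, a, b⟩ := t'.ex _ ((ker ((r (π ⟨g, k⟩))⁻¹ * ⟨g, k⟩)).1 (by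
      rw [map_mul, map_inv, hr, inv_mul_cancel]))
    exact ⟨(π ⟨g, k⟩, h), mem_product.2 ⟨mem_univ _, a⟩, by simpa [mul_assoc] using b⟩
  · have z : i.1 = i'.1 := by
      have := (ker ((r i.1)⁻¹ * r i'.1)).2 (by
        simpa [mul_assoc] using mul_mem (mul_mem (t'.mem _ (mem_product.1 k).2) (hV q))
          (inv_mem (t'.mem _ (mem_product.1 k').2)))
      rwa [map_mul, map_inv, hr, hr, inv_mul_eq_one] at this
    exact Prod.ext z (t'.un _ (mem_product.1 k).2 _ (mem_product.1 k').2 (by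
      simpa [z, mul_assoc] using q))

/-- **the character sum of the norm** -/
theorem xs_eq {F Γ : Type} [Field F] [CommGroup Γ] [Fintype Γ] {ι : F →+* Qb} {π : G →* Γ}
    {ρ : Γ →* (F ≃+* F)} (sur : Function.Surjective π) (ker : ∀ g, π g = 1 ↔ g.1 ∈ U)
    (act : ∀ g x, ι (ρ (π g) x) = g.1 (ι x)) (t : Tv G V R) (le : U ≤ G) (hV : V ≤ U)
    (s0 : s ≠ 0) (fx : ∀ v ∈ V, v s = s) {u : F} (hu : ι u = ∏ h ∈ R with h ∈ U, h s)
    (ξ : Γ →* ℂˣ) {Ξ : GQ → ℂ} (e : ∀ g : G, Ξ g = ξ (π g)) :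
    xs ρ ((io : Qb →+* ℂ).comp ι) u ξ = ∑ g ∈ R, Ξ g * (Real.log ‖io (g s)‖ : ℝ) := by
  choose r hr using sur
  have rt : ∀ y : G, ∀ v ∈ U, Ξ (y * v) = Ξ y := fun y v k => by
    rw [e y, show (y : GQ) * v = (y * ⟨v, le k⟩ : G) from rfl, e, map_mul,
      (ker ⟨v, le k⟩).2 k, mul_one]
  rw [← two ker t le hV hr (fun g => Ξ g * (Real.log ‖io (g s)‖ : ℝ)) fun y k v q => by
    rw [rt ⟨y, k⟩ v (hV q), AlgEquiv.mul_apply, fx v q], xs]
  refine sum_congr rfl fun γ _ => ?_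
  have := act (r γ) u
  rw [hr, hu, map_prod] at this
  rw [RingHom.comp_apply, this, map_prod, norm_prod, Real.log_prod fun h _ => norm_ne_zero_iff.2
    ((map_ne_zero _).2 ((map_ne_zero _).2 ((map_ne_zero _).2 s0))), Complex.ofReal_sum, mul_sum]
  refine sum_congr rfl fun h k => ?_
  rw [rt _ h (mem_filter.1 k).2, e, hr]
  rfl

end Vale.Agent.P014Z.Ac.Sm
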