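import Vale.Agent.P014Z.Gl.Dat
import Vale.Agent.P014Z.Su.Ana0
import Vale.Agent.P014Z.Ac.St
import Vale.Agent.P014Z.Ac.Cn0
import Vale.Agent.P014Z.Ac.Sum0
import Vale.Agent.P014Z.Ac.Sum1

/-! # P014Z, block Ac: the character sums of the unit of a level and the values at zero -/

set_option autoImplicit false
set_option linter.all false

open NumberField Finset
open scoped Classical

noncomputable section

namespace Vale.Agent.P014Z.Ac.Sm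

open Vale.Agent.P022 (Qb GQ GK)
open P027M.M (io)
open Vale.Agent.P027M.S (Inert LI)
open Vale.Agent.P022E.GW (Ov)
open Vale.Agent.P014U P004K
open P014Y.F (Crv Fld)
open P014X.An (xs)
open Gl (Lt Hf)
open Lk.Cy (cy cy_one cy_act)
open La (Pc)

variable [Pp] {e : Crv} {D : Gl.Da e} {b : Fld e} {n : ℕ} (L : Lt D b n)

theorem c0 : 0 < L.c := zero_lt_one.trans L.lz.one

theorem cop : L.c.Coprime D.f := Gl.Dt.cop L.lz D.dc.sup

theorem cn (b : Fld e) : Cn (D.f ^ 2) (Gl.Fi b D.f) := (Gl.Dt.sp_fi b (NeZero.ne D.f) D.dc.sup).cn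

include L in
theorem spl (l : ℕ) (P : Ideal (𝓞 Qb)) (o : Ov l P) (d : l ∣ D.f) (g : GQ) (i : Inert P g) :
    g ∈ GK b.j :=
  (L.lz.ly.fro l (List.mem_toFinset.2 (D.dc.sup l o.1 d)) P o).1 fun x =>
    ⟨fun k => by simpa using P.sub_mem k (i x), fun k => by simpa using P.add_mem (i x) k⟩

theorem hV (g : GQ) : g ∈ Hf b L.c D.f ↔ g ∈ Hc b.j L.c ∧ cy D.f g = 1 := by
  rw [Gl.Dt.mem_hf, cy_one]

/-- the character is a Dirichlet character -/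
theorem eta (D : Gl.Da e) (g : GQ) : D.η g = D.ψ (cy D.f g) := by
  rw [D.dc.eq g _ fun ζ h => cy_act g h, ZMod.natCast_zmod_val]

theorem U_le : L.U ≤ b.Γ := fun g k => ((L.ug g).1 k).1

theorem V_le : Hf b L.c D.f ≤ L.U := fun g k => by
  obtain ⟨x, y⟩ := (hV L g).1 k
  exact (L.ug g).2 ⟨x.1, by rw [eta, y, Units.val_one, map_one], L.lz.ker g x⟩

theorem s_ne (hg1 : HG1) : L.s ≠ 0 := Uv.ne hg1 b.iq (c0 L) (cop L) (cn b) D.dc.one L.us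

theorem s_fix (hg1 : HG1) (v : GQ) (k : v ∈ Hf b L.c D.f) : v L.s = L.s :=
  Uv.fix hg1 b.iq (c0 L) (cop L) (cn b) L.us ((hV L v).1 k).1 ((hV L v).1 k).2

/-- the norm of the unit to the layer -/
theorem u_fix (hg1 : HG1) (g : GQ) (k : g ∈ L.U) :
    g (∏ h ∈ L.R' with h ∈ L.U, h L.s) = ∏ h ∈ L.R' with h ∈ L.U, h L.s :=
  nm_fix L.tv' (U_le L) (V_le L) (s_fix L hg1) k

theorem one_le : 1 ≤ L.c₀ := Nat.pos_of_ne_zero fun z =>
  D.dc.one.ne' (by simpa [z] using L.sm.cop)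

/-- the constant is prime to `pp` -/
theorem nd : ¬ pp ∣ 24 * L.m * (L.c₀ - 1) := fun d => by
  have five := D.five
  rcases (Nat.Prime.dvd_mul pp_prime).1 d with d | d
  · rcases (Nat.Prime.dvd_mul pp_prime).1 d with d | d
    · rcases (Nat.Prime.dvd_mul pp_prime).1 (show pp ∣ 2 ^ 3 * 3 from d) with d | d
      · exact not_dvd_two (pp_prime.dvd_of_dvd_pow d)
      · exact absurd (Nat.le_of_dvd three_pos d) (by omega)
    · exact L.sm.np d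
  · have := (ZMod.natCast_eq_zero_iff _ _).2 d
    rw [Nat.cast_sub (one_le L), Nat.cast_one, sub_eq_zero] at this
    exact L.sm.ne this

/-- **the character sum and the value at zero** -/
theorem ana0 (r1 : P004K.RC1) (r2 : RC2) (hI : IQ) (hg1 : HG1) {H Γ : Type} [Field H] [CommGroup Γ]
    [Fintype Γ] {ι : H →+* Qb} {π : b.Γ →* Γ} {ρ : Γ →* (H ≃+* H)} (sur : Function.Surjective π)
    (ker : ∀ g, π g = 1 ↔ g.1 ∈ L.U) (act : ∀ g x, ι (ρ (π g) x) = g.1 (ι x)) {u : H}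
    (hu : ι u = ∏ h ∈ L.R' with h ∈ L.U, h L.s) (ξ : Γ →* ℂˣ) {χ : GQ → ℂ}
    {ψ : DirichletCharacter ℂ D.f} {θ θ' : Ideal (𝓞 b.K) →* ℂ}
    (dec : ∀ g : b.Γ, (ξ (π g) : ℂ) = χ g * ψ (cy D.f g)) (k : ψ L.c₀ = 1) (P : Su.Pch b.j L.c χ)
    (nm : ∀ g ∈ b.Γ, ‖χ g‖ = 1)
    (t1 : ∀ B g, Cop L.c B → Ar b.j L.c B g → θ B = χ g * ψ (Ideal.absNorm B))
    (t0 : ∀ B, ¬ Cop L.c B → θ B = 0) (pc : Pc b.j (ξ.comp π) θ) (pc' : Pc b.j (ξ.comp π) θ') :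
    ∃ G : ℂ → ℂ, Ct (LI θ') G ∧ ((1 : ℕ) : ℝ) * ‖2 * xs ρ ((io : Qb →+* ℂ).comp ι) u ξ‖ =
      (24 * L.m * (L.c₀ - 1) : ℕ) * ‖G 0‖ := by
  obtain ⟨fx, G, g1, g2, g3⟩ := Su.ana0 r1 r2 hI hg1 b.iq b.upm (c0 L) D.dc.one (cop L) (cn b)
    (spl L) L.sm.cop L.us (hV L) L.tv' P nm ψ t1 t0
  refine ⟨G, ⟨g1.differentiableOn, fun s hs => by rw [pc'.li_eq pc hs, g2 s hs]⟩, ?_⟩
  rw [xs_eq sur ker act L.tv' (U_le L) (V_le L) (s_ne L hg1) fx hu ξ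
    (Ξ := fun g => χ g * ψ (cy D.f g)) fun g => (dec g).symm, norm_mul, g3,
    MulChar.inv_apply_eq_inv', k, inv_one, show (12 * L.m * (L.c₀ - 1) : ℂ) =
      (12 * L.m * (L.c₀ - 1) : ℕ) by push_cast [Nat.cast_sub (one_le L)]; rfl, Complex.norm_natCast]
  push_cast
  simp only [Complex.norm_ofNat]
  ring

end Vale.Agent.P014Z.Ac.Sm
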