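import Vale.Agent.P014Z.Ac.St2
import Vale.Agent.P014Z.Ac.Ana0
import Vale.Agent.P014Z.Lk.Brv0

/-! # P014Z, block Ac: the limit formula for the faithful characters of a layer -/

set_option autoImplicit false
set_option linter.all false

open NumberField Finset
open scoped Classical

noncomputable section

namespace Vale.Agent.P014Z.Ac

open Vale.Agent.P022 (Qb GQ GK)
open Vale.Agent.P027M.S (Inert LI)
open Vale.Agent.P022E.GW (Ov)
open Vale.Agent.P014U P004K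
open P014Y.F (Crv Fld)
open Gl (Lt Hf)
open Lk.Cy (cy cy_of cy_inert zq_prim ex_hc)
open Lk.B0 (chi_one chi_pow eta_ne ram)
open La (Pc)

namespace Sm

theorem ex_ov {P : Ideal (𝓞 Qb)} (hP : P.IsPrime) (m : ℕ) :
    m ≠ 0 → (m : 𝓞 Qb) ∈ P → ∃ l, Ov l P ∧ l ∣ m := by
  induction m using induction_on_primes with
  | zero => exact fun z => absurd rfl z
  | one => exact fun _ k => absurd ((Ideal.eq_top_iff_one _).2 (by simpa using k)) hP.ne_top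
  | prime_mul p a hp ih =>
    intro z k
    rw [Nat.cast_mul] at k
    rcases hP.mem_or_mem k with k | k
    · exact ⟨p, ⟨hp, hP, k⟩, dvd_mul_right _ _⟩
    · obtain ⟨l, o, d⟩ := ih (right_ne_zero_of_mul z) k
      exact ⟨l, o, d.mul_left _⟩

variable [Pp] {e : Crv} {D : Gl.Da e} {b : Fld e} {n : ℕ} (L : Lt D b n) {φ : b.Γ →* ℂˣ}

theorem ord_pos (D : Gl.Da e) : 0 < orderOf D.η :=
  (isOfFinOrder_iff_pow_eq_one.2 ⟨pp - 1, Nat.sub_pos_of_lt one_lt, MonoidHom.ext fun g =>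
    ZMod.pow_card_sub_one_eq_one (eta_ne g)⟩).orderOf_pos

variable (hU : ∀ g : b.Γ, g.1 ∈ L.U → φ g = 1)
include hU

theorem key {g h : b.Γ} (a : D.η g = D.η h) (c : L.χ g = L.χ h) : φ g = φ h := by
  have := hU (g⁻¹ * h) ((L.ug _).2 ⟨(g⁻¹ * h).2, ?_, ?_⟩)
  · rwa [map_mul, map_inv, inv_mul_eq_one] at this
  · rw [Subgroup.coe_mul, map_mul, ← a, ← map_mul, Subgroup.coe_inv, inv_mul_cancel, map_one]
  · rw [Subgroup.coe_mul, L.lz.add _ g⁻¹.2 _ h.2, ← c, ← L.lz.add _ g⁻¹.2 _ g.2, Subgroup.coe_inv,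
      inv_mul_cancel, chi_one]

theorem gam_pow : φ (gam L) ^ pp ^ (n + 1) = 1 := by
  rw [← map_pow, key L hU (h := 1), map_one]
  · rw [Subgroup.coe_pow, map_pow, show D.η (gam L) = 1 from L.lz.g1, one_pow]
    exact (map_one _).symm
  · rw [Subgroup.coe_pow, chi_pow L (gam L).2, ZMod.natCast_self, zero_mul]
    exact (chi_one L).symm

theorem faith {τ : b.Γ} (t : Gt L τ)
    (k : ∀ l ∈ (orderOf D.η).primeFactors, φ τ ^ (orderOf D.η / l) ≠ 1) {g : b.Γ}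
    (a : D.η g ≠ 1) (c : L.χ g = 0) : φ g ≠ 1 := fun z => by
  have p := ord_pos D
  have : NeZero (orderOf D.η) := ⟨p.ne'⟩
  have w : ∀ i : ℕ, L.χ (τ ^ i : b.Γ) = 0 := fun i => by
    rw [Subgroup.coe_pow, chi_pow L τ.2, t.chi, mul_zero]
  have o : orderOf (φ τ) = orderOf D.η := orderOf_eq_of_pow_and_pow_div_prime p (by
    rw [← map_pow, key L hU (h := 1) (by
      rw [Subgroup.coe_pow, map_pow, t.prim.pow_eq_one]; exact (map_one _).symm)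
      ((w _).trans (chi_one L).symm), map_one])
    fun l hl d => k l (Nat.mem_primeFactors.2 ⟨hl, d, p.ne'⟩)
  obtain ⟨i, -, q⟩ := t.prim.eq_pow_of_pow_eq_one (ξ := D.η g) (by
    rw [← MonoidHom.pow_apply, pow_orderOf_eq_one, MonoidHom.one_apply])
  rw [key L hU (h := τ ^ i) (by rw [Subgroup.coe_pow, map_pow, q]) (c.trans (w i).symm), map_pow,
    ← orderOf_dvd_iff_pow_eq_one, o] at z
  exact a (q ▸ (t.prim.pow_eq_one_iff_dvd i).2 z)

/-- **the decomposition** -/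
theorem dcp (r1 : P004K.RC1) (r2 : RC2) {τ : b.Γ} (t : Gt L τ) (h1 : φ (gam L) ≠ 1)
    (k : ∀ l ∈ (orderOf D.η).primeFactors, φ τ ^ (orderOf D.η / l) ≠ 1) :
    ∃ (χ : GQ → ℂ) (ψ : DirichletCharacter ℂ D.f) (θ : Ideal (𝓞 b.K) →* ℂ),
      (∀ g : b.Γ, (φ g : ℂ) = χ g * ψ (cy D.f g)) ∧ ψ L.c₀ = 1 ∧ Su.Pch b.j L.c χ ∧
      (∀ g ∈ b.Γ, ‖χ g‖ = 1) ∧
      (∀ B g, Cop L.c B → Ar b.j L.c B g → θ B = χ g * ψ (Ideal.absNorm B)) ∧
      (∀ B, ¬ Cop L.c B → θ B = 0) ∧ Pc b.j φ θ := by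
  have z := gam_pow L hU
  have : NeZero (pp ^ (n + 1)) := ⟨pow_ne_zero _ pp_ne⟩
  choose h m1 m2 using ex_hc r1 r2 b.iq (c0 L) (cop L) (spl L)
  have eh : ∀ a, D.η (h a) = D.ψ a := fun a => by rw [eta, m2]
  let χ : b.Γ →* ℂˣ := MonoidHom.mk' (fun g => φ (gam L) ^ (L.χ g).val) fun g g' => by
    rw [Subgroup.coe_mul, L.lz.add _ g.2 _ g'.2, ZMod.val_add, ← pow_eq_pow_mod _ z, pow_add]
  let ψ : (ZMod D.f)ˣ →* ℂˣ := MonoidHom.mk' (fun a => φ ⟨h a, (m1 a).1⟩) fun a a' => by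
    rw [← map_mul]
    refine key L hU ?_ ?_
    · simp only [Subgroup.coe_mul, map_mul, eh, Units.val_mul]
    · exact (L.lz.ker _ (m1 _)).trans (L.lz.ker _ (mul_mem (m1 a) (m1 a'))).symm
  have dec : ∀ g : b.Γ, (φ g : ℂ) = χ g * MulChar.ofUnitHom ψ (cy D.f g) := fun g => by
    rw [MulChar.ofUnitHom_coe, ← Units.val_mul]
    refine congrArg _ ((key L hU (h := gam L ^ (L.χ g).val * ⟨h (cy D.f g), (m1 _).1⟩) ?_ ?_).trans
      (by rw [map_mul, map_pow]; rfl))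
    · rw [Subgroup.coe_mul, map_mul, Subgroup.coe_pow, map_pow, show D.η (gam L) = 1 from L.lz.g1,
        one_pow, one_mul, eh, eta]
    · rw [Subgroup.coe_mul, L.lz.add _ (gam L ^ _).2 _ (m1 _).1, L.lz.ker _ (m1 _), add_zero,
        Subgroup.coe_pow, chi_pow L (gam L).2, show L.χ (gam L) = 1 from L.lz.g2, mul_one,
        ZMod.natCast_zmod_val]
  have nm : ∀ i : ℕ, ‖((φ (gam L) ^ i : ℂˣ) : ℂ)‖ = 1 := fun i => by
    rw [Units.val_pow_eq_pow_val, norm_pow, Complex.norm_eq_one_of_pow_eq_one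
      (congrArg Units.val z) (NeZero.ne _), one_pow]
  have ker : ∀ g ∈ Hc b.j L.c, φ (gam L) ^ (L.χ g).val = 1 := fun g m => by
    rw [L.lz.ker g m, ZMod.val_zero, pow_zero]
  have rc : ∀ l P, Ov l P → l ∣ L.c → ∃ u : b.Γ, Inert P u ∧ χ u ≠ 1 := fun l P o d => by
    obtain ⟨u, i, q⟩ := L.lz.ly.ram l P o d
    refine ⟨⟨u, (L.lz.hc l P o d (P022D.W.inP_le_dec i)).1.1⟩, i, fun w => h1 ?_⟩
    rwa [show χ _ = φ (gam L) ^ (L.χ u).val from rfl, pow_eq_pow_mod _ z, q, ← pow_eq_pow_mod _ z,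
      pow_one] at w
  obtain ⟨θ, -, t1, t0, -, -, pc⟩ := La.dict r2 b.iq (c0 L) χ φ (fun g => (nm _).le)
    (fun g m => ker g m) (MulChar.ofUnitHom ψ) fun g a q => by
      rw [dec, cy_of (q _ (zq_prim D.f).pow_eq_one)]
  refine ⟨fun g => (φ (gam L) ^ (L.χ g).val : ℂˣ), MulChar.ofUnitHom ψ, θ, dec, ?_,
    ⟨fun g x g' y => congrArg Units.val (map_mul χ ⟨g, x⟩ ⟨g', y⟩),
      fun g m => congrArg Units.val (ker g m), Su.Lz.prim_of r2 b.iq L.lz.sq fun l hl d => ?_⟩,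
    fun g _ => nm _, fun B g x a => t1 B ⟨g, a.1⟩ x a, t0, pc fun P hP m => ?_⟩
  · rw [← ZMod.coe_unitOfCoprime _ L.sm.cop, MulChar.ofUnitHom_coe, Units.val_eq_one]
    exact hU _ ((L.ug _).2 ⟨(m1 _).1, (eh _).trans L.sm.ker, L.lz.ker _ (m1 _)⟩)
  · obtain ⟨P, x, y⟩ := P022.H916.exists_prime hl
    obtain ⟨u, i, q⟩ := rc l P ⟨hl, x, y⟩ d
    exact ⟨P, u, x, y, u.2, i, fun w => q (Units.ext w)⟩
  · obtain ⟨l, o, d⟩ := ex_ov hP _ (mul_ne_zero (c0 L).ne' (NeZero.ne D.f)) m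
    by_cases x : l ∣ D.f
    · obtain ⟨u, i, q⟩ := ram o x
      refine ⟨⟨u, spl L l P o x u i⟩, i, faith L hU t k q ?_⟩
      rw [← ZMod.val_eq_zero]
      exact Nat.eq_zero_of_dvd_of_lt (L.lz.ly.unr l P o (fun y => o.1.one_lt.ne'
        (Nat.eq_one_of_dvd_coprimes (cop L) y x)) u (spl L l P o x u i) i) (ZMod.val_lt _)
    · obtain ⟨u, i, q⟩ := rc l P o (((Nat.Prime.dvd_mul o.1).1 d).resolve_right x)
      refine ⟨u, i, fun w => q (Units.ext ?_)⟩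
      have := dec u
      rwa [w, cy_inert o x i, Units.val_one, Units.val_one, map_one, mul_one, eq_comm] at this

end Sm

open Sm in
/-- **the limit formula** -/
theorem ana [Pp] (r1 : P004K.RC1) (r2 : RC2) (hI : IQ) (hg1 : HG1) : ANA := by
  intro e D b n L H Γ _ _ _ _ jH π ρ τ u g t hu
  refine ⟨1, _, nd L, one_ne_zero, fun ξ θ' h1 h2 pc' => ?_⟩
  obtain ⟨χ, ψ, θ, dec, k, P, nm, t1, t0, pc⟩ := dcp L (φ := ξ.comp π)
    (fun x m => by rw [MonoidHom.comp_apply, (g.ker x).2 m, map_one]) r1 r2 t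
    (fun z => h1 (by rw [map_pow, show ξ (π (gam L)) = 1 from z, one_pow]))
    fun l m z => h2 l m ((map_pow ξ _ _).trans z)
  exact ana0 L r1 r2 hI hg1 g.sur g.ker g.act hu ξ dec k P nm t1 t0 pc pc'

end Vale.Agent.P014Z.Ac
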