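import Vale.Agent.P014Z.Ac.St

/-! # P014Z, the class number step: eigenspaces -/

set_option autoImplicit false
set_option linter.all false

open Finset Polynomial
open scoped Classical

noncomputable section

namespace Vale.Agent.P014Z.Ac.De

open P014X.Ac (pw)

/-- counting along a product of linear factors -/
theorem cnt {k Q : Type} [Field k] [AddCommGroup Q] [Module k Q] (t : Module.End k Q) (B : Finset k)
    (c : k → ℕ) : ∀ V : AddSubgroup Q, (∀ x ∈ V, t x ∈ V) → (∀ a : k, ∀ x ∈ V, a • x ∈ V) →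
    (∀ x ∈ V, aeval t (∏ a ∈ B, (X - C a)) x = 0) →
    (∀ a ∈ B, ∃ W : AddSubgroup Q, Nat.card W ≠ 0 ∧ Nat.card W ≤ c a ∧
      ∀ x ∈ V, t x = a • x → x ∈ W) → Nat.card V ≠ 0 ∧ Nat.card V ≤ ∏ a ∈ B, c a := by
  induction B using Finset.induction_on with
  | empty =>
    intro V _ _ h _
    obtain rfl : V = ⊥ := (AddSubgroup.eq_bot_iff_forall _).2 fun x m => by simpa using h x m
    simp
  | insert a B n ih =>
    intro V st sm h w
    let φ : Q →+ Q := (aeval t (X - C a) : Module.End k Q).toAddMonoidHom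
    have e : ∀ x, φ x = t x - a • x := fun x => by
      simp [φ, Module.algebraMap_end_apply]
    have le : V.map φ ≤ V := by
      rintro _ ⟨x, m, rfl⟩
      rw [e]
      exact sub_mem (st x m) (sm a x m)
    obtain ⟨i1, i2⟩ := ih (V.map φ) (by
        rintro _ ⟨x, m, rfl⟩
        exact ⟨t x, st x m, by rw [e, e, map_sub, map_smul]⟩) (by
        rintro b _ ⟨x, m, rfl⟩
        exact ⟨b • x, sm b x m, by rw [e, e, map_smul, smul_sub, smul_comm a]⟩) (by
        rintro _ ⟨x, m, rfl⟩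
        have := h x m
        rwa [prod_insert n, mul_comm, map_mul] at this) fun b m => by
      obtain ⟨W, w1, w2, w3⟩ := w b (mem_insert_of_mem m)
      exact ⟨W, w1, w2, fun x k => w3 x (le k)⟩
    obtain ⟨W, w1, w2, w3⟩ := w a (mem_insert_self _ _)
    have l : φ.ker ⊓ V ≤ W := fun x m => w3 x m.2 (sub_eq_zero.1 ((e x).symm.trans m.1))
    have f := Nat.finite_of_card_ne_zero w1
    have f' : Finite ↥(φ.ker ⊓ V) := .of_injective _ (AddSubgroup.inclusion_injective l)
    have q := AddSubgroup.relIndex_mul_relIndex ⊥ (φ.ker ⊓ V) V bot_le inf_le_right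
    rw [AddSubgroup.inf_relIndex_right, AddSubgroup.relIndex_ker, AddSubgroup.relIndex_bot_left,
      AddSubgroup.relIndex_bot_left] at q
    rw [← q, prod_insert n]
    exact ⟨mul_ne_zero Nat.card_pos.ne' i1,
      Nat.mul_le_mul ((AddSubgroup.card_le_of_le l).trans w2) i2⟩

theorem all (p : ℕ) [Fact p.Prime] : ∏ a : ZMod p, (X - C a) = (X ^ p - X : (ZMod p)[X]) := by
  have m : (X ^ p - X : (ZMod p)[X]).Monic := by
    refine Monic.sub_of_left (monic_X_pow _) ?_
    rw [degree_X_pow, degree_X]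
    exact_mod_cast (Fact.out : p.Prime).one_lt
  have r := FiniteField.roots_X_pow_card_sub_X (ZMod p)
  rw [ZMod.card] at r
  have := prod_multiset_X_sub_C_of_monic_of_roots_card_eq m (by
    rw [r, FiniteField.X_pow_card_sub_X_natDegree_eq _ (Fact.out : p.Prime).one_lt]
    exact ZMod.card p)
  rw [r] at this
  exact this

theorem aux {M Q : Type} [AddCommGroup M] [AddCommGroup Q] {p d : ℕ} [Fact p.Prime]
    [Module (ZMod p) Q] (f : M →+ Q) (kf : f.ker = pw M p) (s : Module.End (ZMod p) Q)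
    {t₀ : AddMonoid.End M} (e : ∀ x, s (f x) = f (t₀ x)) (t : AddMonoid.End M) (V : AddSubgroup M)
    (W : ZMod p → AddSubgroup M) (ht : t₀ = t) (hd : d ∣ p - 1) (td : t ^ d = 1)
    (st : ∀ x ∈ V, t x ∈ V)
    (nl : ∀ l : ℕ, l.Prime → l ∣ d → ∀ x ∈ V, ∑ i ∈ range l, (t ^ (d / l * i)) x ∈ pw M p)
    (hW : ∀ a, IsPrimitiveRoot a d → ∀ x ∈ V, t x - a.val • x ∈ pw M p → x ∈ W a)
    (w0 : ∀ a, IsPrimitiveRoot a d → (pw M p).relIndex (W a) ≠ 0) (A : Finset (ZMod p))
    (hA : ∀ a, a ∈ A ↔ IsPrimitiveRoot a d) :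
    (pw M p).relIndex V ≠ 0 ∧ (pw M p).relIndex V ≤ ∏ a ∈ A, (pw M p).relIndex (W a) := by
  subst ht
  have hp : p.Prime := Fact.out
  have c : ∀ U : AddSubgroup M, (pw M p).relIndex U = Nat.card (U.map f) := fun U => by
    rw [← AddSubgroup.relIndex_ker, kf]
  have z : ∀ x, f x = 0 ↔ x ∈ pw M p := fun x => kf ▸ Iff.rfl
  have ep : ∀ (n : ℕ) x, (s ^ n) (f x) = f ((t₀ ^ n) x) := fun n => by
    induction n with
    | zero => exact fun _ => rfl
    | succ n i => exact fun x => by rw [pow_succ, pow_succ, Module.End.mul_apply, e]; exact i (t₀ x)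
  have sv : ∀ (a : ZMod p) x, a • f x = f (a.val • x) := fun a x => by
    rw [map_nsmul, ← Nat.cast_smul_eq_nsmul (ZMod p), ZMod.natCast_zmod_val]
  have p1 : 0 < p - 1 := Nat.sub_pos_of_lt hp.one_lt
  have d0 : 0 < d := Nat.pos_of_dvd_of_pos hd p1
  have eg : ∀ (a : ZMod p) y, s y = a • y → ∀ n : ℕ, (s ^ n) y = a ^ n • y := fun a y h n => by
    induction n with
    | zero => simp
    | succ n i => rw [pow_succ', pow_succ, Module.End.mul_apply, i, map_smul, h, mul_smul]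
  obtain ⟨a1, a2⟩ := cnt s univ (fun a => if a ∈ A then (pw M p).relIndex (W a) else 1) (V.map f) (by
      rintro _ ⟨x, m, rfl⟩
      exact ⟨_, st x m, (e x).symm⟩) (by
      rintro a _ ⟨x, m, rfl⟩
      exact ⟨_, nsmul_mem m _, (sv a x).symm⟩) (by
      rintro _ ⟨x, m, rfl⟩
      obtain ⟨n, hn⟩ := hd
      rw [all, map_sub, map_pow, aeval_X, LinearMap.sub_apply, ep, e, sub_eq_zero]
      conv_lhs => rw [show p = d * n + 1 by omega, pow_succ, pow_mul, td, one_pow, one_mul])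
    fun a _ => by
      by_cases h : a ∈ A
      · rw [if_pos h, c]
        refine ⟨_, c _ ▸ w0 a ((hA a).1 h), le_rfl, ?_⟩
        rintro _ ⟨x, m, rfl⟩ k
        refine ⟨x, hW a ((hA a).1 h) x m ((z _).1 ?_), rfl⟩
        rw [map_sub, ← e, ← sv, k, sub_self]
      rw [if_neg h]
      refine ⟨⊥, by simp, by simp, ?_⟩
      rintro _ ⟨x, m, rfl⟩ k
      refine by_contra fun n0 => h ((hA a).2 ?_)
      have sm : ∀ b : ZMod p, b • f x = 0 → b = 0 := fun b h => (smul_eq_zero.1 h).resolve_right n0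
      have a1 : a ^ d = 1 := by
        have := eg a _ k d
        rw [ep, td] at this
        refine sub_eq_zero.1 (sm _ ?_)
        rw [sub_smul, ← this, one_smul]
        exact sub_self _
      rw [IsPrimitiveRoot.iff_orderOf]
      refine orderOf_eq_of_pow_and_pow_div_prime d0 a1 fun l hl ld h1 => ?_
      have := (z _).2 (nl l hl ld x m)
      rw [map_sum, sum_congr rfl fun i _ => show f ((t₀ ^ (d / l * i)) x) = (1 : ZMod p) • f x by
        rw [← ep, eg a _ k, pow_mul, h1, one_pow], ← sum_smul, sum_const, card_range,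
        nsmul_one] at this
      exact (Nat.le_of_dvd hl.pos ((ZMod.natCast_eq_zero_iff _ _).1 (sm _ this))).not_gt
        ((Nat.le_of_dvd p1 (ld.trans hd)).trans_lt (by omega))
  rw [c V]
  refine ⟨a1, a2.trans_eq ?_⟩
  rw [prod_ite_mem, univ_inter]

/-- **the eigenspaces** -/
theorem dec0 {M : Type} [AddCommGroup M] {p d : ℕ} (hp : p.Prime) (t : AddMonoid.End M) (V : AddSubgroup M)
    (W : ZMod p → AddSubgroup M) (hd : d ∣ p - 1) (td : t ^ d = 1)
    (st : ∀ x ∈ V, t x ∈ V)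
    (nl : ∀ l : ℕ, l.Prime → l ∣ d → ∀ x ∈ V, ∑ i ∈ range l, (t ^ (d / l * i)) x ∈ pw M p)
    (hW : ∀ a, IsPrimitiveRoot a d → ∀ x ∈ V, t x - a.val • x ∈ pw M p → x ∈ W a)
    (w0 : ∀ a, IsPrimitiveRoot a d → (pw M p).relIndex (W a) ≠ 0) (A : Finset (ZMod p))
    (hA : ∀ a, a ∈ A ↔ IsPrimitiveRoot a d) :
    (pw M p).relIndex V ≠ 0 ∧ (pw M p).relIndex V ≤ ∏ a ∈ A, (pw M p).relIndex (W a) := by
  have := Fact.mk hp
  letI : Module (ZMod p) (M ⧸ pw M p) := QuotientAddGroup.zmodModule fun x => ⟨x, rfl⟩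
  exact aux (QuotientAddGroup.mk' (pw M p)) (QuotientAddGroup.ker_mk' _)
    ((QuotientAddGroup.map (pw M p) (pw M p) t (by
      rintro _ ⟨x, rfl⟩
      exact ⟨t x, (map_nsmul t p x).symm⟩)).toZModLinearMap p) (fun _ => rfl) t V W rfl hd td st nl hW
    w0 A hA

end Vale.Agent.P014Z.Ac.De

/-- **row DEC** -/
theorem Vale.Agent.P014Z.Ac.dec : Vale.Agent.P014Z.Ac.DEC :=
  fun _ _ _ _ t V W hp => Vale.Agent.P014Z.Ac.De.dec0 hp t V W
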