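import Vale.Agent.P014Z.Ac.St
import Vale.Agent.P014X.Ac.Nrm

/-! # P014Z, the class number step: the axioms hold for fields (helper2) -/

set_option autoImplicit false
set_option linter.all false

open NumberField NumberField.Units IsDedekindDomain Function Finset
open scoped Classical

noncomputable section

namespace Vale.Agent.P014Z.Ac

open P014X.Ac (Dp AM AI am ai ad au pm Js dp fxM EXF nrm)
open P014X.Ac.Fld (aM aI mem_am fx_am pw_res)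
open P014X.An (Pm vU Cr)

namespace Ok

section

variable {Γ M : Type} [CommGroup Γ] [AddCommGroup M] (a : Γ →* AddMonoid.End M)

theorem gr_sum (γ : Γ) (n : ℕ) (x : M) :
    gr a (∑ i ∈ range n, MonoidAlgebra.of ℤ Γ (γ ^ i)) x = ∑ i ∈ range n, a (γ ^ i) x := by
  rw [map_sum]
  exact (AddMonoidHom.finset_sum_apply ..).trans (sum_congr rfl fun i _ => by rw [gr_of]; rfl)

theorem gr_ind {P : MonoidAlgebra ℤ Γ → M → Prop} (x : M) (l : MonoidAlgebra ℤ Γ)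
    (h0 : ∀ γ, P (MonoidAlgebra.of ℤ Γ γ) (a γ x))
    (h1 : ∀ l l' y y', P l y → P l' y' → P (l + l') (y + y'))
    (h2 : ∀ (r : ℤ) l y, P l y → P (r • l) (r • y)) : P l (gr a l x) := by
  induction l using MonoidAlgebra.induction_on with
  | of γ => rw [gr_of]; exact h0 γ
  | add l l' k k' => rw [map_add]; exact h1 _ _ _ _ k k'
  | smul r l k => rw [map_zsmul]; exact h2 _ _ _ k

theorem gr_mem {V W : AddSubgroup M} (h : ∀ γ, ∀ x ∈ V, a γ x ∈ W) (l : MonoidAlgebra ℤ Γ) :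
    ∀ x ∈ V, gr a l x ∈ W := fun x k =>
  gr_ind a (P := fun _ y => y ∈ W) x l (fun γ => h γ x k) (fun _ _ _ _ => add_mem)
    fun r _ _ k => zsmul_mem k r

theorem gr_com (l l' : MonoidAlgebra ℤ Γ) (x : M) : gr a l (gr a l' x) = gr a l' (gr a l x) :=
  congrArg (fun s : AddMonoid.End M => s x)
    ((map_mul (gr a) l l').symm.trans ((congrArg _ (mul_comm l l')).trans (map_mul (gr a) l' l)))

theorem geo {γ : Γ} {n : ℕ} (h : γ ^ n = 1) :
    (∑ i ∈ range n, MonoidAlgebra.of ℤ Γ (γ ^ i)) * (MonoidAlgebra.of ℤ Γ γ - 1) = 0 := by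
  simp only [map_pow]
  rw [geom_sum_mul, ← map_pow, h, map_one, sub_self]

theorem fx_sum {γ : Γ} {n : ℕ} (h : γ ^ n = 1) (x : M) :
    a γ (∑ i ∈ range n, a (γ ^ i) x) = ∑ i ∈ range n, a (γ ^ i) x := by
  have := congrArg (fun l => gr a l x) ((mul_comm _ _).trans (geo h))
  simp only [map_mul, map_sub, map_one, map_zero, gr_of] at this
  rw [← gr_sum]
  exact sub_eq_zero.1 this

theorem sum_fx {γ : Γ} (n : ℕ) {x : M} (h : a γ x = x) : ∑ i ∈ range n, a (γ ^ i) x = n • x := by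
  have k (i : ℕ) : a (γ ^ i) x = x := by
    induction i with
    | zero => rw [pow_zero, map_one]; rfl
    | succ i e => rw [pow_succ, map_mul]; exact (congrArg _ h).trans e
  simp only [k, sum_const, card_range]

end

section

variable {F F₁ F₂ : Type} [Field F] [NumberField F] [Field F₁] [NumberField F₁] [Field F₂]
  [NumberField F₂] (e : EXF)
include e

theorem rle {φ : F₁ →+* F} {ψ : F₂ →+* F} (h : ∀ x, φ x ∈ ψ.range) :
    (ai φ).range ≤ (ai ψ).range := by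
  rintro _ ⟨y, rfl⟩
  let θ : F₁ →+* F₂ := ψ.rangeRestrictFieldEquiv.symm.toRingHom.comp (φ.codRestrict ψ.fieldRange h)
  have k : ψ.comp θ = φ := RingHom.ext fun x =>
    congrArg Subtype.val (ψ.rangeRestrictFieldEquiv.apply_symm_apply ⟨φ x, h x⟩)
  exact ⟨ai θ y, by rw [← (e.1 _ _ _ _ _).1, k]⟩

theorem nm (s : F ≃+* F) {N : ℕ} (h : s ^ N = 1) (h0 : N ≠ 0) (x : AI F) :
    ∑ i ∈ range N, aI F e (s ^ i) x ∈ (ai (algebraMap (P014X.Ac.Ly.Fx s) F)).range := by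
  obtain ⟨k, rfl⟩ := orderOf_dvd_of_pow_eq_one h
  have b := (nrm _ (P014X.Ac.Ly.Fx s) F s ⟨rfl, left_ne_zero_of_mul h0, P014X.Ac.Ly.fx s⟩).2.1 x
  clear h h0
  induction k with
  | zero => exact zero_mem _
  | succ k c =>
    rw [mul_add, mul_one, sum_range_add]
    refine add_mem c ?_
    simp only [pow_add, pow_mul, pow_orderOf_eq_one, one_pow, one_mul]
    exact b

end

variable {H Γ : Type} [Field H] [NumberField H] [CommGroup Γ] (ρ : Γ →* (H ≃+* H)) (e : EXF)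

theorem gM_of (γ : Γ) : gM ρ (MonoidAlgebra.of ℤ Γ γ) = aM H (ρ γ) := gr_of _ γ

theorem gI_of (γ : Γ) : gI ρ e (MonoidAlgebra.of ℤ Γ γ) = aI H e (ρ γ) := gr_of _ γ

theorem m1 (τ : Γ) (x : H) : x ∈ (algebraMap (K1 ρ τ) H).range ↔ ρ τ x = x :=
  (P014X.Ac.Ly.fx _ x).symm

theorem m2 (τ σ : Γ) (x : H) :
    x ∈ ((algebraMap (K1 ρ τ) H).comp (algebraMap (K2 ρ τ σ) (K1 ρ τ))).range ↔
      ρ τ x = x ∧ ρ σ x = x :=
  ⟨by rintro ⟨y, rfl⟩; exact ⟨y.1.2, congrArg Subtype.val y.2⟩,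
    fun h => ⟨⟨⟨x, h.1⟩, Subtype.ext h.2⟩, rfl⟩⟩

theorem dN (p : ℕ) (σ : Γ) (S) (x : AM H) :
    (dp p (ρ σ) S).N x = ∑ i ∈ range p, ((aM H).comp ρ) (σ ^ i) x :=
  (AddMonoidHom.finset_sum_apply ..).trans (sum_congr rfl fun i _ => by rw [← map_pow]; rfl)

theorem dN' (p : ℕ) (σ : Γ) (S) (x : AI H) :
    (dp p (ρ σ) S).N' x = ∑ i ∈ range p, ((aI H e).comp ρ) (σ ^ i) x :=
  (AddMonoidHom.finset_sum_apply ..).trans (sum_congr rfl fun i _ => by rw [← map_pow]; rfl)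

theorem key (τ σ : Γ) {N : ℕ} (h : σ ^ N = 1) (h0 : N ≠ 0) :
    ∀ x ∈ (ai (algebraMap (K1 ρ τ) H)).range, ∑ i ∈ range N, ((aI H e).comp ρ) (σ ^ i) x ∈
      (ai ((algebraMap (K1 ρ τ) H).comp (algebraMap (K2 ρ τ σ) (K1 ρ τ)))).range := by
  rintro _ ⟨y, rfl⟩
  obtain ⟨z, hz⟩ := nm e (rs ρ τ σ) (N := N) (by rw [← map_pow, h, map_one]) h0 y
  refine ⟨z, ?_⟩
  rw [(e.1 _ _ _ _ _).1, hz, map_sum]
  refine sum_congr rfl fun i _ => ?_
  rw [← map_pow]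
  exact ((e.1 _ _ _ _ _).1 y).symm.trans ((e.1 _ _ _ (algebraMap (K1 ρ τ) H) (ρ (σ ^ i)).toRingHom).1 y)

theorem fxI (τ : Γ) : ∀ x ∈ (ai (algebraMap (K1 ρ τ) H)).range, ((aI H e).comp ρ) τ x = x := by
  rintro _ ⟨y, rfl⟩
  exact ((e.1 _ _ _ _ _).1 y).symm.trans (congrArg (ai · y) (RingHom.ext fun z => z.2))

include e in
theorem dm {F : Type} [Field F] [NumberField F] {φ : F →+* H} {x : AM H}
    (h : (x.toMul : H) ∈ φ.range) : ad H x ∈ (ai φ).range := by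
  obtain ⟨y, rfl⟩ := mem_am.2 h
  exact ⟨_, (e.1 F H H φ (.id H)).2.1 y⟩

theorem j0 {x : AI H} (h : x ∈ Js (∅ : Finset (Pm H))) : x = 0 := by simpa [Js] using h

theorem cr_ind {z : H} {W : AddSubgroup (AM H)} (f : AM H →+ AM H)
    (h : ∀ γ v, vU v = ρ γ z → f (au H (.ofMul v)) ∈ W) :
    ∀ x ∈ (Cr ρ z).toAddSubgroup.map (au H), f x ∈ W := by
  rintro _ ⟨y, k, rfl⟩
  have : Cr ρ z ≤ (W.comap (f.comp (au H))).toSubgroup' :=
    (Subgroup.closure_le _).2 fun v ⟨γ, k⟩ => h γ v k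
  exact this k

end Ok

open Ok in
theorem okf (nut : NUT) : OKF := by
  intro H Γ _ _ _ _ ρ φ e p σ S t Y u _ da u0 _
  have sp : σ ^ p = 1 := by rw [← da.os, pow_orderOf_eq_one]
  have tp (T) (h : T ⊆ S) : tT t T ^ (∏ l ∈ T, l) = 1 := by
    rw [← (nut Γ p σ S t Y da T h).1, pow_orderOf_eq_one]
  have t0 (T) (h : T ⊆ S) : ∏ l ∈ T, l ≠ 0 :=
    prod_ne_zero_iff.2 fun l k => (da.ot l (h k)).1.ne_zero
  have nM (T) (h : T ⊆ S) (x) : gM ρ (nu (nl t) T) x =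
      ∑ i ∈ range (∏ l ∈ T, l), ((aM H).comp ρ) (tT t T ^ i) x := by
    rw [(nut Γ p σ S t Y da T h).2.1]; exact gr_sum ..
  have nI (T) (h : T ⊆ S) (x) : gI ρ e (nu (nl t) T) x =
      ∑ i ∈ range (∏ l ∈ T, l), ((aI H e).comp ρ) (tT t T ^ i) x := by
    rw [(nut Γ p σ S t Y da T h).2.1]; exact gr_sum ..
  have a0 (τ l) : ∀ x ∈ fxM (ρ τ), gM ρ l x ∈ fxM (ρ τ) := fun x (h : aM H (ρ τ) x = x) =>
    show aM H (ρ τ) (gM ρ l x) = gM ρ l x by rw [← gM_of, gM, gr_com, ← gM, gM_of, h]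
  have NM (x) : (dp p (ρ σ) ∅).N x = gM ρ (∑ i ∈ range p, MonoidAlgebra.of ℤ Γ (σ ^ i)) x :=
    (dN ..).trans (gr_sum ..).symm
  have NI (x) : (dp p (ρ σ) ∅).N' x = gI ρ e (∑ i ∈ range p, MonoidAlgebra.of ℤ Γ (σ ^ i)) x :=
    (dN' ρ e ..).trans (gr_sum ..).symm
  have jj (f : AI H →+ AI H) : ∀ x ∈ Js (∅ : Finset (Pm H)), f x ∈ Js ∅ := fun x h => by
    rw [j0 h, map_zero]; exact zero_mem _
  have e1 : tT t ∅ = 1 := prod_empty
  refine ⟨da.pr, fun l h => ⟨fun k => (da.ot l h).2.1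
      ((Nat.prime_dvd_prime_iff_eq da.pr (da.ot l h).1).1 k).symm,
      (nut Γ p σ S t Y da S subset_rfl).2.2.2 l h⟩, fun l x => ?_,
    fun l x => (NM _).trans ((gr_com ..).trans (congrArg _ (NM x).symm)),
    fun l x => (NI _).trans ((gr_com ..).trans (congrArg _ (NI x).symm)), fun l => jj _, a0 σ,
    gr_mem _ fun γ => cr_ind ρ _ fun δ v h => ?_, fun x h => ⟨?_, cr_ind ρ (W := ⊥) _ (fun γ v h => ?_) x h⟩,
    ?_, ?_, fun T h => ⟨P014X.Ac.Fld.cm e, jj _, fun x k => dm e ((m1 ..).2 (fx_am.2 k)),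
      fun x k => dm e ((m2 ..).2 ⟨fx_am.2 k.2, fx_am.2 k.1⟩), fun x k => ⟨?_, ?_⟩,
      fun x k => ?_, fun x _ k _ => j0 k⟩,
    ⟨fun _ _ => le_top, fun T h x _ => ?_, fun T h x k => (nM T h x).trans (sum_fx _ _ k)⟩,
    ⟨fun _ _ => le_top, fun T h x _ => ?_, fun T h x k => (nI T h x).trans (sum_fx _ _ (fxI ρ e _ x k))⟩,
    ⟨fun T h => rle e fun x => (m2 ..).2 ⟨by rw [e1, map_one]; rfl, ((m2 ..).1 ⟨x, rfl⟩).2⟩,
      fun T h x k => ?_, fun T h x k => (nI T h x).trans (sum_fx _ _ (fxI ρ e _ x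
        (rle e (fun y => (m1 ..).2 ((m2 ρ _ σ _).1 ⟨y, rfl⟩).1) k)))⟩⟩
  · exact gr_ind _ (P := fun l y => ad H y = gI ρ e l (ad H x)) x l
      (fun γ => (P014X.Ac.Fld.da e _ x).trans (by rw [gI_of]))
      (fun _ _ _ _ k k' => by rw [map_add, map_add, k, k']; rfl)
      fun r _ _ k => by rw [map_zsmul, map_zsmul, k]; rfl
  · refine ⟨.ofMul (Units.map (RingOfIntegers.mapRingHom (ρ γ).toRingHom).toMonoidHom v),
      (Subgroup.subset_closure ⟨γ * δ, ?_⟩ : _ ∈ Cr ρ (ρ σ u / u)), Units.ext rfl⟩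
    rw [map_mul, RingAut.mul_apply, ← h]; rfl
  · obtain ⟨y, -, rfl⟩ := h
    exact (e.2 H).2.2.1 ▸ (⟨y, rfl⟩ : au H y ∈ (au H).range)
  · have : au H (.ofMul v) = gM ρ ((MonoidAlgebra.of ℤ Γ σ - 1) * MonoidAlgebra.of ℤ Γ γ)
        (.ofMul (Units.mk0 u u0)) := by
      rw [map_mul, map_sub, map_one, gM_of, gM_of]
      refine eq_sub_of_add_eq (Units.ext ?_ : au H (.ofMul v) + aM H (ρ γ) (.ofMul (Units.mk0 u u0)) =
        aM H (ρ σ) (aM H (ρ γ) (.ofMul (Units.mk0 u u0))))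
      show vU v * ρ γ u = ρ σ (ρ γ u)
      rw [h, ← map_mul, div_mul_cancel₀ _ u0, com]
    rw [AddSubgroup.mem_bot, this]
    refine (NM _).trans ((congrArg (fun s : AddMonoid.End (AM H) => s _) (map_mul (gM ρ) ..)).symm.trans ?_)
    rw [← mul_assoc, geo sp, zero_mul, map_zero]; rfl
  · exact top_unique fun x _ => show aM H (ρ (tT t ∅)) x = x by rw [e1, map_one, map_one]; rfl
  · exact top_unique fun x _ => rle e (φ := .id H) (fun y => (m1 ..).2 (by rw [e1, map_one]; rfl))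
      ⟨x, (e.2 H).1 x⟩
  · exact show ((aM H).comp ρ) σ ((dp p (ρ σ) ∅).N x) = (dp p (ρ σ) ∅).N x by rw [dN, fx_sum _ sp]
  · exact show (dp p (ρ σ) ∅).N x ∈ fxM _ from NM x ▸ a0 _ _ x k
  · exact show (dp p (ρ σ) ∅).N' x ∈ _ from dN' ρ e p σ ∅ x ▸ key ρ e _ σ sp da.pr.ne_zero x k
  · exact show ((aM H).comp ρ) (tT t T) (gM ρ (nu (nl t) T) x) = gM ρ (nu (nl t) T) x by
      rw [nM T h, fx_sum _ (tp T h)]
  · refine show gI ρ e (nu (nl t) T) x ∈ _ from nI T h x ▸ ?_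
    simp only [MonoidHom.comp_apply, map_pow ρ]
    exact nm e _ (by rw [← map_pow, tp T h, map_one]) (t0 T h) x
  · refine show gI ρ e (nu (nl t) T) x ∈ _ from nI T h x ▸ ?_
    exact rle e (fun y => (m2 ..).2 ((m2 ..).1 ⟨y, rfl⟩).symm) (key ρ e σ _ (tp T h) (t0 T h) x
      (rle e (fun y => (m1 ..).2 ((m2 ..).1 ⟨y, rfl⟩).2) k))

end Vale.Agent.P014Z.Ac
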