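import Vale.Agent.P014Z.Ac.Exz
import Vale.Agent.P014Z.Ac.Dec
import Vale.Agent.P014Z.Ac.Okf

/-! # P014Z, the class number step: the two counts (helper15) -/

set_option autoImplicit false
set_option linter.all false

open Finset Function
open scoped Classical

noncomputable section

namespace Vale.Agent.P014Z.Ac

open P014X.Ac (pw)
open MonoidAlgebra (of)

namespace Ew

theorem idx {M Z : Type} [AddCommGroup M] [Finite Z] (P U : AddSubgroup M) (κ : M → Z)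
    (h : ∀ y ∈ U, ∀ z ∈ U, κ y = κ z → y - z ∈ P) :
    P.relIndex U ≠ 0 ∧ P.relIndex U ≤ Nat.card Z := by
  have i : Injective fun q : U ⧸ P.addSubgroupOf U => κ (q.out : U) := fun q r e =>
    Quotient.out_equiv_out.1 (QuotientAddGroup.leftRel_apply.2 (by
      have := h _ r.out.2 _ q.out.2 e.symm
      rwa [sub_eq_neg_add] at this))
  have := Finite.of_injective _ i
  exact ⟨Nat.card_pos.ne', Nat.card_le_card_of_injective _ i⟩

theorem nrm {p : ℕ} [Fact p.Prime] {Q Γ : Type} [AddCommGroup Q] [Module (ZMod p) Q] [CommGroup Γ]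
    (L : MonoidAlgebra ℤ Γ →+* Module.End (ZMod p) Q) (g : Γ) (n : ℕ) :
    L (∑ i ∈ range p, of ℤ Γ ((g ^ p ^ n) ^ i)) = L ((of ℤ Γ g - 1) ^ (p ^ (n + 1) - p ^ n)) := by
  have hp : p.Prime := Fact.out
  have e : (∑ i ∈ range p, Polynomial.X ^ i : Polynomial (ZMod p)) = (Polynomial.X - 1) ^ (p - 1) :=
    mul_right_cancel₀ (Polynomial.X_sub_C_ne_zero 1) (by
      rw [map_one, geom_sum_mul, ← pow_succ, Nat.sub_add_cancel hp.pos, sub_pow_char, one_pow])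
  have := congrArg (Polynomial.aeval (L (of ℤ Γ (g ^ p ^ n)))) e
  rw [pow_succ, ← Nat.mul_sub_one, pow_mul, map_pow L, ← Ez.frob]
  simpa only [map_pow, map_sub, map_sum, Polynomial.aeval_X, map_one] using this

variable {M Γ : Type} [AddCommGroup M] [CommGroup Γ] (A : Γ →* AddMonoid.End M) (p : ℕ)

/-- the norm is a multiple of `p` -/
def Nm (γ : Γ) (N : ℕ) : AddSubgroup M := (pw M p).comap (gr A (∑ i ∈ range N, of ℤ Γ (γ ^ i)))

theorem mem {γ : Γ} {N : ℕ} {y : M} :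
    y ∈ Nm A p γ N ↔ ∑ i ∈ range N, A (γ ^ i) y ∈ pw M p := by
  rw [← Ok.gr_sum]; rfl

theorem st {γ : Γ} {N : ℕ} {y : M} (τ : Γ) (h : y ∈ Nm A p γ N) : A τ y ∈ Nm A p γ N := by
  obtain ⟨x, e⟩ := h
  rw [← gr_of]
  exact ⟨gr A (of ℤ Γ τ) x, ((map_nsmul _ p x).symm.trans (congrArg _ e)).trans (Ok.gr_com A _ _ _)⟩

end Ew

open Ew in
/-- **row EXA** -/
theorem exa : EXA := by
  intro M Γ _ _ A p n d w _ τ g a₀ u x E pr hd td _ gen hE hw hx k0 k1 hc
  have hp : p.Prime := Fact.out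
  have d0 : 0 < d := Nat.pos_of_dvd_of_pos hd (Nat.sub_pos_of_lt hp.one_lt)
  obtain ⟨Z, z1, z2, z3⟩ := exz A pr hd td gen hw hx k0 k1
  obtain ⟨Q, _, _, f, R, -, kf, e⟩ := Ez.ex_q M p
  have t : ∀ y ∈ Nm A p (g ^ p ^ n) p, ((A g - 1) ^ (p ^ (n + 1) - p ^ n)) y ∈ pw M p := fun y h => by
    have := congrArg (· (f y)) (nrm (R.comp (gr A)) g n)
    simp only [RingHom.comp_apply, e] at this
    rw [map_pow (gr A), map_sub (gr A), gr_of, map_one (gr A)] at this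
    rw [← kf]
    exact this.symm.trans (by rw [Nm, ← kf] at h; exact h)
  let V : AddSubgroup M := E ⊓ Nm A p (g ^ p ^ n) p ⊓ ⨅ l ∈ d.primeFactors, Nm A p (tl d τ l) l
  have mv : ∀ y, y ∈ V ↔ (y ∈ E ∧ y ∈ Nm A p (g ^ p ^ n) p) ∧
      ∀ l ∈ d.primeFactors, y ∈ Nm A p (tl d τ l) l := fun y => by
    simp only [V, AddSubgroup.mem_inf, AddSubgroup.mem_iInf]
  let W : ZMod p → AddSubgroup M := fun a =>
    V ⊓ (pw M p).comap (A τ - (show AddMonoid.End M from nsmulAddMonoidHom a.val))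
  have c : ∀ a, IsPrimitiveRoot a d → (pw M p).relIndex (W a) ≠ 0 ∧
      (pw M p).relIndex (W a) ≤ p ^ (p ^ (n + 1) - p ^ n + w) := fun a h => by
    have := NeZero.of_pos d0
    obtain ⟨i, -, ci, rfl⟩ := (pr.isPrimitiveRoot_iff).1 h
    obtain ⟨Y, _, κ, b, k⟩ := hc i ci
    exact (idx (pw M p) (W _) κ fun y m z m' => k y ((mv y).1 m.1).1.1 z ((mv z).1 m'.1).1.1 m.2 m'.2
      (t y ((mv y).1 m.1).1.2) (t z ((mv z).1 m'.1).1.2)).imp_right (·.trans b)
  obtain ⟨v1, v2⟩ := dec M p d (A τ) V W hp hd (by rw [← map_pow, td, map_one])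
    (fun y m => (mv _).2 ⟨⟨hE y ((mv y).1 m).1.1, st A p τ ((mv y).1 m).1.2⟩,
      fun l k => st A p τ (((mv y).1 m).2 l k)⟩)
    (fun l hl ld y m => by
      simpa only [tl, ← pow_mul, map_pow] using
        (mem A p).1 (((mv y).1 m).2 l (Nat.mem_primeFactors.2 ⟨hl, ld, d0.ne'⟩)))
    (fun a _ y m k => ⟨m, k⟩) (fun a h => (c a h).1) (primitiveRoots d (ZMod p))
    fun a => mem_primitiveRoots d0
  refine ⟨V, Z, fun y m a b => (mv y).2 ⟨⟨m, (mem A p).2 a⟩, fun l k => (mem A p).2 (b l k)⟩, z1, v1,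
    z2, v2.trans ?_, z3⟩
  rw [mul_comm, pow_mul, ← pr.card_primitiveRoots]
  exact prod_le_pow_card _ _ _ fun a h => (c a ((mem_primitiveRoots d0).1 h)).2

end Vale.Agent.P014Z.Ac
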