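import Vale.Agent.P014Z.St
import Vale.Agent.P014Z.Inr
import Vale.Agent.P014Y.F.Pt.Kd
import Vale.Agent.P022.H790.L3.CTw

/-! # P014Z, the class number step: the Galois group of the layer (kit) -/

set_option autoImplicit false
set_option linter.all false

noncomputable section

namespace Vale.Agent.P014Z.Ac.Gr

open NumberField
open Vale.Agent.P022 (Qb GQ)
open Vale.Agent.P027M.S (Inert)
open Vale.Agent.P022E.GW (Ov)
open Vale.Agent.P022K.G2 (oz zt)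
open Vale.Agent.P014U
open P014Y.F (Crv Fld)
open P014Y.Mu (F rb)
open Gl

variable [Pp]

theorem pow_one' (η : Ch) : η ^ (pp - 1) = 1 :=
  MonoidHom.ext fun g => ZMod.pow_card_sub_one_eq_one (Inr.ne0 η g)

theorem ord_dvd (η : Ch) : orderOf η ∣ pp - 1 := orderOf_dvd_of_pow_eq_one (pow_one' η)

theorem ord_pos (η : Ch) : 0 < orderOf η :=
  Nat.pos_of_dvd_of_pos (ord_dvd η) (Nat.sub_pos_of_lt one_lt)

theorem pow_ord (η : Ch) (g : GQ) : η g ^ orderOf η = 1 :=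
  DFunLike.congr_fun (pow_orderOf_eq_one η) g

/-- the image is cyclic -/
theorem ex_gen (η : Ch) : ∃ g, IsPrimitiveRoot (η g) (orderOf η) ∧ ∀ h, ∃ i : ℕ, η h = η g ^ i := by
  obtain ⟨⟨_, g, rfl⟩, k⟩ := IsCyclic.exists_monoid_generator (α := η.toHomUnits.range)
  have k' : ∀ h, ∃ i : ℕ, η h = η g ^ i := fun h =>
    (k ⟨_, h, rfl⟩).imp fun i e => (congrArg (fun x : η.toHomUnits.range => (x.1 : F)) e).symm
  refine ⟨g, ⟨pow_ord η g, fun l e => orderOf_dvd_of_pow_eq_one (MonoidHom.ext fun h => ?_)⟩, k'⟩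
  obtain ⟨i, a⟩ := k' h
  show η h ^ l = 1
  rw [a, pow_right_comm, e, one_pow]

variable {e : Crv} (D : Da e)

theorem eta_ker {g : GQ} (h : e.r g = 1) : D.η g = 1 := by
  have r : rb e g = 1 := by
    show (e.r g).map (PadicInt.toZMod : ℤ_[pp] →+* ZMod pp) = 1
    rw [h]
    exact Matrix.map_one _ (map_zero _) (map_one _)
  rcases D.ec.tri with ⟨C, C', c, k⟩ | ⟨C, C', c, k⟩
  · rw [← (k g trivial).2.1, r, mul_one, mul_eq_one_comm.1 c]
    rfl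
  · rw [← (k g trivial).2.2, r, mul_one, mul_eq_one_comm.1 c]
    rfl

theorem eta_cyc (g : GQ) : D.η g = D.ψ (P022.H853.cyc D.f g : (ZMod D.f)ˣ) := by
  rw [D.dc.eq g _ fun ζ h => P022.H853.cyc_spec g h, ZMod.natCast_zmod_val]

theorem eta_ne : D.η ≠ 1 := fun h => by
  have : D.ψ = 1 := MulChar.ext fun a => by
    obtain ⟨g, rfl⟩ := P022.H790.CT.cyc_surj D.f a
    rw [← eta_cyc, h, MulChar.one_apply_coe]
    rfl
  have c := D.dc.prim
  rw [DirichletCharacter.isPrimitive_def, this, DirichletCharacter.conductor_one] at c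
  exact D.dc.one.ne c

theorem one_lt_ord : 1 < orderOf D.η :=
  lt_of_le_of_ne (ord_pos _) fun h => eta_ne D (orderOf_eq_one_iff.1 h.symm)

variable (b : Fld e)

theorem ex_mem (g : GQ) : ∃ h ∈ b.Γ, D.η h = D.η g := by
  obtain ⟨τ, t, k⟩ := b.ex_ker
  by_cases m : g ∈ b.Γ
  · exact ⟨g, m, rfl⟩
  · exact ⟨g * τ, b.mul_out m t, by rw [map_mul, eta_ker D k, mul_one]⟩

variable {D b} {n c : ℕ} {χ : GQ → ZMod (pp ^ (n + 1))} {γ : GQ} (z : Lz b D.η n c χ γ)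
include z

theorem chi_one : χ 1 = 0 := z.ker 1 (one_mem _)

theorem chi_pow {g : GQ} (m : g ∈ b.Γ) (i : ℕ) : χ (g ^ i) = i * χ g := by
  induction i with
  | zero => rw [pow_zero, chi_one z, Nat.cast_zero, zero_mul]
  | succ i h => rw [pow_succ g, z.add _ (pow_mem m i) _ m, h, Nat.cast_succ, add_one_mul]

theorem chi_inv {g : GQ} (m : g ∈ b.Γ) : χ g⁻¹ = -χ g :=
  eq_neg_of_add_eq_zero_left (by rw [← z.add _ (inv_mem m) _ m, inv_mul_cancel, chi_one z])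

theorem chi_gam (i : ℕ) : χ (γ ^ i) = i := by rw [chi_pow z z.g0, z.g2, mul_one]

theorem eta_gam (i : ℕ) : D.η (γ ^ i) = 1 := by rw [map_pow, z.g1, one_pow]

/-- a generator of the tame part -/
theorem ex_tau : ∃ τ ∈ b.Γ, χ τ = 0 ∧ IsPrimitiveRoot (D.η τ) (orderOf D.η) ∧
    ∀ h, ∃ i : ℕ, D.η h = D.η τ ^ i := by
  obtain ⟨g, k⟩ := ex_gen D.η
  obtain ⟨h, m, a⟩ := ex_mem D b g
  refine ⟨h * γ ^ (-χ h).val, mul_mem m (pow_mem z.g0 _), ?_, ?_⟩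
  · rw [z.add _ m _ (pow_mem z.g0 _), chi_gam z, ZMod.natCast_zmod_val, add_neg_cancel]
  · rwa [map_mul, eta_gam z, mul_one, a]

variable {U : Subgroup GQ} (u : Ug b D.η χ U)
include u

/-- cosets -/
theorem mem_iff {g h : GQ} (mg : g ∈ b.Γ) (mh : h ∈ b.Γ) :
    g⁻¹ * h ∈ U ↔ D.η g = D.η h ∧ χ g = χ h := by
  have n := Inr.ne0 D.η g
  rw [u, map_mul, z.add _ (inv_mem mg) _ mh, chi_inv z mg, and_iff_right (mul_mem (inv_mem mg) mh),
    neg_add_eq_zero, ← mul_right_inj' n, ← mul_assoc, ← map_mul, mul_inv_cancel, map_one, one_mul,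
    mul_one, eq_comm]

theorem com {g h : GQ} (mg : g ∈ b.Γ) (mh : h ∈ b.Γ) : g * h * g⁻¹ * h⁻¹ ∈ U := by
  refine (u _).2 ⟨mul_mem (mul_mem (mul_mem mg mh) (inv_mem mg)) (inv_mem mh), ?_, ?_⟩
  · rw [map_mul, map_mul, map_mul, mul_right_comm (D.η g), ← map_mul, mul_inv_cancel, mul_assoc,
      ← map_mul, mul_inv_cancel, map_one, mul_one]
  · rw [z.add _ (mul_mem (mul_mem mg mh) (inv_mem mg)) _ (inv_mem mh),
      z.add _ (mul_mem mg mh) _ (inv_mem mg), z.add _ mg _ mh, chi_inv z mg, chi_inv z mh]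
    ring

/-- every element is a product -/
theorem gen {τ : GQ} (m : τ ∈ b.Γ) (t0 : χ τ = 0) (t : ∀ h, ∃ i : ℕ, D.η h = D.η τ ^ i) {g : GQ}
    (mg : g ∈ b.Γ) : ∃ i k : ℕ, (τ ^ i * γ ^ k)⁻¹ * g ∈ U := by
  obtain ⟨i, a⟩ := t g
  refine ⟨i, (χ g).val, (mem_iff z u (mul_mem (pow_mem m _) (pow_mem z.g0 _)) mg).2 ⟨?_, ?_⟩⟩
  · rw [map_mul, eta_gam z, mul_one, map_pow, a]
  · rw [z.add _ (pow_mem m _) _ (pow_mem z.g0 _), chi_gam z, chi_pow z m, t0, mul_zero, zero_add,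
      ZMod.natCast_zmod_val]

/-- the relations -/
theorem rel {τ : GQ} (m : τ ∈ b.Γ) (t0 : χ τ = 0) (t : IsPrimitiveRoot (D.η τ) (orderOf D.η))
    (i k : ℕ) : τ ^ i * γ ^ k ∈ U ↔ orderOf D.η ∣ i ∧ pp ^ (n + 1) ∣ k := by
  rw [u, and_iff_right (mul_mem (pow_mem m _) (pow_mem z.g0 _)), map_mul, eta_gam z, mul_one, map_pow,
    t.pow_eq_one_iff_dvd, z.add _ (pow_mem m _) _ (pow_mem z.g0 _), chi_gam z, chi_pow z m, t0,
    mul_zero, zero_add, ZMod.natCast_eq_zero_iff]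

theorem ex_neg {P : Ideal (𝓞 Qb)} (o : Ov pp P) : ∃ g ∈ U, Inert P g ∧ oz pp g = -1 := by
  obtain ⟨g, i, a⟩ := Inr.oz_in o (u := -1) (neg_ne_zero.2 one_ne_zero)
  have p := List.mem_toFinset.2 e.pm
  have m := (z.ly.fro pp p P o).1 (P022D.W.inP_le_dec i)
  refine ⟨g, (u g).2 ⟨m, by rw [D.ec.ine P g o i, a, D.ec.ev.neg_one_pow], ?_⟩, i, a⟩
  have := z.ly.unr pp P o (fun h => (z.ly.out pp pp_prime h).1 p) g m i
  rwa [← ZMod.natCast_eq_zero_iff, ZMod.natCast_zmod_val] at this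

/-- **no roots of unity of order `p`** -/
theorem mu {x : Qb} (h : x ^ pp = 1) (k : ∀ g ∈ U, g x = x) : x = 1 := by
  obtain ⟨g, m, -, a⟩ := ex_neg z u (e.ov pp e.pm)
  obtain ⟨i, -, rfl⟩ := (P022K.G2.zt_prim pp).eq_pow_of_pow_eq_one h
  have := k g m
  rw [map_pow, P022K.G2.oz_spec, a, ← pow_mul, mul_comm, pow_mul] at this
  have e2 : (zt pp ^ i) ^ 2 = 1 := by
    rw [pow_two]
    nth_rw 1 [← this]
    rw [← pow_succ, pow_eq_pow_mod _ h, Nat.add_mod, ← ZMod.val_one pp, Nat.mod_eq_of_lt (ZMod.val_lt _),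
      Nat.mod_eq_of_lt (ZMod.val_lt _), ← ZMod.val_add, neg_add_cancel, ZMod.val_zero, pow_zero]
  exact (pow_eq_one_iff_of_coprime (n := 2) (m := pp) ((Nat.coprime_primes pp_prime Nat.prime_two).2
    pp_ne_two)).1 ⟨h, e2⟩

end Vale.Agent.P014Z.Ac.Gr
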