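import Vale.Agent.P014Z.Ac.St2
import Vale.Agent.P014Z.Ac.Grp0

/-! # P014Z, the class number step: row GR1 -/

set_option autoImplicit false
set_option linter.all false

noncomputable section

namespace Vale.Agent.P014Z.Ac

open Vale.Agent.P022 (Qb GQ)
open Vale.Agent.P014U
open Gr

variable [Pp]

theorem Gr.stab_open (x : Qb) : IsOpen (MulAction.stabilizer GQ x : Set GQ) := by
  have := IntermediateField.adjoin.finiteDimensional (Algebra.IsIntegral.isIntegral (R := ℚ) x)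
  refine Subgroup.isOpen_mono (fun g m => ?_)
    (IntermediateField.fixingSubgroup_isOpen (IntermediateField.adjoin ℚ {x}))
  exact m ⟨x, IntermediateField.mem_adjoin_simple_self ℚ x⟩

/-- **row GR1** -/
theorem gr1 : GR1 := fun e D b n L => by
  have z := L.lz
  refine ⟨?_, fun g m h k => Gr.com z L.ug m k, ?_, ord_dvd _, fun x h k => mu z L.ug h k,
    fun τ t => ⟨rel z L.ug τ.2 t.chi t.prim, fun g m => ?_⟩⟩
  · obtain ⟨V, o, k⟩ := z.ly.opn
    refine Subgroup.isOpen_mono (H₁ := (b.Γ ⊓ V) ⊓ MulAction.stabilizer GQ (P022.H853.zt D.f))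
      (fun g m => (L.ug g).2 ⟨m.1.1, ?_, ?_⟩) ((b.Γ_open.inter o).inter (stab_open _))
    · have := D.dc.eq g 1 fun ζ h => by
        obtain ⟨i, -, rfl⟩ := (P022.H853.zt_prim D.f).eq_pow_of_pow_eq_one h
        rw [map_pow, pow_one]
        exact congrArg (· ^ i) m.2
      rwa [Nat.cast_one, map_one] at this
    · have := k g m.1.1 m.1.2
      rwa [← ZMod.natCast_eq_zero_iff, ZMod.natCast_zmod_val] at this
  · obtain ⟨τ, m, a, c, -⟩ := ex_tau z
    exact ⟨⟨τ, m⟩, a, c⟩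
  · have := NeZero.of_pos (ord_pos D.η)
    obtain ⟨i, -, a⟩ := t.prim.eq_pow_of_pow_eq_one (pow_ord D.η g)
    refine ⟨i, a.symm, (mem_iff z L.ug m (mul_mem (pow_mem τ.2 _) (pow_mem z.g0 _))).2 ⟨?_, ?_⟩⟩
    · rw [map_mul, eta_gam z, mul_one, map_pow, a]
    · rw [z.add _ (pow_mem τ.2 _) _ (pow_mem z.g0 _), chi_gam z, chi_pow z τ.2, t.chi, mul_zero,
        zero_add, ZMod.natCast_zmod_val]

end Vale.Agent.P014Z.Ac
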