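import Vale.Agent.P014Z.Ac.St2

/-! # P014Z, the class number step, row GR2: the number of faithful characters -/

set_option autoImplicit false
set_option linter.all false

open Finset
open scoped Classical

noncomputable section

namespace Vale.Agent.P014Z.Ac

/-- characters with prescribed values at two independent generators -/
theorem ex_chr {Γ : Type} [CommGroup Γ] {d N : ℕ} {τ g : Γ} (d0 : 0 < d) (N0 : 0 < N)
    (h : ∀ i j : ℕ, τ ^ i * g ^ j = 1 ↔ d ∣ i ∧ N ∣ j) (s : ∀ γ, ∃ i j : ℕ, γ = τ ^ i * g ^ j)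
    {α β : ℂ} (hα : α ^ d = 1) (hβ : β ^ N = 1) :
    ∃ χ : Γ →* ℂˣ, (χ τ : ℂ) = α ∧ (χ g : ℂ) = β := by
  have k {M : Type} [Monoid M] {x : M} {m : ℕ} (m0 : 0 < m) (e : x ^ m = 1) (a : ℕ) :
      x ^ a * x ^ ((m - 1) * a) = 1 := by
    rw [← pow_add, ← one_add_mul, Nat.add_sub_cancel' (show 1 ≤ m from m0), pow_mul, e, one_pow]
  have k' {x : ℂ} {m : ℕ} (m0 : 0 < m) (e : x ^ m = 1) {a a' : ℕ} (dv : m ∣ a + (m - 1) * a') :
      x ^ a = x ^ a' := by
    obtain ⟨c, hc⟩ := dv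
    have : x ^ a * x ^ ((m - 1) * a') = 1 := by rw [← pow_add, hc, pow_mul, e, one_pow]
    linear_combination x ^ a' * this - x ^ a * k m0 e a'
  have t1 : τ ^ d = 1 := by simpa using (h d 0).2 ⟨dvd_rfl, dvd_zero _⟩
  have g1 : g ^ N = 1 := by simpa using (h 0 N).2 ⟨dvd_zero _, dvd_rfl⟩
  have w {a c a' c' : ℕ} (e : τ ^ a * g ^ c = τ ^ a' * g ^ c') : α ^ a * β ^ c = α ^ a' * β ^ c' := by
    have := (h (a + (d - 1) * a') (c + (N - 1) * c')).1 (by
      rw [pow_add, pow_add, mul_mul_mul_comm, e, mul_mul_mul_comm, k d0 t1, k N0 g1, mul_one])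
    rw [k' d0 hα this.1, k' N0 hβ this.2]
  choose i j e using s
  let φ : Γ →* ℂ := ⟨⟨fun γ => α ^ i γ * β ^ j γ, (w (a' := 0) (c' := 0) (by
    rw [← e]; simp)).trans (by simp)⟩, fun x y => (w (a' := i x + i y) (c' := j x + j y) (by
      rw [← e, pow_add, pow_add, mul_mul_mul_comm, ← e, ← e])).trans (by ring)⟩
  exact ⟨φ.toHomUnits, (w (a' := 1) (c' := 0) (by rw [← e]; simp)).trans (by simp),
    (w (a' := 0) (c' := 1) (by rw [← e]; simp)).trans (by simp)⟩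

/-- **row GR2** -/
theorem gr2 : GR2 := fun Γ _ _ p n d τ g hp dv h s => by
  have d0 : 0 < d := Nat.pos_of_dvd_of_pos dv (Nat.sub_pos_of_lt hp.one_lt)
  have N0 := pow_pos hp.pos (n + 1)
  have o1 : orderOf τ = d := Nat.dvd_antisymm
    (orderOf_dvd_of_pow_eq_one (by simpa using (h d 0).2 ⟨dvd_rfl, dvd_zero _⟩))
    ((h _ 0).1 (by simp)).1
  have o2 : orderOf g = p ^ (n + 1) := Nat.dvd_antisymm
    (orderOf_dvd_of_pow_eq_one (by simpa using (h 0 _).2 ⟨dvd_zero _, dvd_rfl⟩))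
    ((h 0 _).1 (by simp)).2
  have := Fintype.ofFinite (Γ →* ℂˣ)
  refine ⟨univ.filter fun χ => χ (g ^ p ^ n) ≠ 1 ∧ ∀ l ∈ d.primeFactors, χ (tl d τ l) ≠ 1,
    ⟨hp, ?_, fun l m => ⟨Nat.prime_of_mem_primeFactors m, fun c => ?_, ?_⟩, by simp⟩, ?_⟩
  · rw [orderOf_pow_of_dvd (pow_pos hp.pos n).ne' (o2 ▸ pow_dvd_pow p n.le_succ), o2, pow_succ,
      Nat.mul_div_cancel_left _ (pow_pos hp.pos n)]
  · have := Nat.le_of_dvd (Nat.sub_pos_of_lt hp.one_lt)
      ((c ▸ Nat.dvd_of_mem_primeFactors m : p ∣ d).trans dv)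
    have := hp.pos
    omega
  · have l1 := Nat.dvd_of_mem_primeFactors m
    rw [tl, orderOf_pow_of_dvd (Nat.div_pos (Nat.le_of_dvd d0 l1)
      (Nat.prime_of_mem_primeFactors m).pos).ne' ((Nat.div_dvd_of_dvd l1).trans o1.symm.dvd), o1,
      Nat.div_div_self l1 d0.ne']
  have c : d.totient * (p ^ (n + 1) - p ^ n) =
      (primitiveRoots d ℂ ×ˢ primitiveRoots (p ^ (n + 1)) ℂ).card := by
    rw [card_product, Complex.card_primitiveRoots, Complex.card_primitiveRoots,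
      Nat.totient_prime_pow_succ hp, Nat.mul_sub_one, pow_succ]
  rw [c]
  refine card_le_card_of_surjOn (fun χ => ((χ τ : ℂ), (χ g : ℂ))) fun ⟨α, β⟩ m => ?_
  obtain ⟨m1, m2⟩ := mem_product.1 m
  have a := (mem_primitiveRoots d0).1 m1
  have b := (mem_primitiveRoots N0).1 m2
  obtain ⟨χ, e1, e2⟩ := ex_chr d0 N0 h s a.pow_eq_one b.pow_eq_one
  refine ⟨χ, mem_filter.2 ⟨mem_univ _, fun q => ?_, fun l ml q => ?_⟩, Prod.ext e1 e2⟩
  · refine b.pow_ne_one_of_pos_of_lt (pow_pos hp.pos n).ne'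
      (Nat.pow_lt_pow_right hp.one_lt n.lt_succ_self) ?_
    rw [← e2, ← Units.val_pow_eq_pow_val, ← map_pow, q, Units.val_one]
  · have l1 := Nat.prime_of_mem_primeFactors ml
    refine a.pow_ne_one_of_pos_of_lt (Nat.div_pos (Nat.le_of_dvd d0
      (Nat.dvd_of_mem_primeFactors ml)) l1.pos).ne' (Nat.div_lt_self d0 l1.one_lt) ?_
    rw [← e1, ← Units.val_pow_eq_pow_val, ← map_pow]
    exact congrArg Units.val q

end Vale.Agent.P014Z.Ac
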