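import Vale.Agent.P014Z.Ac.St2
import Vale.Agent.P014Z.Lk.Brv0
import Vale.Agent.P014X.Ac.Jsf
import Vale.Agent.P014X.Ac.Exf

/-! # P014Z, the class number step: the support of the unit (helper74) -/

set_option autoImplicit false
set_option linter.all false

open NumberField Function Finset
open scoped Classical

noncomputable section

namespace Vale.Agent.P014Z.Ac

open Vale.Agent.P022 (Qb GQ GK below)
open Vale.Agent.P022D.W (dec)
open Vale.Agent.P022E.GW (Ov)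
open Vale.Agent.P014U P004K
open P014X.Ac (ai ad pm Js)
open P014X.Ac.Jf (od od_mul od_int)
open P014X.An (Pm)
open P004R.Sf (Ao)

namespace Sp

variable {H : Type} [Field H] [NumberField H] {j : H →+* Qb} {P : Ideal (𝓞 Qb)} {w : Pm H}

theorem nm (p : P.IsPrime) (h : below j P = w.asIdeal) {a b : 𝓞 H} (hb : b ∉ w.asIdeal) {y : H}
    (e : y * a = b) (i : Ip P (j y)) : a ∉ w.asIdeal := fun m => by
  obtain ⟨s, t, hs, k⟩ := i
  rw [← h] at m hb
  have q : s * RingOfIntegers.mapRingHom j b = t * RingOfIntegers.mapRingHom j a :=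
    Subtype.ext (show (s : Qb) * j b = t * j a by rw [← e, ← k, map_mul, mul_assoc])
  exact (p.mem_or_mem (q ▸ P.mul_mem_left t m)).elim hs hb

theorem od0 (p : P.IsPrime) (h : below j P = w.asIdeal) {y : H} (y0 : y ≠ 0) (i : Ip P (j y))
    (i' : Ip P (j y)⁻¹) : od w y = 0 := by
  have k : ∀ a b : 𝓞 H, a ∉ w.asIdeal → b ∉ w.asIdeal → y * a = b → od w y = 0 :=
    fun a b ha hb e => by
    have a0 : a ≠ 0 := fun z => ha (z ▸ zero_mem _)
    have := (od_int w fun z : b = 0 => hb (z ▸ zero_mem _)).2 hb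
    rwa [← e, od_mul w y0 (by simpa using a0), (od_int w a0).2 ha, add_zero] at this
  obtain ⟨n, ⟨d, hd⟩, e | e⟩ := w.exists_primeCompl_mul_eq_or_mul_eq y
  · have e' : y * (d : H) = (n : H) := e
    refine k d n hd (nm p h hd (y := y⁻¹) ?_ (by rwa [map_inv₀])) e'
    rw [← e', inv_mul_cancel_left₀ y0]
  · exact k n d (nm p h hd e i) hd e

theorem fx (h : below j P = w.asIdeal) {s : H ≃+* H} {g : GQ} (d : g ∈ dec P)
    (a : ∀ x, j (s x) = g (j x)) : ai s.toRingHom (pm w) = pm w := by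
  have c : w.asIdeal.comap (RingOfIntegers.mapRingHom s.toRingHom) = w.asIdeal := by
    rw [← h]
    refine Ideal.ext fun x => Iff.trans (Eq.to_iff (congrArg (· ∈ P) ?_))
      (d (RingOfIntegers.mapRingHom j x))
    exact Subtype.ext (a x)
  refine P014X.Ac.Exf.vl_inj ((P014X.Ac.Jf.fi_ai _ w).trans (congrArg _ ?_))
  conv_lhs => rw [← c]
  exact Ideal.map_comap_of_surjective _ (fun y => ⟨RingOfIntegers.mapRingHom s.symm.toRingHom y,
    Subtype.ext (s.apply_symm_apply y)⟩) _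

theorem cyc {Γ : Type} [CommGroup Γ] {d k : ℕ} (d0 : d ≠ 0) {τ : Γ} (h : τ ^ d = 1) (n : ¬ d ∣ k) :
    ∃ l ∈ d.primeFactors, ∃ m, tl d τ l = (τ ^ k) ^ m := by
  have lt : k.gcd d < d := (Nat.le_of_dvd d0.bot_lt (Nat.gcd_dvd_right k d)).lt_of_ne fun e =>
    n (e ▸ Nat.gcd_dvd_left k d)
  obtain ⟨m, -, e⟩ := Nat.exists_mul_mod_eq_gcd lt
  obtain ⟨q, hq⟩ := Nat.gcd_dvd_right k d
  obtain ⟨l, p, r, rfl⟩ := Nat.exists_prime_and_dvd (n := q) fun z =>
    lt.ne' (by rwa [z, mul_one] at hq)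
  refine ⟨l, Nat.mem_primeFactors.2 ⟨p, ⟨k.gcd d * r, hq.trans (by ring)⟩, d0⟩, m * r, ?_⟩
  rw [tl, Nat.div_eq_of_eq_mul_right p.pos (hq.trans (mul_left_comm _ _ _)), pow_mul, pow_mul,
    ← pow_mul τ k, pow_eq_pow_mod (k * m) h, e]

end Sp

open Sp in
/-- **row SUP** -/
theorem sup [Pp] (uni : UNI) (gr1 : GR1) : SUP := fun e D b n L H Γ _ _ _ jH π ρ τ u ga gt hu => by
  obtain ⟨-, -, -, -, un⟩ := uni e D b n L
  obtain ⟨-, -, -, dv, -, gr⟩ := gr1 e D b n L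
  obtain ⟨g1, g2⟩ := gr τ gt
  have d0 : orderOf D.η ≠ 0 := fun z => by
    have := D.five
    rw [z, zero_dvd_iff] at dv
    omega
  refine ⟨(P014X.Ac.Exf.cnt_fin (ad H (.ofMul u))).toFinset, P014X.Ac.Exf.mem_Js.2 fun w k =>
    not_not.1 fun x => k ((Set.Finite.mem_toFinset _).2 x), fun w k => ?_⟩
  obtain ⟨P, p, h⟩ := P022.H916.exists_above jH _ w.isPrime
  obtain ⟨l, hl, m⟩ := P022.H565.exists_prime_mem w
  have o : Ov l P := ⟨hl, p, by
    have : RingOfIntegers.mapRingHom jH l ∈ P := (h ▸ m : (l : 𝓞 H) ∈ below jH P)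
    rwa [map_natCast] at this⟩
  have df : l ∣ D.f := by_contra fun nd => (Set.Finite.mem_toFinset _).1 k
    ((P014X.Ac.Jf.ct_ad w u).trans (od0 p h u.ne_zero (hu ▸ (Ao P).prod_mem fun g m =>
      (un l P o nd g (L.tv'.mem g (mem_filter.1 m).1)).1) (by
        rw [hu, uu, ← prod_inv_distrib]
        exact (Ao P).prod_mem fun g m => (un l P o nd g (L.tv'.mem g (mem_filter.1 m).1)).2)))
  obtain ⟨i, hi, ne⟩ := Lk.B0.ram o df
  have id : i ∈ dec P := P022D.W.inP_le_dec hi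
  have ls := List.mem_toFinset.2 (D.dc.sup l hl df)
  have m := (L.lz.ly.fro l ls P o).1 id
  have z : (L.χ i).val = 0 := Nat.eq_zero_of_dvd_of_lt (L.lz.ly.unr l P o
    (fun k => (L.lz.ly.out l hl k).1 ls) i m hi) (ZMod.val_lt _)
  obtain ⟨k, k1, k2⟩ := g2 i m
  rw [z, pow_zero, mul_one] at k2
  have q : π τ ^ k = π ⟨i, m⟩ := by
    have := (ga.ker ((⟨i, m⟩ : b.Γ)⁻¹ * τ ^ k)).2 k2
    rwa [map_mul, map_inv, map_pow, inv_mul_eq_one, eq_comm] at this
  obtain ⟨l', p', r, t⟩ := cyc d0 (τ := π τ) (k := k) (by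
    rw [← map_pow, ga.ker]
    simpa using (g1 _ 0).2 ⟨dvd_rfl, dvd_zero _⟩) fun x =>
      ne (k1.trans ((gt.prim.pow_eq_one_iff_dvd k).2 x))
  refine ⟨l', p', fx h (pow_mem id r) fun x => ?_⟩
  rw [t, q, ← map_pow, ga.act]
  rfl

end Vale.Agent.P014Z.Ac
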