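import Vale.Agent.P014Z.Ac.St2
import Vale.Agent.P014Z.Lk.Brv0

/-! # P014Z, the class number step: the row UNI -/

set_option autoImplicit false
set_option linter.all false

namespace Vale.Agent.P014Z.Ac

open Vale.Agent.P022 (Qb GQ)
open Vale.Agent.P014U P004K
open Lk.B0

/-- the action on roots of unity is commutative -/
theorem com_mu {f : ℕ} [NeZero f] (g h : GQ) : g * h * g⁻¹ * h⁻¹ ∈ P014T.Dr.Hm f :=
  Lk.Cy.cy_one.1 (by simp only [map_mul, map_inv, mul_inv_cancel_comm, mul_inv_cancel])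

variable [Pp]

/-- **UNI** -/
theorem uni (r1 : P004K.RC1) (hg1 : HG1) : UNI := fun e D b n L =>
  ⟨s_ne L hg1, fun _ => s_fix L hg1,
    fun g m => (L.ug g).2 ⟨(mem_hf.1 m).1.1, eta_hf m, chi_hf m⟩,
    fun g a h k => mem_hf.2 ⟨(r1 b.K b.j b.iq L.c (c0 L)).2.2.2.1 g a h k, com_mu g h⟩,
    fun l P o d g _ => s_un L hg1 g o d⟩

end Vale.Agent.P014Z.Ac
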