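import Vale.Agent.P014Z.Ac.St2
import Vale.Agent.P014X.Ac.Jsf

/-! # P014Z, the class number step: the eigenspaces (helper2) -/

set_option autoImplicit false
set_option linter.all false

open NumberField Function Finset
open scoped Classical

noncomputable section

namespace Vale.Agent.P014Z.Ac

open Vale.Agent.P022 (Qb GQ GK below)
open Vale.Agent.P022E.GW (Ov)
open Vale.Agent.P014U P004K
open P014X.Ac (pw AM AI am ai ad pm Js Lo jsf)
open P014X.Ac.Fld (aM)
open P014X.An (Pm)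

namespace Wb

theorem eig {M : Type} [AddCommGroup M] {p : ℕ} [NeZero p] (t : AddMonoid.End M) (a : ZMod p) {y : M}
    (h : t y - a.val • y ∈ pw M p) (i : ℕ) : (t ^ i) y - (a ^ i).val • y ∈ pw M p := by
  have k (m n : ℕ) (e : (m : ZMod p) = n) : m • y - n • y ∈ pw M p := by
    obtain ⟨c, hc⟩ := (ZMod.intCast_eq_intCast_iff_dvd_sub n m p).1 (by simpa using e.symm)
    refine ⟨c • y, ?_⟩
    rw [nsmulAddMonoidHom_apply, ← natCast_zsmul, ← mul_zsmul, ← hc, sub_zsmul, natCast_zsmul,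
      natCast_zsmul, sub_eq_add_neg]
  have st (z : M) (hz : z ∈ pw M p) : t z ∈ pw M p := by
    obtain ⟨w, rfl⟩ := hz
    exact ⟨t w, (map_nsmul t p w).symm⟩
  induction i with
  | zero => simpa using k 1 (1 : ZMod p).val (by simp)
  | succ i e =>
    have := add_mem (add_mem (st _ e) (nsmul_mem h (a ^ i).val))
      (k ((a ^ i).val * a.val) (a ^ (i + 1)).val (by simp [pow_succ]))
    rw [map_sub, map_nsmul, smul_sub, mul_smul] at this
    rw [pow_succ' t]
    convert this using 1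
    show t ((t ^ i) y) - _ = _
    abel

theorem val {H : Type} [Field H] [NumberField H] (jH : H →+* Qb) {p : ℕ} (p0 : p ≠ 0) (y : Hˣ)
    (h : ad H (.ofMul y) ∈ pw (AI H) p) {l : ℕ} {P : Ideal (𝓞 Qb)} (o : Ov l P) :
    ∃ t : H, t ≠ 0 ∧ Ip P (jH y / jH t ^ p) ∧ Ip P (jH t ^ p / jH y) := by
  have hP := o.2.1
  let w : Pm H := ⟨below jH P, Ideal.comap_isPrime _ _, fun e => by
    have : (l : 𝓞 H) ∈ below jH P := Ideal.mem_comap.2 (by rw [map_natCast]; exact o.2.2)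
    rw [e, Ideal.mem_bot, Nat.cast_eq_zero] at this
    exact o.1.ne_zero this⟩
  obtain ⟨t, a, b, ha, hb, e⟩ := (jsf.1 H ∅ p p0).2 y (AddSubgroup.mem_sup_right h) w (notMem_empty w)
  have a0 : (a : H) ≠ 0 := fun z => ha (by
    rw [show a = 0 from RingOfIntegers.ext z]; exact w.asIdeal.zero_mem)
  have t0 : t ^ p ≠ 0 := right_ne_zero_of_mul (e ▸ mul_ne_zero a0 y.ne_zero)
  have e' : jH a * jH y = jH b * jH t ^ p := by rw [← map_mul, e, map_mul, map_pow]
  refine ⟨t, fun z => t0 (by rw [z, zero_pow p0]),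
    ⟨RingOfIntegers.mapRingHom jH a, RingOfIntegers.mapRingHom jH b, ha, ?_⟩,
    ⟨RingOfIntegers.mapRingHom jH b, RingOfIntegers.mapRingHom jH a, hb, ?_⟩⟩
  · rw [RingOfIntegers.mapRingHom_apply, RingOfIntegers.mapRingHom_apply, ← mul_div_assoc, e',
      mul_div_cancel_right₀ _ (by rw [← map_pow, map_ne_zero]; exact t0)]
  · rw [RingOfIntegers.mapRingHom_apply, RingOfIntegers.mapRingHom_apply, ← mul_div_assoc, ← e',
      mul_div_cancel_right₀ _ (by rw [map_ne_zero]; exact y.ne_zero)]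

end Wb

variable [Pp]

theorem wvb (gr1 : GR1) : WVB := by
  intro e D b n L H Γ _ _ _ jH π ρ τ ga gt a y hd he
  have fx : ∀ (x : H), ∀ g ∈ L.U, g (jH x) = jH x := fun x g k => (ga.gk ▸ k : g ∈ GK jH) x
  refine ⟨(map_ne_zero jH).2 y.toMul.ne_zero, fx _, fun l P o => ?_, fun g hg h0 => ?_⟩
  · obtain ⟨t, t0, k⟩ := Wb.val jH Pp.prime.ne_zero y.toMul hd o
    exact ⟨jH t, (map_ne_zero jH).2 t0, fx t, k⟩
  · obtain ⟨i, e1, e2⟩ := ((gr1 e D b n L).2.2.2.2.2 τ gt).2 g hg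
    rw [h0, ZMod.val_zero, pow_zero, mul_one] at e2
    have e3 : π ⟨g, hg⟩ = π τ ^ i := by
      have := (ga.ker ((⟨g, hg⟩ : b.Γ)⁻¹ * τ ^ i)).2 e2
      rwa [map_mul, map_inv, map_pow, inv_mul_eq_one] at this
    obtain ⟨z, hz⟩ := Wb.eig (aM H (ρ (π τ))) _ he i
    rw [← map_pow, ← map_pow, ← e3, ← pow_mul, mul_comm a, pow_mul, ← e1] at hz
    refine ⟨jH (z.toMul : Hˣ), fx _, ?_⟩
    have := congrArg (fun v : AM H => jH (v.toMul : Hˣ)) (eq_sub_iff_add_eq.1 hz)
    rw [div_eq_iff (pow_ne_zero _ ((map_ne_zero jH).2 y.toMul.ne_zero)), ← map_pow, ← map_pow,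
      ← map_mul, ← show _ = g _ from ga.act ⟨g, hg⟩ _]
    refine this.symm.trans ?_
    simp only [toMul_add, toMul_nsmul, nsmulAddMonoidHom_apply, Units.val_mul, Units.val_pow_eq_pow_val]

end Vale.Agent.P014Z.Ac
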