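import Vale.Agent.P014Z.Ac.St2
import Vale.Agent.P022K.G2.Tr

/-! # P014Z, the class number step: the components of the unit (helper21) -/

set_option autoImplicit false
set_option linter.all false

open Finset
open scoped Classical

noncomputable section

namespace Vale.Agent.P014Z.Ac

open Vale.Agent.P022 (Qb GQ)
open Vale.Agent.P014U

variable [Pp]

theorem xau (uni : UNI) (gr1 : GR1) : XAU := fun e D b n L => by
  obtain ⟨s0, fx, le, -, -⟩ := uni e D b n L
  obtain ⟨-, -, -, dv, -, G⟩ := gr1 e D b n L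
  have act : ∀ h ∈ b.Γ, h (uu L) = ∏ r ∈ L.R', if h⁻¹ * r ∈ L.U then r L.s else 1 := fun h hh => by
    have := L.tv'.sum_mul (M := Additive Qb) hh
      (fun y => Additive.ofMul (if h⁻¹ * y ∈ L.U then y L.s else 1)) fun y _ u _ m => by
        have : h⁻¹ * (y * u) ∈ L.U ↔ h⁻¹ * y ∈ L.U := by
          rw [← mul_assoc]; exact Subgroup.mul_mem_cancel_right _ (le m)
        simp only [this, AlgEquiv.mul_apply, fx u m]
    rw [← ofMul_prod, ← ofMul_prod] at this
    refine Eq.trans ?_ (Additive.ofMul.injective this)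
    rw [uu, prod_filter, map_prod]
    refine prod_congr rfl fun r _ => ?_
    rw [inv_mul_cancel_left]
    split_ifs
    · rfl
    · exact map_one h
  refine ⟨prod_ne_zero_iff.2 fun g _ => (map_ne_zero g).2 s0, fun g hg => ?_, fun τ t a => ?_⟩
  · rw [act g ((L.ug g).1 hg).1, uu, prod_filter]
    simp only [Subgroup.mul_mem_cancel_left _ (inv_mem hg)]
  have d0 : 0 < orderOf D.η := Nat.pos_of_dvd_of_pos dv (Nat.sub_pos_of_lt one_lt)
  have cx : ∀ (i : ℕ), ∀ y ∈ b.Γ, L.χ (τ.1 ^ i * y) = L.χ y := fun i y hy => by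
    induction i with
    | zero => rw [pow_zero, one_mul]
    | succ i ih =>
      rw [pow_succ' τ.1, mul_assoc, L.lz.add _ τ.2 _ (mul_mem (pow_mem τ.2 i) hy), t.chi, zero_add, ih]
  have key : ∀ (i : ℕ), ∀ r ∈ b.Γ,
      (τ.1 ^ i)⁻¹ * r ∈ L.U ↔ L.χ r = 0 ∧ D.η r = D.η τ.1 ^ i := fun i r hr => by
    have m : (τ.1 ^ i)⁻¹ * r ∈ b.Γ := mul_mem (inv_mem (pow_mem τ.2 i)) hr
    have e1 := cx i _ m
    have e2 := map_mul D.η (τ.1 ^ i) ((τ.1 ^ i)⁻¹ * r)
    rw [mul_inv_cancel_left] at e1 e2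
    rw [L.ug, e1, e2, map_pow, mul_eq_left₀ (pow_ne_zero i (t.prim.ne_zero d0.ne'))]
    exact ⟨fun k => ⟨k.2.2, k.2.1⟩, fun k => ⟨m, k.2, k.1⟩⟩
  refine Eq.trans ?_ (prod_congr rfl fun i _ => by rw [act _ (pow_mem τ.2 i), ← prod_pow]).symm
  rw [Gl.Lt.X, Gl.Xa, prod_filter, prod_comm]
  refine prod_congr rfl fun r hr => ?_
  have m := L.tv'.mem r hr
  simp only [key _ r m]
  split_ifs with h
  · obtain ⟨i, hi, -⟩ := (G τ t).2 r m
    rw [← pow_mod_orderOf, ← t.prim.eq_orderOf] at hi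
    rw [prod_eq_single_of_mem _ (mem_range.2 (Nat.mod_lt i d0)) fun k hk ne => ?_, if_pos ⟨h, hi⟩, hi]
    rw [if_neg fun z => ne (t.prim.pow_inj (mem_range.1 hk) (Nat.mod_lt i d0) (z.2.symm.trans hi)),
      one_pow]
  · exact (prod_eq_one fun i _ => by rw [if_neg fun z => h z.1, one_pow]).symm

end Vale.Agent.P014Z.Ac
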