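import Vale.Agent.P014Z.Ac.St
import Vale.Agent.P014Z.Su.Lfa
import Vale.Agent.P014X.An.Gal
import Vale.Agent.P004F.Ra.Lv

/-! # P014Z, block Ac: the field of an open subgroup, its group and its zeta functions -/

set_option autoImplicit false
set_option linter.all false

open NumberField Function Finset
open scoped Classical

noncomputable section

namespace Vale.Agent.P014Z.Ac

open Vale.Agent.P022 (Qb GQ GK)
open Vale.Agent.P027M.M (io)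
open Vale.Agent.P027M.S (LI)
open P014X.An.Ga (Gd ex_gd rg pl)
open P004K (Iq)
open La (Pc Ab)

namespace Zfg

variable {K H Γ : Type} [Field K] [NumberField K] [Field H] [NumberField H] [CommGroup Γ]
  {j : K →+* Qb} {jH : H →+* Qb} {π : GK j →* Γ} {a : Γ →* (H ≃ₐ[ℚ] H)}

theorem sub (le : GK jH ≤ GK j) (d : Gd (GK j) jH π a) {F : Type} [Field F] (i : F →+* H)
    (h : ∀ x, (∀ γ, a γ x = x) → x ∈ i.range) : GK (jH.comp i) ≤ GK j := fun g hg k => by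
  obtain ⟨ι, e⟩ := P004R.Gl.ex_hom le
  obtain ⟨y, z⟩ := h (ι k) fun γ => by
    obtain ⟨t, rfl⟩ := d.sur γ
    exact jH.injective (by rw [d.act, e]; exact t.2 k)
  rw [← e, ← z]
  exact hg y

theorem fr (hK : Iq K) (le : GK jH ≤ GK j) (d : Gd (GK j) jH π a) :
    Fr (rg a) ((io : Qb →+* ℂ).comp jH) := by
  obtain ⟨c, cc⟩ := P022K.G2.ex_conj (io : Qb →+* ℂ)
  have o := P004F.Ra.conj_out (j := j) hK ⟨_, cc⟩
  have cG : ∀ g, g ∉ GK j ↔ g * c ∈ GK j := fun g =>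
    ⟨fun m => P022.H20.mul_mem' hK.two m o, fun k m => o (((GK j).mul_mem_cancel_left m).1 k)⟩
  have nG := (GK j).normal_of_index_eq_two (P004F.Ra.gk_idx hK ⟨_, cc⟩)
  refine ⟨fun F _ _ i h => P014X.An.Ga.cx cc cG nG (sub le d i h), ?_⟩
  have b := d.bij cc cG le
  simp only [pl, InfinitePlace.comap_mk] at b
  exact b

theorem gk (le : GK jH ≤ GK j) (d : Gd (GK j) jH π a) {F : Type} [Field F] {i : F →+* H}
    {A : Subgroup Γ} (h : ∀ x, x ∈ i.range ↔ ∀ γ ∈ A, a γ x = x) (g : GK j) :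
    g.1 ∈ GK (jH.comp i) ↔ π g ∈ A := by
  refine ⟨fun k => ?_, fun k y => (d.act g _).symm.trans (congrArg jH ((h _).1 ⟨y, rfl⟩ _ k))⟩
  have m : a (π g) ∈ (IntermediateField.fixedField (A.map a)).fixingSubgroup := by
    rw [IntermediateField.mem_fixingSubgroup_iff]
    intro x hx
    obtain ⟨y, rfl⟩ := (h x).2 fun γ z => hx ⟨_, γ, z, rfl⟩
    exact jH.injective ((d.act g _).trans (k y))
  rw [IntermediateField.fixingSubgroup_fixedField] at m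
  obtain ⟨γ, z, e⟩ := m
  obtain ⟨t, rfl⟩ := d.sur γ
  rwa [← (d.eq_iff t g).2 fun x => t.1.symm_apply_eq.2
    ((d.act g x).symm.trans ((congrArg (fun z => jH (z x)) e.symm).trans (d.act t x)))]

theorem zf (le : GK jH ≤ GK j) (cm : ∀ g ∈ GK j, ∀ h ∈ GK j, g * h * g⁻¹ * h⁻¹ ∈ GK jH)
    (d : Gd (GK j) jH π a) {θ : (Γ →* ℂˣ) → Ideal (𝓞 K) →* ℂ} (h : ∀ χ, Pc j (χ.comp π) (θ χ)) :
    Zf (rg a) fun χ => LI (θ χ) := by
  refine ⟨fun χ s hs => La.li_ne (h χ).le hs, fun F _ _ i A X f s hs => ?_⟩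
  have s1 := sub le d i fun x k => (f.fix x).2 fun γ _ => k γ
  let e : (Γ →* ℂˣ) ↪ (GK j →* ℂˣ) := ⟨_, d.chr_inj⟩
  let θ' : (GK j →* ℂˣ) → Ideal (𝓞 K) →* ℂ := extend e θ 1
  have t : ∀ χ, θ' (e χ) = θ χ := fun χ => e.injective.extend_apply _ _ _
  rw [La.lfa (jL := jH.comp i) (X := X.map e) (θ := θ')
    ⟨s1, fun g m g' m' y => cm g m g' m' _, fun φ => ?_⟩ (fun φ m => ?_) hs, prod_map]
  · simp only [t]
  · rw [mem_map]
    refine ⟨?_, fun k => ?_⟩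
    · rintro ⟨χ, m, rfl⟩ g z
      exact (f.mem χ).1 m _ ((gk le d f.fix g).1 z)
    · obtain ⟨χ, rfl⟩ := (d.chr φ).1 fun g z => k g fun y => z _
      refine ⟨χ, (f.mem χ).2 fun γ m => ?_, rfl⟩
      obtain ⟨g, rfl⟩ := d.sur γ
      exact k g ((gk le d f.fix g).2 m)
  · obtain ⟨χ, -, rfl⟩ := mem_map.1 m
    rw [t]
    exact h χ

theorem nrm [Finite Γ] (χ : Γ →* ℂˣ) (γ : Γ) : ‖(χ γ : ℂ)‖ = 1 :=
  Complex.norm_eq_one_of_pow_eq_one (n := Nat.card Γ) (by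
    rw [← Units.val_pow_eq_pow_val, ← map_pow, pow_card_eq_one', map_one, Units.val_one])
    Nat.card_pos.ne'

end Zfg

/-- **the field, its group, the zeta functions** -/
theorem zfg0 {K : Type} [Field K] [NumberField K] (j : K →+* Qb) (hK : Iq K) (U : Subgroup GQ)
    (o : IsOpen (U : Set GQ)) (le : U ≤ GK j)
    (cm : ∀ g ∈ GK j, ∀ h ∈ GK j, g * h * g⁻¹ * h⁻¹ ∈ U) :
    ∃ (H : Type) (_ : Field H) (_ : NumberField H) (jH : H →+* Qb) (Γ : Type) (_ : CommGroup Γ)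
      (_ : Fintype Γ) (π : GK j →* Γ) (ρ : Γ →* (H ≃+* H))
      (θ : (Γ →* ℂˣ) → Ideal (𝓞 K) →* ℂ), GK jH = U ∧ Surjective π ∧ (∀ g, π g = 1 ↔ g.1 ∈ U) ∧
      (∀ g x, jH (ρ (π g) x) = g.1 (jH x)) ∧ (∀ x : Qb, (∀ g ∈ U, g x = x) → ∃ y, jH y = x) ∧
      Fr ρ ((io : Qb →+* ℂ).comp jH) ∧ (∀ χ, Pc j (χ.comp π) (θ χ)) ∧
      Zf ρ fun χ => LI (θ χ) := by
  obtain ⟨H, _, _, -, -, jH, -, -, rfl, -⟩ := P022.H916.exists_fld j U o le fun g hg u hu => by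
    simpa using mul_mem (cm g hg u (le hu)) hu
  obtain ⟨Γ, _, _, π, a, d⟩ := ex_gd cm le
  choose θ h using fun χ : Γ →* ℂˣ => La.ex_pc (χ.comp π) fun g => (Zfg.nrm χ _).le
  exact ⟨H, _, ‹_›, jH, Γ, _, ‹_›, π, rg a, θ, rfl, d.sur, d.ker, d.act, fun x => P004R.Ki.fixed,
    Zfg.fr hK le d, h, Zfg.zf le cm d h⟩

end Vale.Agent.P014Z.Ac
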