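import Vale.Agent.P014Z.Ac.St2
import Vale.Agent.P014Z.Ac.Zfg

/-! # P014Z, the class number step: the row `ZFG` -/

set_option autoImplicit false
set_option linter.all false

namespace Vale.Agent.P014Z.Ac

theorem zfg : ZFG := fun K _ _ j hK U o le cm => by
  obtain ⟨H, _, _, jH, Γ, _, _, π, ρ, θ, a, b, c, d, -, f, p, z⟩ := zfg0 j hK U o le cm
  exact ⟨H, Γ, _, ‹_›, _, ‹_›, jH, π, ρ, θ, ⟨a, b, c, d⟩, f, z, p⟩

end Vale.Agent.P014Z.Ac
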