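import Vale.Agent.P014Z.Ac.All0
import Vale.Agent.P014Z.Ac.Acx
import Vale.Agent.P014Z.Ac.Zfg1
import Vale.Agent.P014Z.Ac.Gr1
import Vale.Agent.P014Z.Ac.Gr2
import Vale.Agent.P014Z.Ac.Exa
import Vale.Agent.P014Z.Ac.Uni
import Vale.Agent.P014Z.Ac.Xau
import Vale.Agent.P014Z.Ac.Wvb
import Vale.Agent.P014Z.Ac.Sup
import Vale.Agent.P014Z.Ac.Ana
import Vale.Agent.P004K.All

/-! # P014Z, the class number step -/

namespace Vale.Agent.P014Z.Ac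

open P004K

theorem acx_of [P014U.Pp] (exa : EXA) : Gl.ACX :=
  acx x_aca zfg gr1 gr2 exa (xau (uni x_rc1 y_hg1) gr1) (wvb gr1) (sup (uni x_rc1 y_hg1) gr1)
    (ana x_rc1 x_rc2 Rc.iq y_hg1)

theorem acx_all [P014U.Pp] : Gl.ACX := acx_of exa

end Vale.Agent.P014Z.Ac
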