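import Vale.Agent.P014X.An.Cnf0

/-! # P014Z, block AC: the class number formula at zero for two families of fields -/

set_option autoImplicit false
set_option linter.all false

open NumberField NumberField.Units Complex Finset
open scoped Classical

namespace Vale.Agent.P014Z.Ac.Cn

open P014X P014X.An P014X.An.Cnf0

/-- comparison of the leading terms at zero -/
theorem core {ι κ μ : Type*} (I : Finset ι) (J : Finset κ) (X : Finset μ) {Z : ι → ℝ → ℂ}
    {H : ι → ℂ → ℂ} {r : ι → ℕ} {Z' : κ → ℝ → ℂ} {H' : κ → ℂ → ℂ} {r' : κ → ℕ} {L : μ → ℝ → ℂ}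
    {G : μ → ℂ → ℂ}
    (h1 : ∀ i ∈ I, DifferentiableOn ℂ (H i) {s | -1 < s.re})
    (h2 : ∀ i ∈ I, ∀ s : ℝ, 1 < s → (s : ℂ) ^ r i * H i s = (s - 1) * Z i s)
    (k1 : ∀ j ∈ J, DifferentiableOn ℂ (H' j) {s | -1 < s.re})
    (k2 : ∀ j ∈ J, ∀ s : ℝ, 1 < s → (s : ℂ) ^ r' j * H' j s = (s - 1) * Z' j s)
    (g1 : ∀ x ∈ X, DifferentiableOn ℂ (G x) {s | -1 < s.re})
    (g2 : ∀ x ∈ X, ∀ s : ℝ, 1 < s → s * G x s = (s - 1) * L x s)
    (hz : ∀ s : ℝ, 1 < s → ∏ i ∈ I, Z i s = (∏ j ∈ J, Z' j s) * ∏ x ∈ X, L x s)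
    (hc : I.card = J.card) (hr : ∑ i ∈ I, r i = ∑ j ∈ J, r' j + X.card) :
    ∏ i ∈ I, ‖H i 0‖ = (∏ j ∈ J, ‖H' j 0‖) * ∏ x ∈ X, ‖G x 0‖ := by
  have key := idn (f := fun s => (s - 1) ^ X.card * ∏ i ∈ I, H i s)
    (g := fun s => (∏ j ∈ J, H' j s) * ∏ x ∈ X, G x s)
    (DifferentiableOn.mul (by fun_prop) (DifferentiableOn.fun_finsetProd h1))
    ((DifferentiableOn.fun_finsetProd k1).mul (DifferentiableOn.fun_finsetProd g1)) fun t ht => by
      have t0 : (t : ℂ) ≠ 0 := ofReal_ne_zero.2 (by linarith)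
      have a1 := prod_congr rfl fun i m => h2 i m t ht
      have a2 := prod_congr rfl fun j m => k2 j m t ht
      have a3 := prod_congr rfl fun x m => g2 x m t ht
      simp only [prod_mul_distrib, prod_const, prod_pow_eq_pow_sum] at a1 a2 a3
      rw [hz t ht, hr, pow_add, hc] at a1
      refine mul_left_cancel₀ (mul_ne_zero (pow_ne_zero (∑ j ∈ J, r' j) t0)
        (pow_ne_zero X.card t0)) ?_
      linear_combination (t - 1 : ℂ) ^ X.card * a1 - ((t : ℂ) ^ X.card * ∏ x ∈ X, G x t) * a2 -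
        ((t - 1 : ℂ) ^ J.card * ∏ j ∈ J, Z' j t) * a3
  simpa [norm_prod] using congrArg norm key

theorem hR_pos (K : Type) [Field K] [NumberField K] : 0 < hR K := by
  have := regulator_pos K
  have h6 : (0 : ℝ) < classNumber K := Nat.cast_pos.2 (classNumber_pos K)
  have h7 : (0 : ℝ) < torsionOrder K := Nat.cast_pos.2 (torsionOrder_pos K)
  unfold hR; positivity

/-- the leading term of one field -/
theorem zf (F : Type) [Field F] [NumberField F] (h : IsTotallyComplex F) :
    ∃ H : ℂ → ℂ, DifferentiableOn ℂ H {s | -1 < s.re} ∧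
      (∀ s : ℝ, 1 < s → (s : ℂ) ^ rank F * H s = (s - 1) * dedekindZeta F s) ∧ ‖H 0‖ = hR F := by
  obtain ⟨H, a, b, c⟩ := zf0 F
  refine ⟨H, a, fun s hs => b s (by simpa using hs), ?_⟩
  rw [c]
  exact (norm_real _).trans (Real.norm_of_nonneg (hR_pos F).le)

/-- even and odd subsets -/
theorem cnt {ι : Type*} (A : Finset ι) :
    (A.powerset.filter fun T => Even T.card).card =
      (A.powerset.filter fun T => ¬ Even T.card).card + if A = ∅ then 1 else 0 := by
  have h := sum_powerset_neg_one_pow_card (x := A)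
  rw [← sum_filter_add_sum_filter_not _ fun T => Even T.card,
    sum_congr rfl fun T m => (mem_filter.1 m).2.neg_one_pow,
    sum_congr rfl fun T m => (Nat.not_even_iff_odd.1 (mem_filter.1 m).2).neg_one_pow] at h
  simp only [sum_const, smul_neg, nsmul_eq_mul, mul_one] at h
  split_ifs at h ⊢ <;> omega

/-- inclusion and exclusion without division -/
theorem mob {ι μ M : Type*} [CommMonoid M] (S : Finset ι) (Y : Finset μ) (z : μ → ι → Prop)
    (f : μ → M) :
    ∏ T ∈ S.powerset, (if Even T.card then ∏ x ∈ Y.filter (fun x => ∀ l ∈ T, z x l), f x else 1) =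
    (∏ T ∈ S.powerset, if Even T.card then 1 else ∏ x ∈ Y.filter (fun x => ∀ l ∈ T, z x l), f x) *
      ∏ x ∈ Y.filter (fun x => ∀ l ∈ S, ¬ z x l), f x := by
  have e : ∀ (P : Finset ι → Prop) [DecidablePred P], ∏ T ∈ S.powerset,
      (if P T then ∏ x ∈ Y.filter (fun x => ∀ l ∈ T, z x l), f x else 1) =
      ∏ x ∈ Y, f x ^ ((S.filter (z x)).powerset.filter P).card := fun P _ => by
    have a : ∀ T, (if P T then ∏ x ∈ Y.filter (fun x => ∀ l ∈ T, z x l), f x else 1) =
        ∏ x ∈ Y, if (∀ l ∈ T, z x l) ∧ P T then f x else 1 := fun T => by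
      by_cases h : P T <;> simp [h, prod_filter]
    simp only [a]
    rw [prod_comm]
    refine prod_congr rfl fun x _ => ?_
    rw [← prod_filter, prod_const]
    congr 2
    ext T
    simp only [mem_filter, mem_powerset, subset_iff]
    exact ⟨fun h => ⟨fun l m => ⟨h.1 m, h.2.1 l m⟩, h.2.2⟩,
      fun h => ⟨fun l m => (h.1 m).1, fun l m => (h.1 m).2, h.2⟩⟩
  have e2 := e fun T => ¬ Even T.card
  simp only [ite_not] at e2
  rw [e, e2, prod_filter, ← prod_mul_distrib]
  refine prod_congr rfl fun x _ => ?_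
  rw [cnt, pow_add]
  congr 1
  simp only [filter_eq_empty_iff]
  split_ifs <;> simp

/-- the alternating product of the leading terms -/
theorem alp {ι μ : Type*} (S : Finset ι) (Y : Finset μ) (z : μ → ι → Prop)
    {Z Z' : Finset ι → ℝ → ℂ} {H H' : Finset ι → ℂ → ℂ} {r r' : Finset ι → ℕ} {L : μ → ℝ → ℂ}
    {G : μ → ℂ → ℂ}
    (h1 : ∀ T ⊆ S, DifferentiableOn ℂ (H T) {s | -1 < s.re})
    (h2 : ∀ T ⊆ S, ∀ s : ℝ, 1 < s → (s : ℂ) ^ r T * H T s = (s - 1) * Z T s)
    (k1 : ∀ T ⊆ S, DifferentiableOn ℂ (H' T) {s | -1 < s.re})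
    (k2 : ∀ T ⊆ S, ∀ s : ℝ, 1 < s → (s : ℂ) ^ r' T * H' T s = (s - 1) * Z' T s)
    (g1 : ∀ x ∈ Y, (∀ l ∈ S, ¬ z x l) → DifferentiableOn ℂ (G x) {s | -1 < s.re})
    (g2 : ∀ x ∈ Y, (∀ l ∈ S, ¬ z x l) → ∀ s : ℝ, 1 < s → s * G x s = (s - 1) * L x s)
    (hz : ∀ T ⊆ S, ∀ s : ℝ, 1 < s →
      Z T s = Z' T s * ∏ x ∈ Y.filter (fun x => ∀ l ∈ T, z x l), L x s)
    (hr : ∀ T ⊆ S, r T = r' T + (Y.filter fun x => ∀ l ∈ T, z x l).card) :
    ∏ T ∈ S.powerset, (if Even T.card then ‖H T 0‖ else ‖H' T 0‖) =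
      (∏ T ∈ S.powerset, if Even T.card then ‖H' T 0‖ else ‖H T 0‖) *
        ∏ x ∈ Y.filter (fun x => ∀ l ∈ S, ¬ z x l), ‖G x 0‖ := by
  have key := core S.powerset S.powerset (Y.filter fun x => ∀ l ∈ S, ¬ z x l)
    (Z := fun T => if Even T.card then Z T else Z' T) (H := fun T => if Even T.card then H T else H' T)
    (r := fun T => if Even T.card then r T else r' T)
    (Z' := fun T => if Even T.card then Z' T else Z T)
    (H' := fun T => if Even T.card then H' T else H T)
    (r' := fun T => if Even T.card then r' T else r T) (L := L) (G := G)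
    (fun T m => by split_ifs; exacts [h1 T (mem_powerset.1 m), k1 T (mem_powerset.1 m)])
    (fun T m => by split_ifs; exacts [h2 T (mem_powerset.1 m), k2 T (mem_powerset.1 m)])
    (fun T m => by split_ifs; exacts [k1 T (mem_powerset.1 m), h1 T (mem_powerset.1 m)])
    (fun T m => by split_ifs; exacts [k2 T (mem_powerset.1 m), h2 T (mem_powerset.1 m)])
    (fun x m => g1 x (mem_filter.1 m).1 (mem_filter.1 m).2)
    (fun x m => g2 x (mem_filter.1 m).1 (mem_filter.1 m).2) (fun s hs => by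
      have a := mob S Y z fun x => L x s
      have b : ∏ T ∈ S.powerset, (if Even T.card then Z T else Z' T) s = (∏ T ∈ S.powerset, Z' T s) *
          ∏ T ∈ S.powerset, if Even T.card then
            ∏ x ∈ Y.filter (fun x => ∀ l ∈ T, z x l), L x s else 1 := by
        rw [← prod_mul_distrib]
        refine prod_congr rfl fun T m => ?_
        split_ifs
        exacts [hz T (mem_powerset.1 m) s hs, (mul_one _).symm]
      have c : ∏ T ∈ S.powerset, (if Even T.card then Z' T else Z T) s = (∏ T ∈ S.powerset, Z' T s) *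
          ∏ T ∈ S.powerset, if Even T.card then 1 else
            ∏ x ∈ Y.filter (fun x => ∀ l ∈ T, z x l), L x s := by
        rw [← prod_mul_distrib]
        refine prod_congr rfl fun T m => ?_
        split_ifs
        exacts [(mul_one _).symm, hz T (mem_powerset.1 m) s hs]
      rw [b, c, a, mul_assoc]) rfl (by
      have a := mob S Y z fun _ => Multiplicative.ofAdd (1 : ℕ)
      apply_fun Multiplicative.toAdd at a
      simp only [toAdd_mul, toAdd_prod, apply_ite Multiplicative.toAdd, toAdd_ofAdd, toAdd_one,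
        sum_const, smul_eq_mul, mul_one] at a
      have b : ∑ T ∈ S.powerset, (if Even T.card then r T else r' T) = ∑ T ∈ S.powerset, r' T +
          ∑ T ∈ S.powerset, if Even T.card then (Y.filter fun x => ∀ l ∈ T, z x l).card else 0 := by
        rw [← sum_add_distrib]
        refine sum_congr rfl fun T m => ?_
        split_ifs
        exacts [hr T (mem_powerset.1 m), rfl]
      have c : ∑ T ∈ S.powerset, (if Even T.card then r' T else r T) = ∑ T ∈ S.powerset, r' T +
          ∑ T ∈ S.powerset, if Even T.card then 0 else (Y.filter fun x => ∀ l ∈ T, z x l).card := by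
        rw [← sum_add_distrib]
        refine sum_congr rfl fun T m => ?_
        split_ifs
        exacts [rfl, hr T (mem_powerset.1 m)]
      rw [b, c, a, add_assoc])
  simpa only [apply_ite (fun f : ℂ → ℂ => ‖f 0‖)] using key

/-- the same with quotients -/
theorem alt_div {ι μ : Type*} (S : Finset ι) (X : Finset μ) {a b : Finset ι → ℝ} {g : μ → ℝ}
    (ha : ∀ T ⊆ S, 0 < a T) (hb : ∀ T ⊆ S, 0 < b T)
    (h : ∏ T ∈ S.powerset, (if Even T.card then a T else b T) =
      (∏ T ∈ S.powerset, if Even T.card then b T else a T) * ∏ x ∈ X, g x) :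
    ∏ T ∈ S.powerset, (a T / b T) ^ ((-1 : ℤ) ^ T.card) = ∏ x ∈ X, g x := by
  have n : ∏ T ∈ S.powerset, (if Even T.card then b T else a T) ≠ 0 := prod_ne_zero_iff.2 fun T m => by
    split_ifs
    exacts [(hb T (mem_powerset.1 m)).ne', (ha T (mem_powerset.1 m)).ne']
  rw [← mul_div_cancel_left₀ (∏ x ∈ X, g x) n, ← h, ← prod_div_distrib]
  refine prod_congr rfl fun T m => ?_
  split_ifs with e
  · rw [e.neg_one_pow, zpow_one]
  · rw [(Nat.not_even_iff_odd.1 e).neg_one_pow, zpow_neg_one, inv_div]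

end Vale.Agent.P014Z.Ac.Cn
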