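import Vale.Agent.P014Z.Ac.St
import Vale.Agent.P014Z.Ac.Cnz0

/-! # P014Z, block AC: the class number formula at zero for the faithful characters -/

set_option autoImplicit false
set_option linter.all false

open NumberField NumberField.Units Finset
open scoped Classical

namespace Vale.Agent.P014Z.Ac

theorem cn0 (nut : NUT) (rkf : RKF) : CN0 := by
  intro H Γ _ _ _ _ ρ φ p σ S t Y L G fr da zf ct
  letI : Fintype (Γ →* ℂˣ) := Fintype.ofFinite _
  obtain ⟨rk, fi⟩ := rkf H Γ ρ φ fr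
  let X₁ : Finset ℕ → Finset (Γ →* ℂˣ) := fun T => univ.filter fun χ => χ (tT t T) = 1
  let X₂ : Finset ℕ → Finset (Γ →* ℂˣ) := fun T => univ.filter fun χ => χ (tT t T) = 1 ∧ χ σ = 1
  let Y₀ : Finset (Γ →* ℂˣ) := univ.filter fun χ => χ σ ≠ 1
  have f := fun T => fi (tT t T) σ (X₁ T) (X₂ T) (by simp [X₁]) (by simp [X₂])
  have r1 := fun T => rk _ _ _ _ (f T).1
  have r2 := fun T => rk _ _ _ _ (f T).2
  choose A a1 a2 a3 using fun T => Cn.zf _ (r1 T).1
  choose B b1 b2 b3 using fun T => Cn.zf _ (r2 T).1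
  have e1 : ∀ T, (X₁ T).filter (fun χ => χ σ = 1) = X₂ T := fun T => by
    ext χ; simp [X₁, X₂]
  have e2 : ∀ T ⊆ S, ∀ D, (X₁ T).filter (fun χ => ¬ χ σ = 1) =
      @filter _ (fun χ => ∀ l ∈ T, χ (t l) = 1) D Y₀ := fun T m D => by
    ext χ; simp [X₁, Y₀, (nut Γ p σ S t Y da T m).2.2.1 χ, and_comm]
  have e3 : ∀ D, @filter _ (fun χ => ∀ l ∈ S, ¬ χ (t l) = 1) D Y₀ = Y := fun D => by
    ext χ; simp [Y₀, da.mem]
  have my : ∀ χ ∈ Y₀, (∀ l ∈ S, ¬ χ (t l) = 1) → χ ∈ Y := fun χ a b =>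
    (da.mem χ).2 ⟨(mem_filter.1 a).2, b⟩
  have k := Cn.alp S Y₀ (fun χ l => χ (t l) = 1) (L := L) (G := G) (fun T _ => a1 T)
    (fun T _ => a2 T) (fun T _ => b1 T) (fun T _ => b2 T) (fun χ a b => (ct χ (my χ a b)).1)
    (fun χ a b => (ct χ (my χ a b)).2) (fun T m s hs => by
      rw [zf.eq _ _ _ _ (f T).1 s hs, zf.eq _ _ _ _ (f T).2 s hs, ← e1, ← e2 T m,
        prod_filter_mul_prod_filter_not]) fun T m => by
      have := card_filter_add_card_filter_not (s := X₁ T) fun χ => χ σ = 1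
      rw [e1, ← (r1 T).2, ← (r2 T).2] at this
      rw [← e2 T m]
      omega
  rw [e3] at k
  simp only [a3, b3] at k
  exact Cn.alt_div S Y (fun _ _ => Cn.hR_pos _) (fun _ _ => Cn.hR_pos _) (by convert k)

end Vale.Agent.P014Z.Ac
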