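import Vale.Agent.P014Z.Ac.St
import Vale.Agent.P014X.An.Rg
import Vale.Agent.P014X.Ac.Trp
import Vale.Agent.P014X.Ac.Jsf
import Vale.Agent.P014X.Ac.Nrm

/-! # P014Z, block Ac: covolumes of one pair of fields -/

set_option autoImplicit false
set_option linter.all false

open NumberField NumberField.Units Function Finset
open scoped Classical

noncomputable section

namespace Vale.Agent.P014Z.Ac

open P014X.Ac (Dp AM AI am ai ad au Js dp fxM EXF Cc Ab)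
open P014X.An (Pm nU vU hR Cr xs Pa Cy)
open P014X.An.Cv (a_mul cl rp cl_rp sum_cl)
open P014X.Ac.Fld
open Subgroup (zpowers mem_zpowers)

namespace Cv

variable {H Γ : Type} [Field H] [NumberField H] [CommGroup Γ] [Fintype Γ] {ρ : Γ →* (H ≃+* H)}
  {φ : H →+* ℂ} {τ σ : Γ}

theorem fix {x : H} (h : ρ τ x = x) : ∀ δ ∈ zpowers τ, ρ δ x = x := fun δ m => by
  obtain ⟨n, rfl⟩ := mem_powers_iff_mem_zpowers.2 m
  induction n with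
  | zero => simp
  | succ n ih => simp only [pow_succ, a_mul, h] at ih ⊢; exact ih ⟨n, by simp⟩

theorem pa (f : Fr ρ φ) (τ : Γ) : Pa (K1 ρ τ) ρ (zpowers τ) (InfinitePlace.mk φ) :=
  ⟨f.bij, fun x => ⟨fun k => ⟨⟨x, k τ (mem_zpowers τ)⟩, rfl⟩, by rintro ⟨y, rfl⟩; exact fix y.2⟩⟩

variable (ρ τ) in
/-- the action of the quotient -/
def rq : Γ ⧸ zpowers τ →* (K1 ρ τ ≃+* K1 ρ τ) :=
  QuotientGroup.lift _ (rs ρ τ) fun δ m => RingEquiv.ext fun x => Subtype.ext (fix x.2 δ m)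

theorem bij (f : Fr ρ φ) (τ : Γ) : Bijective fun c : Γ ⧸ zpowers τ =>
    InfinitePlace.mk ((φ.comp (algebraMap (K1 ρ τ) H)).comp (rq ρ τ c).toRingHom) := by
  convert (pa f τ).bij' using 2 with c
  conv_lhs => rw [← cl_rp _ c]
  rfl

theorem inj (f : Fr ρ φ) : Injective ρ := fun a b e => f.bij.1 (by simp only [e])

theorem nm_rs (f : Fr ρ φ) (γ : Γ) (x : H) :
    Algebra.norm (K1 ρ τ) (ρ γ x) = rs ρ τ γ (Algebra.norm (K1 ρ τ) x) := Subtype.ext <| by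
  show algebraMap (K1 ρ τ) H _ = ρ γ (algebraMap (K1 ρ τ) H _)
  rw [(pa f τ).norm, (pa f τ).norm, map_prod]
  exact prod_congr rfl fun δ _ => com ρ δ γ x

theorem xs_eq (f : Fr ρ φ) {u : H} (u0 : u ≠ 0) (χ : Γ ⧸ zpowers τ →* ℂˣ) :
    xs (rq ρ τ) (φ.comp (algebraMap (K1 ρ τ) H)) (Algebra.norm (K1 ρ τ) u) χ =
      xs ρ φ u (χ.comp (QuotientGroup.mk' _)) := by
  rw [xs, xs, ← sum_fiberwise univ (cl (zpowers τ))]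
  refine sum_congr rfl fun c _ => ?_
  obtain ⟨γ, rfl⟩ := QuotientGroup.mk_surjective c
  rw [sum_cl]
  show _ * ((Real.log ‖φ (ρ γ (algebraMap (K1 ρ τ) H _))‖ : ℝ) : ℂ) = _
  rw [(pa f τ).norm, map_prod, map_prod, norm_prod, Real.log_prod fun δ _ => by simpa using u0]
  push_cast
  rw [mul_sum]
  refine sum_congr rfl fun δ _ => ?_
  rw [a_mul, MonoidHom.comp_apply, QuotientGroup.mk'_apply, QuotientGroup.mk_mul_of_mem _ δ.2]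

theorem prod_eq {X : Finset (Γ →* ℂˣ)} {X' : Finset (Γ ⧸ zpowers τ →* ℂˣ)}
    (h : ∀ χ, χ ∈ X ↔ χ σ ≠ 1 ∧ χ τ = 1) (h' : ∀ χ, χ ∈ X' ↔ χ σ ≠ 1) (g : (Γ →* ℂˣ) → ℝ) :
    ∏ χ ∈ X', g (χ.comp (QuotientGroup.mk' _)) = ∏ χ ∈ X, g χ := by
  refine prod_nbij (·.comp (QuotientGroup.mk' _)) (fun χ k => (h _).2 ⟨(h' χ).1 k, ?_⟩)
    (fun a _ b _ e => (MonoidHom.cancel_right (QuotientGroup.mk'_surjective _)).1 e)
    (fun χ k => ?_) fun _ _ => rfl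
  · exact (congrArg χ ((QuotientGroup.eq_one_iff τ).2 (mem_zpowers τ))).trans (map_one χ)
  · exact ⟨QuotientGroup.lift _ χ (Subgroup.zpowers_le.2 ((h χ).1 k).2), (h' _).2 ((h χ).1 k).1, rfl⟩

variable {p : ℕ} {u : H}

theorem nm_div (f : Fr ρ φ) (u0 : u ≠ 0) : Algebra.norm (K1 ρ τ) (ρ σ u / u) =
    rq ρ τ σ (Algebra.norm (K1 ρ τ) u) / Algebra.norm (K1 ρ τ) u := by
  rw [eq_div_iff (by simpa using u0), ← map_mul, div_mul_cancel₀ _ u0, nm_rs f]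
  rfl

theorem nu_cj (f : Fr ρ φ) (u0 : u ≠ 0) {γ : Γ} {v : (𝓞 H)ˣ} (e : vU v = ρ γ (ρ σ u / u)) :
    vU (nU (K1 ρ τ) H v) =
      rq ρ τ γ (rq ρ τ σ (Algebra.norm (K1 ρ τ) u) / Algebra.norm (K1 ρ τ) u) := by
  show Algebra.norm (K1 ρ τ) (vU v) = _
  rw [e, nm_rs f, nm_div f u0]
  rfl

theorem cy (f : Fr ρ φ) (hp : p.Prime) (os : orderOf σ = p) (h : σ ∉ zpowers τ) (u0 : u ≠ 0)
    (hu : ∀ γ, ∃ v, vU v = ρ γ (ρ σ u / u)) {X' : Finset (Γ ⧸ zpowers τ →* ℂˣ)}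
    (h' : ∀ χ, χ ∈ X' ↔ χ σ ≠ 1) : Cy p (K2 ρ τ σ) (rq ρ τ) (φ.comp (algebraMap (K1 ρ τ) H)) σ
      (Algebra.norm (K1 ρ τ) u) X' := by
  haveI := Fact.mk hp
  refine ⟨hp, orderOf_eq_prime ?_ fun e => h ((QuotientGroup.eq_one_iff σ).1 e),
    f.cx _ ((algebraMap (K1 ρ τ) H).comp (algebraMap _ _))
      fun x k => ⟨⟨⟨x, k τ⟩, Subtype.ext (k σ)⟩, rfl⟩,
    bij f τ, P014X.Ac.Ly.fx (rs ρ τ σ), by simpa using u0, fun c => ?_, h'⟩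
  · rw [← QuotientGroup.mk_pow, ← os, pow_orderOf_eq_one, QuotientGroup.mk_one]
  · obtain ⟨γ, rfl⟩ := QuotientGroup.mk_surjective c
    exact (hu γ).elim fun v e => ⟨_, nu_cj f u0 e⟩

theorem cr_eq (f : Fr ρ φ) (u0 : u ≠ 0) (hu : ∀ γ, ∃ v, vU v = ρ γ (ρ σ u / u)) :
    (Cr ρ (ρ σ u / u)).map (nU (K1 ρ τ) H) =
      Cr (rq ρ τ) (rq ρ τ σ (Algebra.norm (K1 ρ τ) u) / Algebra.norm (K1 ρ τ) u) := by
  rw [Cr, Cr, MonoidHom.map_closure]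
  refine congrArg _ (Set.ext fun w => ⟨?_, fun ⟨c, k⟩ => ?_⟩)
  · rintro ⟨v, ⟨γ, e⟩, rfl⟩
    exact ⟨γ, nu_cj f u0 e⟩
  · obtain ⟨γ, rfl⟩ := QuotientGroup.mk_surjective c
    obtain ⟨v, e⟩ := hu γ
    exact ⟨v, ⟨γ, e⟩, Units.ext (RingOfIntegers.ext ((nu_cj f u0 e).trans k.symm))⟩

theorem ab0 {F L : Type} [Field F] [NumberField F] [Field L] [NumberField L] (i : F →+* L) :
    Ab i ∅ ∅ := fun _ _ _ => by simp

/-- the layer -/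
theorem lay (e : EXF) (c1 : ∃ d, Cc d (K1 ρ τ) (ρ τ)) (c2 : Cc p (K2 ρ τ σ) (rs ρ τ σ))
    {X : Dp (AM H) (AI H)} (hX : X = dp p (ρ σ) ∅) {M₁ : AddSubgroup (AM H)}
    {I₁ I₀ : AddSubgroup (AI H)} (hM : M₁ = fxM (ρ τ)) (hI : I₁ = (ai (algebraMap (K1 ρ τ) H)).range)
    (hI' : I₀ = (ai ((algebraMap (K1 ρ τ) H).comp (algebraMap (K2 ρ τ σ) (K1 ρ τ)))).range) :
    X.Lp M₁ (fxM (ρ σ) ⊓ M₁) I₁ I₀ ∧ X.h M₁ I₁ = classNumber (K1 ρ τ) ∧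
    X.h (fxM (ρ σ) ⊓ M₁) I₀ = classNumber (K2 ρ τ σ) ∧
    X.e M₁ (fxM (ρ σ) ⊓ M₁) = (nU (K2 ρ τ σ) (K1 ρ τ)).range.index ∧
    X.f I₁ I₀ = ∏ w ∈ (∅ : Finset (Pm (K1 ρ τ))), w.asIdeal.inertiaDeg (𝓞 (K2 ρ τ σ)) ∧
    Module.finrank ℤ ↥(M₁ ⊓ X.d.ker) = rank (K1 ρ τ) ∧
    Module.finrank ℤ ↥(fxM (ρ σ) ⊓ M₁ ⊓ X.d.ker) = rank (K2 ρ τ σ) ∧
    X.U ⊓ M₁ = (nU (K2 ρ τ σ) (K1 ρ τ)).ker.toAddSubgroup.map
      ((am (algebraMap (K1 ρ τ) H)).comp (au (K1 ρ τ))) ∧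
    Injective ((am (algebraMap (K1 ρ τ) H)).comp (au (K1 ρ τ))) := by
  obtain ⟨d, c1⟩ := c1
  rw [fx_eq c1] at hM
  subst hX hM
  have q : ∀ x, algebraMap (K1 ρ τ) H (rs ρ τ σ x) = ρ σ (algebraMap (K1 ρ τ) H x) := fun _ => rfl
  refine P014X.Ac.trp e P014X.Ac.jsf P014X.Ac.nrm p (K2 ρ τ σ) (K1 ρ τ) H _ (algebraMap (K1 ρ τ) H)
    (dp p (ρ σ) ∅) ∅ ∅ ∅ c2 (ab0 _) (ab0 _) rfl rfl rfl (cm e)
    (NJ e P014X.Ac.jsf (ab0 _)) (fun x => (AddMonoidHom.finset_sum_apply ..).trans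
      ((sum_congr rfl fun i _ => congrArg (am · x) (pw_res q i).symm).trans
        (map_sum (am (algebraMap (K1 ρ τ) H)) (fun i => am (rs ρ τ σ ^ i).toRingHom x) _).symm))
    (fun x => (AddMonoidHom.finset_sum_apply ..).trans ((sum_congr rfl fun i _ =>
      ((e.1 _ _ _ _ _).1 x).symm.trans ((congrArg (ai · x) (pw_res q i).symm).trans
      ((e.1 _ _ _ _ _).1 x))).trans (map_sum ..).symm)) _ _ _ _ rfl ?_ hI hI'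
  refine le_antisymm (fun x h => ?_) (le_inf ?_ ?_)
  · obtain ⟨y, hy⟩ := mem_am.1 h.2
    exact mem_am.2 ⟨⟨y, Subtype.ext ((congrArg (ρ σ) hy).trans ((fx_am.2 h.1).trans hy.symm))⟩, hy⟩
  · rintro x k
    obtain ⟨y, hy⟩ := mem_am.1 k
    exact fx_am.1 (hy ▸ congrArg Subtype.val y.2)
  · exact fun _ ⟨y, k⟩ => ⟨am (algebraMap _ _) y, k⟩

end Cv

open Cv

/-- **covolumes of one pair of fields** -/
theorem cvt (nut : NUT) : CVT := by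
  intro H Γ _ _ _ _ ρ φ e p σ S t Y u f D u0 hu x0 T hT X hX
  obtain ⟨o, nT, -⟩ := nut Γ p σ S t Y D T hT
  simp only [Mv.l, Mv.r, Mv.k1, Mv.k0, mv]
  rw [nT]
  set τ := tT t T
  set d := ∏ l ∈ T, l with hd
  have n : σ ∉ zpowers τ := fun k => by
    have := orderOf_dvd_of_mem_zpowers k
    rw [D.os, o] at this
    obtain ⟨l, m, k⟩ := (Prime.dvd_finset_prod_iff D.pr.prime _).1 this
    exact (D.ot l (hT m)).2.1 ((Nat.prime_dvd_prime_iff_eq D.pr (D.ot l (hT m)).1).1 k).symm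
  obtain ⟨X', h'⟩ : ∃ X' : Finset (Γ ⧸ zpowers τ →* ℂˣ), ∀ χ, χ ∈ X' ↔ χ σ ≠ 1 :=
    ⟨(Set.toFinite {χ : Γ ⧸ zpowers τ →* ℂˣ | χ σ ≠ 1}).toFinset, fun χ => Set.Finite.mem_toFinset _⟩
  have c := cy f D.pr D.os n u0 hu h'
  have c1 : Cc d (K1 ρ τ) (ρ τ) := ⟨(orderOf_injective ρ (inj f) τ).trans o,
    o ▸ (orderOf_pos τ).ne', P014X.Ac.Ly.fx _⟩
  have c2 : Cc p (K2 ρ τ σ) (rs ρ τ σ) := ⟨(orderOf_injective (rq ρ τ)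
    (fun a b k => c.bij.1 (by simp only [k])) σ).trans c.ord, D.pr.ne_zero, c.fix⟩
  obtain ⟨-, h1, h2, e1, f1, r1, r2, u1, i1⟩ := lay e ⟨d, c1⟩ c2 rfl rfl rfl rfl
  have z : ∀ χ ∈ X', xs (rq ρ τ) (φ.comp (algebraMap (K1 ρ τ) H)) (Algebra.norm (K1 ρ τ) u) χ ≠ 0 :=
    fun χ k => by rw [xs_eq f u0]; exact x0 _ ((h' χ).1 k)
  obtain ⟨-, -, a, b⟩ := P014X.An.rg c z
  simp only [xs_eq f u0] at b z
  rw [prod_eq hX h' fun χ => ‖2 * xs ρ φ u χ‖, ← cr_eq f u0 hu] at b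
  have g : ((Cr ρ (ρ σ u / u)).toAddSubgroup.map (au H)).map
      (gM ρ (∑ i ∈ range d, MonoidAlgebra.of ℤ Γ (τ ^ i)) : AM H →+ AM H) =
      ((Cr ρ (ρ σ u / u)).map (nU (K1 ρ τ) H)).toAddSubgroup.map
        ((am (algebraMap (K1 ρ τ) H)).comp (au (K1 ρ τ))) := by
    have k : ∀ v : (𝓞 H)ˣ, gM ρ (∑ i ∈ range d, MonoidAlgebra.of ℤ Γ (τ ^ i)) (au H (.ofMul v)) =
        am (algebraMap (K1 ρ τ) H) (au (K1 ρ τ) (.ofMul (nU (K1 ρ τ) H v))) := fun v => by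
      rw [← (P014X.Ac.nrm d _ H _ c1).2.2 v, map_sum]
      refine (AddMonoidHom.finset_sum_apply ..).trans (sum_congr rfl fun i _ => ?_)
      rw [gM, gr_of, ← map_pow]
      rfl
    ext x
    exact ⟨fun ⟨_, ⟨v, m, rfl⟩, j⟩ => ⟨_, ⟨v, m, rfl⟩, (k v).symm.trans j⟩,
      fun ⟨_, ⟨v, m, rfl⟩, j⟩ => ⟨_, ⟨.ofMul v, m, rfl⟩, (k v).trans j⟩⟩
  have w := P014X.An.Ix.rpos
  rw [g, u1, rel i1, h1, h2, e1, f1, prod_empty, mul_one]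
  refine ⟨mul_ne_zero (fun k => ?_) (classNumber_ne_zero _), mul_ne_zero a (classNumber_ne_zero _),
    ?_, r1, r2⟩
  · rw [k, Nat.cast_zero, zero_mul] at b
    exact mul_ne_zero (mul_ne_zero (Nat.cast_ne_zero.2 a) (w _).ne') (prod_ne_zero_iff.2 fun χ m =>
      norm_ne_zero_iff.2 (mul_ne_zero two_ne_zero (x0 χ ((hX χ).1 m).1))) b.symm
  · show _ * hR (K1 ρ τ) = _ * hR (K2 ρ τ σ) * _
    rw [P014X.An.Ix.hR_eq, P014X.An.Ix.hR_eq]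
    push_cast
    linear_combination (classNumber (K1 ρ τ) * classNumber (K2 ρ τ σ) : ℝ) * b

end Vale.Agent.P014Z.Ac
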