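import Vale.Agent.P014X.An.St
import Vale.Agent.P014X.An.Cov

/-! # P014Z, the anchor: a unit with all character sums not zero -/

set_option autoImplicit false
set_option linter.all false

open NumberField NumberField.Units Function Finset
open scoped Classical

noncomputable section

namespace Vale.Agent.P014Z.Ac.Mi

open P014X.An (xs vU)

variable {F Γ : Type} [Field F] [NumberField F] [CommGroup Γ] [Fintype Γ] {ρ : Γ →* (F ≃+* F)}
  {φ : F →+* ℂ}

theorem re_lt (χ : Γ →* ℂˣ) (γ : Γ) : (χ γ : ℂ).re ≤ 1 ∧ (χ γ ≠ 1 → (χ γ : ℂ).re < 1) := by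
  have n : ‖(χ γ : ℂ)‖ = 1 := Complex.norm_eq_one_of_pow_eq_one (n := Fintype.card Γ)
    (by rw [← Units.val_pow_eq_pow_val, ← map_pow, pow_card_eq_one, map_one, Units.val_one])
    Fintype.card_ne_zero
  have l : (χ γ : ℂ).re ≤ 1 := n ▸ Complex.re_le_norm _
  refine ⟨l, fun h => lt_of_le_of_ne l fun e => h (Units.ext ?_)⟩
  have q := Complex.sq_norm (χ γ : ℂ)
  rw [n, Complex.normSq_apply, e] at q
  exact Complex.ext e (by simpa using (show (χ γ : ℂ).im * (χ γ : ℂ).im = 0 by linarith))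

/-- **the unit of Minkowski** -/
theorem ex_v [IsTotallyComplex F]
    (b : Bijective fun γ => InfinitePlace.mk (φ.comp (ρ γ).toRingHom)) :
    ∃ v : (𝓞 F)ˣ, ∀ χ : Γ →* ℂˣ, χ ≠ 1 → xs ρ φ (vU v) χ ≠ 0 := by
  obtain ⟨v, hv⟩ := dirichletUnitTheorem.exists_unit F (InfinitePlace.mk (φ.comp (ρ 1).toRingHom))
  refine ⟨v, fun χ h e => ?_⟩
  set a : Γ → ℝ := fun γ => Real.log ‖φ (ρ γ (vU v))‖ with ha
  have a0 : ∀ γ, γ ≠ 1 → a γ < 0 := fun γ k => hv _ fun q => k (b.1 q)
  have s0 : ∑ γ, a γ = 0 := by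
    have := sum_mult_mul_log v
    rw [← (Equiv.ofBijective _ b).sum_comp] at this
    simp only [IsTotallyComplex.mult_eq, ← Finset.mul_sum] at this
    exact (mul_eq_zero.1 this).resolve_left (by norm_num)
  have s1 : ∑ γ, (χ γ : ℂ).re * a γ = 0 := by
    have := congrArg Complex.re e
    rw [xs, Complex.re_sum] at this
    simpa only [Complex.re_mul_ofReal, Complex.zero_re] using this
  obtain ⟨g, hg⟩ : ∃ g, χ g ≠ 1 := by
    by_contra k
    exact h (MonoidHom.ext fun g => not_not.1 fun q => k ⟨g, q⟩)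
  have p : 0 < ∑ γ, (1 - (χ γ : ℂ).re) * -a γ := by
    refine Finset.sum_pos' (fun γ _ => ?_) ⟨g, mem_univ _, mul_pos (sub_pos.2 ((re_lt χ g).2 hg))
      (neg_pos.2 (a0 g fun q => hg (by rw [q, map_one])))⟩
    by_cases k : γ = 1
    · simp [k]
    · exact mul_nonneg (sub_nonneg.2 (re_lt χ γ).1) (neg_pos.2 (a0 γ k)).le
  simp only [sub_mul, one_mul, mul_neg, Finset.sum_sub_distrib, Finset.sum_neg_distrib, s0, s1] at p
  simp at p

end Vale.Agent.P014Z.Ac.Mi
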