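import Vale.Agent.P014Z.Ac.St
import Vale.Agent.P014Z.Ac.Min
import Vale.Agent.P014X.Ac.Exf

/-! # P014Z, the anchor: the generic unit -/

set_option autoImplicit false
set_option linter.all false

open NumberField Function Finset MonoidAlgebra
open scoped Classical

noncomputable section

namespace Vale.Agent.P014Z.Ac

open P014X.Ac (AM AI am ai ad au pm Js exf)
open P014X.An (Pm vU xs)

/-- **row MNK** -/
theorem mnk : MNK := fun H _ _ _ _ _ _ _ f =>
  have := f.cx H (.id H) fun x _ => ⟨x, rfl⟩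
  Mi.ex_v f.bij

namespace Ge

variable {H Γ : Type} [Field H] [NumberField H] [CommGroup Γ] [Fintype Γ] (ρ : Γ →* (H ≃+* H))
  (φ : H →+* ℂ) (χ : Γ →* ℂˣ)

/-- the inverse character on the group ring -/
def cv : MonoidAlgebra ℤ Γ →+* ℂ :=
  liftNCRingHom (Int.castRingHom _) ((Units.coeHom ℂ).comp χ⁻¹) fun n _ => Int.cast_commute n _

theorem cv_of (γ : Γ) : cv χ (of ℤ Γ γ) = (χ γ : ℂ)⁻¹ := by simp [cv, liftNCRingHom]

/-- the character sum is additive -/
def xa : AM H →+ ℂ := .mk' (fun x => xs ρ φ (x.toMul : H) χ) fun x y => by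
  have n : ∀ (z : AM H) γ, ‖φ (ρ γ (z.toMul : H))‖ ≠ 0 := fun z γ => by simp
  simp only [xs, toMul_add, Units.val_mul, map_mul, norm_mul, Real.log_mul (n _ _) (n _ _),
    Complex.ofReal_add, mul_add, sum_add_distrib]

theorem xa_g (l : MonoidAlgebra ℤ Γ) (x : AM H) :
    xa ρ φ χ (gM ρ l x) = cv χ l * xa ρ φ χ x := by
  induction l using MonoidAlgebra.induction_on with
  | of γ =>
    rw [gM, gr_of, cv_of]
    show ∑ δ, (χ δ : ℂ) * (Real.log ‖φ (ρ δ (ρ γ (x.toMul : H)))‖ : ℝ) = _ * ∑ δ, _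
    rw [mul_sum]
    exact Fintype.sum_equiv (Equiv.mulRight γ) _ _ fun δ => by
      simp [← mul_assoc, mul_comm (χ δ : ℂ)]
  | add a b e f => rw [map_add (gM ρ), map_add, add_mul, ← e, ← f]; exact map_add _ _ _
  | smul n a e => rw [map_zsmul (gM ρ), map_zsmul, smul_mul_assoc, ← e]; exact map_zsmul _ _ _

theorem ad_g (l : MonoidAlgebra ℤ Γ) (x : AM H) : ad H (gM ρ l x) = gI ρ exf l (ad H x) := by
  induction l using MonoidAlgebra.induction_on with
  | of γ => rw [gM, gI, gr_of, gr_of]; exact P014X.Ac.Fld.da exf _ x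
  | add a b e f => rw [map_add, map_add]; exact (map_add _ _ _).trans (congrArg₂ _ e f)
  | smul n a e => rw [map_zsmul, map_zsmul]; exact (map_zsmul _ _ _).trans (congrArg _ e)

variable {S : Finset ℕ} {t : ℕ → Γ}

theorem cv_mm (o : ∀ l ∈ S, orderOf (t l) = l) :
    cv χ (mm S id (nl t)) = if ∀ l ∈ S, χ (t l) ≠ 1 then ((∏ l ∈ S, l : ℕ) : ℂ) else 0 := by
  have k : ∀ l, cv χ (nl t l) = ∑ i ∈ range l, (χ (t l) : ℂ)⁻¹ ^ i := fun l => by
    simp only [nl, map_sum, map_pow, cv_of]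
  rw [mm, map_prod]
  split_ifs with c
  · rw [Nat.cast_prod]
    refine prod_congr rfl fun l m => ?_
    rw [map_sub, k, geom_sum_eq (by simpa using c l m), inv_pow, ← Units.val_pow_eq_pow_val,
      ← map_pow, orderOf_dvd_iff_pow_eq_one.1 (o l m).dvd]
    simp
  · obtain ⟨l, m, e⟩ : ∃ l ∈ S, χ (t l) = 1 := by simpa using c
    exact prod_eq_zero m (by simp [k, e])

theorem kill {B : Finset (Pm H)} (h : ∀ w ∈ B, ∃ l ∈ S, ai (ρ (t l)).toRingHom (pm w) = pm w)
    {x : AI H} (m : x ∈ Js B) : gI ρ exf (mm S id (nl t)) x = 0 := by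
  refine (AddSubgroup.closure_le (AddMonoidHom.ker (gI ρ exf (mm S id (nl t))))).2 ?_ m
  rintro _ ⟨w, m, rfl⟩
  obtain ⟨l, a, e⟩ := h w m
  have k : ∀ i : ℕ, gI ρ exf (of ℤ Γ (t l ^ i)) (pm w) = pm w := fun i => by
    induction i with
    | zero => rw [pow_zero, map_one, map_one]; rfl
    | succ i f =>
      rw [pow_succ, map_mul, map_mul]
      exact (congrArg _ ((DFunLike.congr_fun (gr_of _ _) _).trans e)).trans f
  have z : gI ρ exf ((l : MonoidAlgebra ℤ Γ) - nl t l) (pm w) = 0 := by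
    rw [map_sub, nl, map_sum, map_natCast]
    exact sub_eq_zero.2 ((AddMonoidHom.finset_sum_apply _ _ _).trans
      ((sum_congr rfl fun i _ => k i).trans ((sum_const _).trans (by rw [card_range]; rfl)))).symm
  show gI ρ exf (mm S id (nl t)) (pm w) = 0
  rw [mm, ← prod_erase_mul _ _ a, map_mul]
  exact (congrArg (gI ρ exf _) z).trans (map_zero _)

end Ge

open Ge

/-- **row GEN** -/
theorem gen (nut : NUT) : GEN := by
  intro H Γ _ _ _ _ ρ φ p σ S t Y u B f d hu hB hY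
  obtain ⟨v₀, h₀⟩ := mnk H Γ ρ φ f
  set m := mm S id (nl t) with hm
  set κ : MonoidAlgebra ℤ Γ := ((∏ l ∈ S, l : ℕ) : MonoidAlgebra ℤ Γ) with hκ
  have k := (exf.2 H).2.2.1
  have a₀ : ad H (au H (.ofMul v₀)) = 0 := (k.ge ⟨_, rfl⟩ :)
  obtain ⟨v, hv⟩ := k.le (show gM ρ m (.ofMul u) + gM ρ (κ - m) (au H (.ofMul v₀)) ∈ (ad H).ker by
    rw [AddMonoidHom.mem_ker, map_add, ad_g, ad_g, a₀, map_zero, kill ρ hB hu, add_zero])
  have x : ∀ χ, xs ρ φ (vU v.toMul) χ = cv χ m * xs ρ φ (u : H) χ +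
      ((∏ l ∈ S, l : ℕ) - cv χ m) * xs ρ φ (vU v₀) χ := fun χ => by
    have := congrArg (xa ρ φ χ) hv
    rw [map_add, xa_g, xa_g, map_sub, map_natCast] at this
    exact this
  have c := fun χ => cv_mm χ fun l a => (d.ot l a).2.2
  have κ0 : ((∏ l ∈ S, l : ℕ) : ℂ) ≠ 0 :=
    Nat.cast_ne_zero.2 (prod_ne_zero_iff.2 fun l a => (d.ot l a).1.ne_zero)
  have y : ∀ χ ∈ Y, xs ρ φ (vU v.toMul) χ = (∏ l ∈ S, l : ℕ) * xs ρ φ (u : H) χ := fun χ a => by
    rw [x, c, if_pos ((d.mem χ).1 a).2, sub_self, zero_mul, add_zero]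
  refine ⟨v.toMul, fun χ a => ?_, y, ?_⟩
  · by_cases b : χ ∈ Y
    · exact y χ b ▸ mul_ne_zero κ0 (hY χ b)
    · rw [x, c, if_neg fun e => b ((d.mem χ).2 ⟨a, e⟩), zero_mul, zero_add, sub_zero]
      exact mul_ne_zero κ0 (h₀ χ fun e => a (by rw [e]; rfl))
  · have z : m * (κ - m) = 0 := by
      rw [mul_sub, sub_eq_zero, hκ, hm, mm, Nat.cast_prod, ← prod_mul_distrib, ← prod_mul_distrib]
      exact prod_congr rfl fun l a => by
        rw [id]
        linear_combination -(nut Γ p σ S t Y d S Subset.rfl).2.2.2 l a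
    have := DFunLike.congr_fun ((map_mul (gM ρ) _ _).symm.trans
      ((congrArg _ z).trans (map_zero _))) (au H (.ofMul v₀))
    refine (congrArg _ hv).trans ((map_add _ _ _).trans ?_)
    rw [map_mul]
    exact (congrArg _ this).trans (add_zero _)

end Vale.Agent.P014Z.Ac
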