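import Vale.Agent.P014Z.Ac.St
import Vale.Agent.P014X.Ac.Rnk
import Vale.Agent.P014X.Ac.Mi1
import Vale.Agent.P014X.Ac.Ix

/-! # P014Z, block Ac, row KEY: the package of the class number formula -/

set_option autoImplicit false
set_option linter.all false

open AddSubgroup Module
open scoped Classical

noncomputable section

namespace Vale.Agent.P014Z.Ac

open P014X.Ac (Dp Pg BEQ ne_right)
open P014X.Ac.Rk (fin_le rk_le fin_map nul rk_ge)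
open P014X.Ac.Mi1 (mem_P R_le)

namespace Ky

variable {Λ M I ι : Type} [CommRing Λ] [AddCommGroup M] [AddCommGroup I]

/-- the action on pairs -/
def a2 (a : Λ →+* AddMonoid.End M) (a' : Λ →+* AddMonoid.End I) : Λ →+* AddMonoid.End (M × I) where
  toFun l := (a l : M →+ M).prodMap (a' l : I →+ I)
  map_one' := by rw [map_one, map_one]; rfl
  map_mul' l k := by rw [map_mul, map_mul]; rfl
  map_zero' := by rw [map_zero, map_zero]; rfl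
  map_add' l k := by rw [map_add, map_add]; rfl

theorem alt_add (S : Finset ι) (v w : Finset ι → ℕ) :
    alt S (fun T => v T + w T) = alt S v + alt S w := by
  simp only [alt, Nat.cast_add, mul_add, Finset.sum_add_distrib]

theorem alt_congr {S : Finset ι} {v w : Finset ι → ℕ} (h : ∀ T ⊆ S, v T = w T) : alt S v = alt S w :=
  Finset.sum_congr rfl fun T m => by rw [h T (Finset.mem_powerset.1 m)]

variable {Y : Mv Λ M I ι} {p : ℕ} (o : Y.Ok p)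
include o

theorem aP (l : Λ) {z : M × I} (h : z ∈ Y.X.P Y.M0 ⊤) :
    Y.a l z.1 ∈ Y.M0 ∧ Y.X.d (Y.a l z.1) - Y.X.N' (Y.a' l z.2) ∈ Y.X.J := by
  obtain ⟨⟨a, -⟩, b⟩ := mem_P.1 h
  rw [o.da, o.aN', ← map_sub]
  exact ⟨o.a0 l _ a, o.aJ l _ b⟩

theorem fxP (T : Finset ι) (h : T ⊆ Y.S) (z : M × I) (m : z ∈ Y.X.P (Y.M0 ⊓ Y.Mt T) (Y.It T)) :
    a2 Y.a Y.a' (nu Y.n T) z = (∏ i ∈ T, Y.e i) • z :=
  Prod.ext (o.sM.fx T h _ (mem_P.1 m).1.1.2) (o.sI.fx T h _ (mem_P.1 m).1.2)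

theorem sP : Sb (a2 Y.a Y.a') Y.S Y.e Y.n (Y.X.P Y.M0 ⊤) fun T => Y.X.P (Y.M0 ⊓ Y.Mt T) (Y.It T) :=
  ⟨fun _ _ => inf_le_inf_right _ (prod_mono inf_le_left le_top), fun T h z m => mem_P.2
    ⟨⟨⟨(aP o _ m).1, o.sM.nm T h _ trivial⟩, o.sI.nm T h _ trivial⟩, (aP o _ m).2⟩, fxP o⟩

theorem sR : Sb (a2 Y.a Y.a') Y.S Y.e Y.n (Y.X.R ⊤ ⊤) fun T => Y.X.R (Y.Mt T) (Y.It T) := by
  refine ⟨fun _ _ => sup_le_sup (map_mono le_top) (prod_mono le_rfl (inf_le_inf_right _ le_top)),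
    fun T h z m => ?_, fun T h z m => fxP o T h z (R_le (o.lay T h) m)⟩
  obtain ⟨_, ⟨y, -, rfl⟩, w, k, rfl⟩ := mem_sup.1 m
  rw [map_add]
  exact add_mem (mem_sup_left ⟨_, o.sM.nm T h y trivial, Prod.ext (o.aN _ y) (o.da _ y)⟩)
    (mem_sup_right ⟨(congrArg (Y.a (nu Y.n T)) (mem_bot.1 k.1)).trans (map_zero _),
      o.sI.nm T h _ trivial, o.aJ _ _ k.2.2⟩)

theorem aU (l : Λ) (x : M) (h : x ∈ Y.X.U) : Y.a l x ∈ Y.X.U :=
  ⟨(o.da l x).trans ((congrArg _ h.1).trans (map_zero _)),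
    (o.aN l x).trans ((congrArg _ h.2).trans (map_zero _))⟩

theorem sU : Sb Y.a Y.S Y.e Y.n Y.X.U fun T => Y.X.U ⊓ Y.Mt T :=
  ⟨fun _ _ => inf_le_left, fun T h x m => ⟨aU o _ x m, o.sM.nm T h x trivial⟩,
    fun T h x m => o.sM.fx T h x m.2⟩

theorem sC : Sb Y.a Y.S Y.e Y.n Y.C fun T => Y.C.map (Y.a (nu Y.n T)) :=
  ⟨fun _ _ => map_le_iff_le_comap.2 (o.aC _), fun _ _ x m => ⟨x, m, rfl⟩,
    fun T h _ ⟨y, _, e⟩ => o.sM.fx T h _ (e ▸ o.sM.nm T h y trivial)⟩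

/-- the trivial divisors -/
def tr (Y : Mv Λ M I ι) (T : Finset ι) : AddSubgroup I :=
  (Y.M0 ⊓ Y.Mt T).map Y.X.d ⊔ (Y.It T).map Y.X.N' ⊔ (Y.Iq T ⊓ Y.X.J)

theorem tr_le (T : Finset ι) (h : T ⊆ Y.S) : tr Y T ≤ Y.Iq T :=
  sup_le (sup_le (map_le_iff_le_comap.2 (o.lay T h).d0) (map_le_iff_le_comap.2 (o.lay T h).n'))
    inf_le_left

theorem sT : Sb Y.a' Y.S Y.e Y.n (tr Y ∅) (tr Y) := by
  refine ⟨fun T h => sup_le_sup (sup_le_sup (map_mono (inf_le_inf_left _ (o.m0 ▸ le_top)))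
    (map_mono (o.i0 ▸ le_top))) (inf_le_inf_right _ (o.sQ.le T h)), fun T h x m => ?_,
    fun T h x m => o.sQ.fx T h x (tr_le o T h m)⟩
  obtain ⟨_, m', w, k, rfl⟩ := mem_sup.1 m
  obtain ⟨_, ⟨y, a, rfl⟩, _, ⟨z, -, rfl⟩, rfl⟩ := mem_sup.1 m'
  rw [map_add, map_add, ← o.da, ← o.aN']
  exact add_mem (mem_sup_left (add_mem
    (mem_sup_left ⟨_, ⟨o.a0 _ y a.1, o.sM.nm T h y trivial⟩, rfl⟩)
    (mem_sup_right ⟨_, o.sI.nm T h z trivial, rfl⟩))) (mem_sup_right ⟨o.sQ.nm T h w k.1, o.aJ _ w k.2⟩)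

theorem rk [Module.Finite ℤ Y.X.d.ker] (T : Finset ι) (h : T ⊆ Y.S) (n : Y.r T ≠ 0) :
    Y.k0 T + finrank ℤ ↥(Y.X.U ⊓ Y.Mt T) = Y.k1 T := by
  have := fin_le (A := Y.Mt T ⊓ Y.X.d.ker) inf_le_right
  have := fin_le (A := Y.M0 ⊓ Y.Mt T ⊓ Y.X.d.ker) inf_le_right
  have := fin_map (A := Y.Mt T ⊓ Y.X.d.ker) Y.X.N
  have a := nul (A := Y.Mt T ⊓ Y.X.d.ker) Y.X.N
  rw [inf_assoc, inf_comm (Y.Mt T) (_ ⊓ _)] at a
  refine (congrArg (· + _) (le_antisymm (rk_ge (left_ne_zero_of_mul (left_ne_zero_of_mul n)))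
    (rk_le ?_))).trans a
  rintro _ ⟨x, m, rfl⟩
  exact ⟨(o.lay T h).n x m.1, ((o.lay T h).com x).trans ((congrArg _ m.2).trans (map_zero _))⟩

end Ky

open Ky in
/-- **row KEY** -/
theorem key (beq : BEQ) (mob : MOB) (rkm : RKM) : KEY := fun Λ M I ι _ _ _ Y p r o f n h k => by
  have := Fact.mk o.pr
  have e := Finset.empty_subset Y.S
  have B := fun T t => beq M I Y.X _ _ _ _ (o.lay T t) (right_ne_zero_of_mul (n T t).1)
  have b0 : ∀ T ⊆ Y.S, Y.X.b (Y.Mt T) (Y.M0 ⊓ Y.Mt T) (Y.It T) ≠ 0 := fun T t =>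
    left_ne_zero_of_mul ((B T t).2.2 ▸ mul_ne_zero (n T t).2 (B T t).2.1)
  have b1 := b0 ∅ e
  have l1 := (B ∅ e).1
  have i1 := left_ne_zero_of_mul (n ∅ e).1
  rw [o.m0, o.i0, inf_top_eq] at b1 l1
  rw [o.m0, inf_top_eq, nu, Finset.prod_empty, map_one] at i1
  obtain ⟨x1, -⟩ := mob Λ _ ι _ p _ _ _ _ _ _ _ o.pr o.nn l1 (sR o) (sP o) b1 fun T t => ⟨(B T t).1, b0 T t⟩
  obtain ⟨x2, x3, x4⟩ := mob Λ _ ι _ p _ _ _ _ _ _ _ o.pr o.nn o.CU (sC o) (sU o)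
    (by rwa [← Y.C.map_id]) fun T t => ⟨map_le_iff_le_comap.2 fun x m =>
      (sU o).nm T t x (o.CU m), left_ne_zero_of_mul (n T t).1⟩
  obtain ⟨x5, -⟩ := mob Λ _ ι _ p _ _ _ _ _ _ _ o.pr o.nn (tr_le o ∅ e) (sT o) o.sQ (B ∅ e).2.1
    fun T t => ⟨tr_le o T t, (B T t).2.1⟩
  have fU := fin_le (A := Y.X.U) (B := Y.X.d.ker) inf_le_left
  have y1 := alt_congr fun T t => rk o T t (n T t).2
  rw [alt_add, rkm Λ M ι _ _ _ _ _ _ (fun i m => ⟨fun z => (o.nn i m).1 ⟨0, z⟩,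
    (o.nn i m).2⟩) (sU o) fU] at y1
  have y2 := alt_congr fun T t => (padicValNat.mul (p := p) (b0 T t)
    (right_ne_zero_of_mul (n T t).1)).symm.trans ((congrArg _ (B T t).2.2).trans
      (padicValNat.mul (n T t).2 (B T t).2.1))
  have y3 := alt_congr fun T t => padicValNat.mul (p := p) (left_ne_zero_of_mul (n T t).1)
    (right_ne_zero_of_mul (n T t).1)
  rw [alt_add] at y3
  rw [alt_add, alt_add] at y2
  refine ⟨o.CU, ?_, x3, ?_, fU, ?_⟩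
  · rw [Dp.bm, relIndex_sup_right]
    exact ne_right _ (P := Y.X.P Y.M0 ⊤) (map_le_iff_le_comap.2 fun z m => mem_P.2
      ⟨⟨(aP o _ m).1, trivial⟩, (aP o _ m).2⟩) b1
  · rw [Dp.bm, relIndex_sup_right, add_zero]
    have z1 : (padicValNat p (Y.X.im Y.C Y.m) : ℤ) = _ := (congrArg _ x4).trans x2.symm
    have z2 : _ = (padicValNat p ((Y.X.R ⊤ ⊤).relIndex ((Y.X.P Y.M0 ⊤).map (Y.m.prodMap Y.m'))) : ℤ) := x1
    have z3 := y3.symm.trans_le (h.trans (le_add_of_nonneg_right (x5.ge.trans' (Nat.cast_nonneg _))))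
    have z4 := le_of_add_le_add_right (z3.trans_eq y2.symm)
    exact_mod_cast z1.trans_le (z4.trans_eq z2)
  · have : (r : ℤ) ≤ finrank ℤ (Y.X.U.map Y.m) := by
      change _ + ((finrank ℤ (Y.X.U.map Y.m) : ℕ) : ℤ) = alt Y.S Y.k1 at y1
      change alt Y.S Y.k0 + _ = _ at y1
      omega
    exact_mod_cast this

end Vale.Agent.P014Z.Ac
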