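import Vale.Agent.P014Z.Ac.Mob
import Mathlib.Algebra.BigOperators.Associated

/-! # P014Z, block Ac: inclusion and exclusion, combined form (helper39) -/

set_option autoImplicit false
set_option linter.all false

namespace Vale.Agent.P014Z.Ac.Mo

open AddSubgroup

variable {G Λ ι : Type} [AddCommGroup G] [CommRing Λ] [DecidableEq ι] {p : ℕ}

/-- the form with a ring of operators -/
theorem mob1 (hp : p.Prime) (a : Λ →+* AddMonoid.End G) (S : Finset ι) (ν : ι → Λ) (l : ι → ℕ)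
    {R P : AddSubgroup G} (h : ∀ i ∈ S, ¬ p ∣ l i ∧ (∀ x ∈ P, a (ν i) (a (ν i) x) = l i • a (ν i) x) ∧
      (∀ x ∈ R, a (ν i) x ∈ R) ∧ ∀ x ∈ P, a (ν i) x ∈ P) (n0 : R.relIndex P ≠ 0) :
    (padicValNat p (R.relIndex (P.map (a (∏ i ∈ S, (l i - ν i))))) : ℤ) = ∑ T ∈ S.powerset,
      (-1) ^ T.card * (padicValNat p (R.relIndex (P.map (a (∏ i ∈ T, ν i)))) : ℤ) := by
  let U : Submonoid Λ :=
    { carrier := {r | (∀ x ∈ R, a r x ∈ R) ∧ ∀ x ∈ P, a r x ∈ P}
      one_mem' := by rw [Set.mem_setOf_eq, map_one]; exact ⟨fun _ k => k, fun _ k => k⟩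
      mul_mem' := fun {r s} u v => by
        rw [Set.mem_setOf_eq, map_mul]
        exact ⟨fun x k => u.1 _ (v.1 x k), fun x k => u.2 _ (v.2 x k)⟩ }
  have e : ∀ i x, a (l i - ν i) x = l i • x - a (ν i) x := fun i x => by
    rw [map_sub, map_natCast]; rfl
  have m : ∀ i ∈ S, l i - ν i ∈ U := fun i k =>
    ⟨fun x u => e i x ▸ sub_mem (nsmul_mem u _) ((h i k).2.2.1 x u),
      fun x u => e i x ▸ sub_mem (nsmul_mem u _) ((h i k).2.2.2 x u)⟩
  have := mob hp (fun r : U => (a r : G →+ G)) (fun r s x => by rw [Submonoid.coe_mul, map_mul]; rfl)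
    (fun r => r.2.1) (fun r => r.2.2) n0 (fun i => if k : i ∈ S then ⟨ν i, (h i k).2.2⟩ else 1)
    (fun i => if k : i ∈ S then ⟨_, m i k⟩ else 1) l S (fun i k => ⟨(h i k).1, fun x u => by
      rw [dif_pos k, dif_pos k, Submonoid.coe_mul, map_mul]
      refine ⟨?_, ?_⟩
      · show a (ν i) x + a (l i - ν i) x - l i • x ∈ R
        rw [e, add_sub_cancel, sub_self]
        exact zero_mem _
      · show a (ν i) (a (l i - ν i) x) ∈ R
        rw [e, map_sub, map_nsmul, (h i k).2.1 x u, sub_self]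
        exact zero_mem _⟩) 1
  simp only [one_mul, SubmonoidClass.coe_finset_prod] at this
  rw [Finset.prod_congr rfl fun i k => by rw [dif_pos k]] at this
  rw [this]
  refine Finset.sum_congr rfl fun T hT => ?_
  rw [Finset.prod_congr rfl fun i k => by rw [dif_pos (Finset.mem_powerset.1 hT k)]]

/-- **the combined form** -/
theorem mobc (hp : p.Prime) (a : Λ →+* AddMonoid.End G) (S : Finset ι) (ν : ι → Λ) (l : ι → ℕ)
    {R P : AddSubgroup G} (h : ∀ i ∈ S, ¬ p ∣ l i ∧ (∀ x ∈ P, a (ν i) (a (ν i) x) = l i • a (ν i) x) ∧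
      (∀ x ∈ R, a (ν i) x ∈ R) ∧ ∀ x ∈ P, a (ν i) x ∈ P) (n0 : R.relIndex P ≠ 0)
    (R' P' : Finset ι → AddSubgroup G) (k : ∀ T ⊆ S, R' T ≤ R ∧ P' T ≤ P ∧
      (∀ x ∈ R, a (∏ i ∈ T, ν i) x ∈ R' T) ∧ (∀ x ∈ P, a (∏ i ∈ T, ν i) x ∈ P' T) ∧
      (∀ x ∈ P' T, a (∏ i ∈ T, ν i) x = (∏ i ∈ T, l i) • x) ∧ (R' T).relIndex (P' T) ≠ 0) :
    ∑ T ∈ S.powerset, (-1) ^ T.card * (padicValNat p ((R' T).relIndex (P' T)) : ℤ) =
      padicValNat p (R.relIndex (P.map (a (∏ i ∈ S, (l i - ν i))))) := by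
  rw [mob1 hp a S ν l h n0]
  refine Finset.sum_congr rfl fun T hT => ?_
  obtain ⟨k1, k2, k3, k4, k5, k6⟩ := k T (Finset.mem_powerset.1 hT)
  rw [dsc hp (hp.prime.not_dvd_finsetProd fun i u => (h i (Finset.mem_powerset.1 hT u)).1) (.id G)
    (a (∏ i ∈ T, ν i)) (a (∏ i ∈ T, ν i)) k1 k2 k3 k4
    (fun x _ => (sub_self (a (∏ i ∈ T, ν i) x)).symm ▸ zero_mem R)
    (fun y u => (sub_eq_zero.2 (k5 y u)).symm ▸ zero_mem _) n0 k6]

/-- the projector is idempotent up to a number -/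
theorem mm (a : Λ →+* AddMonoid.End G) (S : Finset ι) (ν : ι → Λ) (l : ι → ℕ)
    (h : ∀ i ∈ S, a (ν i * ν i) = a (l i * ν i)) (x : G) :
    a (∏ i ∈ S, (l i - ν i)) (a (∏ i ∈ S, (l i - ν i)) x) =
      (∏ i ∈ S, l i) • a (∏ i ∈ S, (l i - ν i)) x := by
  have : a ((∏ i ∈ S, (l i - ν i)) * ∏ i ∈ S, (l i - ν i)) =
      a ((∏ i ∈ S, l i : ℕ) * ∏ i ∈ S, (l i - ν i)) := by
    induction S using Finset.induction_on with
    | empty => simp
    | insert b S hb ih =>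
      have e : a ((l b - ν b) * (l b - ν b)) = a (l b * (l b - ν b)) := by
        rw [show (l b - ν b) * (l b - ν b) = l b * (l b - ν b) + (ν b * ν b - l b * ν b) by ring,
          map_add, map_sub a (ν b * ν b), h b (Finset.mem_insert_self _ _), sub_self, add_zero]
      rw [Finset.prod_insert hb, Finset.prod_insert hb, mul_mul_mul_comm, map_mul, e,
        ih fun i k => h i (Finset.mem_insert_of_mem k), ← map_mul, mul_mul_mul_comm, Nat.cast_mul]
  rw [map_mul, map_mul, map_natCast] at this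
  exact DFunLike.congr_fun this x

/-- the projector preserves stable subgroups -/
theorem st_m (a : Λ →+* AddMonoid.End G) (S : Finset ι) (ν : ι → Λ) (l : ι → ℕ) {R : AddSubgroup G}
    (h : ∀ i ∈ S, ∀ x ∈ R, a (ν i) x ∈ R) : ∀ x ∈ R, a (∏ i ∈ S, (l i - ν i)) x ∈ R :=
  Finset.prod_induction _ (fun r => ∀ x ∈ R, a r x ∈ R)
    (fun r s u v x k => by rw [map_mul]; exact u _ (v x k)) (fun x k => by rw [map_one]; exact k)
    fun i k x u => by rw [map_sub, map_natCast]; exact sub_mem (nsmul_mem u _) (h i k x u)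

end Vale.Agent.P014Z.Ac.Mo
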