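import Vale.Agent.P014Z.Ac.St
import Vale.Agent.P014Z.Ac.Mob1

/-! # P014Z, block Ac: the row on inclusion and exclusion for indices (helper39) -/

set_option autoImplicit false
set_option linter.all false

namespace Vale.Agent.P014Z.Ac

open scoped Classical

theorem Sb.st {Λ M ι : Type} [CommRing Λ] [AddCommGroup M] {a : Λ →+* AddMonoid.End M}
    {S : Finset ι} {e : ι → ℕ} {n : ι → Λ} {P : AddSubgroup M} {P' : Finset ι → AddSubgroup M}
    (h : Sb a S e n P P') : ∀ i ∈ S, ∀ x ∈ P, a (n i) x ∈ P := fun i k x u => by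
  have := h.le _ (Finset.singleton_subset_iff.2 k) (h.nm _ (Finset.singleton_subset_iff.2 k) x u)
  rwa [nu, Finset.prod_singleton] at this

theorem mob : MOB := fun Λ M ι _ _ a p S e n R P R' P' hp h le sR sP n0 k => by
  obtain ⟨a1, -, a2⟩ := Mo.map_eq hp (hp.prime.not_dvd_finsetProd fun i u => (h i u).1)
    (a (mm S e n)) le (Mo.st_m a S n e sR.st) n0 fun x _ =>
      Mo.mm a S n e (fun i u => congrArg a (h i u).2) x
  refine ⟨Mo.mobc hp a S n e (fun i u => ⟨(h i u).1, fun x _ => ?_, sR.st i u, sP.st i u⟩) n0 R' P'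
    fun T u => ⟨sR.le T u, sP.le T u, sR.nm T u, sP.nm T u, sP.fx T u, (k T u).2⟩, a1, a2⟩
  have := congrArg a (h i u).2
  rw [map_mul, map_mul, map_natCast] at this
  exact DFunLike.congr_fun this x

end Vale.Agent.P014Z.Ac
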