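import Vale.Agent.P014Z.Ac.St

/-! # P014Z, block Ac, rows NUT and IEX: norm elements, inclusion and exclusion (helper40) -/

set_option autoImplicit false
set_option linter.all false

open Finset
open scoped Classical

noncomputable section

namespace Vale.Agent.P014Z.Ac

namespace Nt

variable {Γ : Type} [CommGroup Γ] {x y : Γ} {a b : ℕ}

theorem crt {M : Type} [AddCommMonoid M] (c : a.Coprime b) (F : ℕ → ℕ → M) :
    ∑ k ∈ range (a * b), F (k % a) (k % b) = ∑ i ∈ range a, ∑ j ∈ range b, F i j := by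
  rw [← sum_product']
  refine sum_bij (fun k _ => (k % a, k % b)) (fun k m => ?_) (fun k m l n e => ?_)
    (fun z m => ?_) fun _ _ => rfl
  · have : 0 < a * b := (Nat.zero_le k).trans_lt (mem_range.1 m)
    exact mem_product.2 ⟨mem_range.2 (Nat.mod_lt _ (Nat.pos_of_mul_pos_right this)),
      mem_range.2 (Nat.mod_lt _ (Nat.pos_of_mul_pos_left this))⟩
  · exact Nat.ModEq.eq_of_lt_of_lt ((Nat.modEq_and_modEq_iff_modEq_mul c).1
      ⟨congrArg Prod.fst e, congrArg Prod.snd e⟩) (mem_range.1 m) (mem_range.1 n)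
  · obtain ⟨p, q⟩ := mem_product.1 m
    rw [mem_range] at p q
    have s := (Nat.chineseRemainder c z.1 z.2).2
    exact ⟨_, mem_range.2 (Nat.chineseRemainder_lt_mul c z.1 z.2 (by omega) (by omega)),
      Prod.ext (Eq.trans s.1 (Nat.mod_eq_of_lt p)) (Eq.trans s.2 (Nat.mod_eq_of_lt q))⟩

theorem nrm (c : a.Coprime b) (p : x ^ a = 1) (q : y ^ b = 1) :
    (∑ i ∈ range a, MonoidAlgebra.of ℤ Γ (x ^ i)) * ∑ j ∈ range b, MonoidAlgebra.of ℤ Γ (y ^ j) =
      ∑ k ∈ range (a * b), MonoidAlgebra.of ℤ Γ ((x * y) ^ k) := by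
  rw [sum_mul_sum, ← crt c]
  exact sum_congr rfl fun k _ => by
    rw [← map_mul, ← pow_eq_pow_mod k p, ← pow_eq_pow_mod k q, mul_pow]

theorem one_l (c : a.Coprime b) (p : x ^ a = 1) (q : y ^ b = 1) (e : x * y = 1) : x = 1 := by
  have : x ^ b = 1 := by
    have := congrArg (· ^ b) e
    simpa only [mul_pow, q, mul_one, one_pow] using this
  exact orderOf_eq_one_iff.1 (Nat.eq_one_of_dvd_coprimes c (orderOf_dvd_of_pow_eq_one p)
    (orderOf_dvd_of_pow_eq_one this))

theorem sq {R : Type} [CommRing R] {z : R} (p : z ^ a = 1) :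
    (∑ i ∈ range a, z ^ i) * ∑ i ∈ range a, z ^ i = a * ∑ i ∈ range a, z ^ i := by
  have s : z * ∑ i ∈ range a, z ^ i = ∑ i ∈ range a, z ^ i := by
    have := mul_geom_sum z a
    rw [p] at this
    linear_combination this
  have k : ∀ j : ℕ, z ^ j * ∑ i ∈ range a, z ^ i = ∑ i ∈ range a, z ^ i := fun j => by
    induction j with
    | zero => rw [pow_zero, one_mul]
    | succ j ih => rw [pow_succ, mul_assoc, s, ih]
  rw [sum_mul, sum_congr rfl fun j _ => k j, sum_const, card_range, nsmul_eq_mul]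

theorem zs {β ι : Type} [Field β] {z : β} (n : z ≠ 0) (s : Finset ι) (e : ι → ℤ) :
    ∏ i ∈ s, z ^ e i = z ^ ∑ i ∈ s, e i := by
  induction s using Finset.induction_on with
  | empty => simp
  | insert i s m ih => rw [prod_insert m, sum_insert m, ih, zpow_add₀ n]

end Nt

open Nt

/-- **the norm element** -/
theorem nut : NUT := fun Γ _ p σ S t Y D T le => by
  have pw : ∀ l ∈ S, t l ^ l = 1 := fun l m => by
    have := pow_orderOf_eq_one (t l)
    rwa [(D.ot l m).2.2] at this
  suffices h : orderOf (tT t T) = ∏ l ∈ T, l ∧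
      nu (nl t) T = ∑ i ∈ range (∏ l ∈ T, l), MonoidAlgebra.of ℤ Γ (tT t T ^ i) ∧
      ∀ χ : Γ →* ℂˣ, χ (tT t T) = 1 ↔ ∀ l ∈ T, χ (t l) = 1 from ⟨h.1, h.2.1, h.2.2, fun l m => by
    have := Nt.sq (z := MonoidAlgebra.of ℤ Γ (t l)) (a := l) (by rw [← map_pow, pw l (le m), map_one])
    simpa only [nl, map_pow] using this⟩
  induction T using Finset.induction_on with
  | empty => simp [tT, nu, MonoidAlgebra.one_def]
  | insert l T m ih =>
    obtain ⟨i1, i2, i3⟩ := ih ((subset_insert _ _).trans le)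
    have ml := le (mem_insert_self l T)
    have c : l.Coprime (∏ l ∈ T, l) := Nat.Coprime.prod_right fun q n =>
      (Nat.coprime_primes (D.ot l ml).1 (D.ot q (le (mem_insert_of_mem n))).1).2 fun e => m (e ▸ n)
    have q : tT t T ^ (∏ l ∈ T, l) = 1 := i1 ▸ pow_orderOf_eq_one _
    have e : tT t (insert l T) = t l * tT t T := prod_insert m
    rw [e, prod_insert m]
    refine ⟨?_, ?_, fun χ => ?_⟩
    · rw [(Commute.all _ _).orderOf_mul_eq_mul_orderOf_of_coprime (by rwa [i1, (D.ot l ml).2.2]),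
        i1, (D.ot l ml).2.2]
    · rw [nu, prod_insert m, ← nrm c (pw l ml) q, ← i2, nu, nl]
    · have p1 : χ (t l) ^ l = 1 := by rw [← map_pow, pw l ml, map_one]
      have q1 : χ (tT t T) ^ (∏ l ∈ T, l) = 1 := by rw [← map_pow, q, map_one]
      rw [forall_mem_insert, ← i3, map_mul]
      exact ⟨fun z => ⟨one_l c p1 q1 z, one_l c.symm q1 p1 ((mul_comm _ _).trans z)⟩,
        fun z => by rw [z.1, z.2, one_mul]⟩

/-- **inclusion and exclusion for characters** -/
theorem iex : IEX := fun Γ _ p σ S t Y D X hX => by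
  have x0 : ∀ χ, χ ∈ X ∅ ↔ χ σ ≠ 1 := fun χ => by simp [hX ∅ (empty_subset _), tT]
  have sb : ∀ T ∈ S.powerset, (X ∅).filter (· ∈ X T) = X T := fun T m =>
    filter_mem_eq_inter.trans (inter_eq_right.2 fun χ k =>
      (x0 χ).2 ((hX T (mem_powerset.1 m) χ).1 k).1)
  have sY : (X ∅).filter (· ∈ Y) = Y :=
    filter_mem_eq_inter.trans (inter_eq_right.2 fun χ k => (x0 χ).2 ((D.mem χ).1 k).1)
  have w : ∀ χ ∈ X ∅, ∑ T ∈ S.powerset, (if χ ∈ X T then (-1 : ℤ) ^ T.card else 0) =
      if χ ∈ Y then 1 else 0 := fun χ k => by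
    have n := (x0 χ).1 k
    have : S.powerset.filter (fun T => χ ∈ X T) = (S.filter fun l => χ (t l) = 1).powerset :=
      Finset.ext fun T => by
        rw [mem_filter, mem_powerset, mem_powerset]
        exact ⟨fun z l m => mem_filter.2 ⟨z.1 m,
            ((nut Γ p σ S t Y D T z.1).2.2.1 χ).1 ((hX T z.1 χ).1 z.2).2 l m⟩,
          fun z => have le := z.trans (filter_subset _ _)
            ⟨le, (hX T le χ).2 ⟨n, ((nut Γ p σ S t Y D T le).2.2.1 χ).2
              fun l m => (mem_filter.1 (z m)).2⟩⟩⟩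
    rw [← sum_filter, this, sum_powerset_neg_one_pow_card]
    exact if_congr (by simp [D.mem, n, filter_eq_empty_iff]) rfl rfl
  refine ⟨?_, fun β _ f hf => ?_⟩
  · rw [alt, ← sY, card_filter, Nat.cast_sum]
    simp only [Nat.cast_ite, Nat.cast_one, Nat.cast_zero]
    rw [← sum_congr rfl w, sum_comm]
    exact sum_congr rfl fun T m => by
      rw [← sum_filter, sb T m, sum_const, nsmul_eq_mul, mul_comm]
  · calc _ = ∏ T ∈ S.powerset, ∏ χ ∈ X ∅, f χ ^ (if χ ∈ X T then (-1 : ℤ) ^ T.card else 0) :=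
          prod_congr rfl fun T m => by
            rw [← prod_zpow, ← sb T m, prod_filter]
            exact prod_congr rfl fun χ _ => by rw [sb T m]; split_ifs <;> simp
      _ = _ := by
        rw [prod_comm, ← sY, prod_filter]
        exact prod_congr rfl fun χ k => by
          rw [zs (hf χ ((x0 χ).1 k)), w χ k]; split_ifs <;> simp

end Vale.Agent.P014Z.Ac
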