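import Vale.Agent.P014Z.Ac.St

/-! # P014Z, block Ac: ranks of the subfields (row RKF) -/

set_option autoImplicit false
set_option linter.all false

open NumberField NumberField.Units Function Module
open scoped Classical

namespace Vale.Agent.P014Z.Ac

namespace Rf

theorem two (F : Type) [Field F] [NumberField F] [IsTotallyComplex F] :
    finrank ℚ F = 2 * Fintype.card (InfinitePlace F) := by
  rw [InfinitePlace.card_eq_nrRealPlaces_add_nrComplexPlaces, IsTotallyComplex.nrRealPlaces_eq_zero,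
    zero_add, IsTotallyComplex.finrank]

variable {H Γ : Type} [Field H] [NumberField H] [CommGroup Γ] [Fintype Γ] {ρ : Γ →* (H ≃+* H)}
  {φ : H →+* ℂ}

theorem inj (f : Fr ρ φ) : Injective ρ := fun a b e => f.bij.1 (by simp only [e])

/-- the number of characters -/
theorem crd {A : Subgroup Γ} {X : Finset (Γ →* ℂˣ)} (h : ∀ χ, χ ∈ X ↔ ∀ γ ∈ A, χ γ = 1) :
    X.card = A.index := by
  rw [Subgroup.index, ← CommGroup.card_domRestrictHom_ker ℂ A, ← Nat.card_eq_finsetCard]
  refine Nat.card_congr (Equiv.subtypeEquivRight fun χ => (h χ).trans ?_)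
  rw [MonoidHom.mem_ker, MonoidHom.ext_iff, Subtype.forall]
  rfl

/-- the degree over a fixed field -/
theorem deg (f : Fr ρ φ) {F : Type} [Field F] [NumberField F] (i : F →+* H) {A : Subgroup Γ}
    (h : ∀ x, x ∈ i.range ↔ ∀ γ ∈ A, ρ γ x = x) : finrank ℚ F * Nat.card A = finrank ℚ H := by
  letI : MulSemiringAction A H := .compHom H (ρ.comp A.subtype)
  haveI : FaithfulSMul A H := ⟨fun {a b} e => Subtype.ext (inj f (RingEquiv.ext e))⟩
  haveI := Fintype.ofFinite A
  let e : F ≃+* FixedPoints.subfield A H := RingEquiv.ofBijective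
    (i.codRestrict (FixedPoints.subfield A H) fun x (a : A) => (h _).1 ⟨x, rfl⟩ a a.2)
    ⟨fun x y k => i.injective
      (congrArg Subtype.val k), fun x => ((h x).2 fun γ m => x.2 ⟨γ, m⟩).imp fun _ k => Subtype.ext k⟩
  rw [Nat.card_eq_fintype_card, ← FixedPoints.finrank_eq_card A H,
    e.toRatAlgEquiv.toLinearEquiv.finrank_eq, finrank_mul_finrank]

theorem zp {τ : Γ} {x : H} : (∀ γ ∈ Subgroup.zpowers τ, ρ γ x = x) ↔ ρ τ x = x :=
  ⟨fun h => h τ (Subgroup.mem_zpowers τ), fun h => (Subgroup.zpowers_le (H :=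
    (MulAction.stabilizer (H ≃+* H) x).comap ρ)).2 h⟩

end Rf

open Rf in
/-- **row RKF** -/
theorem rkf : RKF := fun H Γ _ _ _ _ ρ φ f => ⟨fun F _ _ i A X c => by
  have := f.cx F i fun x k => (c.fix x).2 fun γ _ => k γ
  have := f.cx H (.id H) fun x _ => ⟨x, rfl⟩
  refine ⟨‹_›, ?_⟩
  have a := deg f i c.fix
  rw [two F, two H, ← Fintype.card_of_bijective f.bij, ← Nat.card_eq_fintype_card (α := Γ),
    ← A.index_mul_card, mul_assoc] at a
  rw [crd c.mem, ← Nat.eq_of_mul_eq_mul_right Nat.card_pos (Nat.eq_of_mul_eq_mul_left two_pos a),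
    rank, Nat.sub_add_cancel Fintype.card_pos], fun τ σ X₁ X₂ h1 h2 =>
  ⟨⟨fun x => (P014X.Ac.Ly.fx (ρ τ) x).symm.trans zp.symm, fun χ => (h1 χ).trans
    (Subgroup.zpowers_le (H := χ.ker)).symm⟩, fun x => by
      refine Iff.trans ⟨?_, fun k => ⟨⟨⟨x, k.1⟩, Subtype.ext k.2⟩, rfl⟩⟩
        ((zp.and zp).symm.trans (sup_le_iff (c := (MulAction.stabilizer (H ≃+* H) x).comap ρ)).symm)
      rintro ⟨y, rfl⟩
      exact ⟨y.1.2, congrArg Subtype.val y.2⟩, fun χ => (h2 χ).trans
    (((Subgroup.zpowers_le (H := χ.ker)).and (Subgroup.zpowers_le (H := χ.ker))).symm.trans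
      (sup_le_iff (c := χ.ker)).symm)⟩⟩

end Vale.Agent.P014Z.Ac
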