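import Vale.Agent.P014Z.Ac.St
import Vale.Agent.P014X.Ac.Rnk

/-! # P014Z, block Ac: inclusion and exclusion for ranks (row RKM) -/

set_option autoImplicit false
set_option linter.all false

open Module Finset
open scoped Classical

namespace Vale.Agent.P014Z.Ac

open P014X.Ac.Rk (fin_le rk_le fin_map nul)

namespace Rm

variable {Λ M ι : Type} [CommRing Λ] [AddCommGroup M] {A B : AddSubgroup M} {n : ℕ}

/-- a subgroup which contains a multiple of the group -/
theorem rk_eq [Module.Finite ℤ B] (le : A ≤ B) (n0 : n ≠ 0) (h : ∀ x ∈ B, n • x ∈ A) :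
    finrank ℤ A = finrank ℤ B := by
  have := fin_le le
  refine le_antisymm (rk_le le) ?_
  have a := nul (A := B) (nsmulAddMonoidHom n)
  have := fin_le (A := B ⊓ (nsmulAddMonoidHom n : M →+ M).ker) inf_le_left
  rw [Module.IsTorsion.finrank_eq_zero (M := ↥(B ⊓ (nsmulAddMonoidHom n : M →+ M).ker)) fun x =>
    ⟨⟨(n : ℤ), mem_nonZeroDivisors_of_ne_zero (Nat.cast_ne_zero.2 n0)⟩,
      Subtype.ext ((natCast_zsmul _ _).trans x.2.2)⟩, add_zero] at a
  exact a ▸ rk_le (by rintro _ ⟨x, k, rfl⟩; exact h x k)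

/-- two complementary operators -/
theorem split [Module.Finite ℤ B] (n0 : n ≠ 0) (f g : M →+ M) (gB : ∀ x ∈ B, g x ∈ B)
    (h : ∀ x, f x + g x = n • x ∧ f (g x) = 0) :
    finrank ℤ B = finrank ℤ (B.map f) + finrank ℤ (B.map g) := by
  have := fin_le (A := B ⊓ f.ker) inf_le_left
  rw [← nul f, rk_eq (A := B.map g) (B := B ⊓ f.ker) (by
    rintro _ ⟨x, k, rfl⟩; exact ⟨gB x k, (h x).2⟩) n0 fun x k =>
      ⟨x, k.1, by rw [← (h x).1, show f x = 0 from k.2, zero_add]⟩]

variable (a : Λ →+* AddMonoid.End M)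

theorem mp (r s : Λ) : (B.map (a s)).map (a r) = B.map (a (r * s)) := by
  rw [map_mul]
  exact AddSubgroup.map_map ..

theorem mob (e : ι → ℕ) (ν : ι → Λ) (S : Finset ι) (h : ∀ i ∈ S, e i ≠ 0 ∧ ν i * ν i = e i * ν i)
    (B : AddSubgroup M) [Module.Finite ℤ B] (hB : ∀ i ∈ S, ∀ x ∈ B, a (ν i) x ∈ B) :
    alt S (fun T => finrank ℤ (B.map (a (nu ν T)))) = finrank ℤ (B.map (a (mm S e ν))) := by
  induction S using Finset.induction_on generalizing B with
  | empty => simp [alt, nu, mm]; rfl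
  | insert i S hi ih =>
    obtain ⟨h1, h2⟩ := h i (mem_insert_self i S)
    have cm : ∀ r s x, a r (a s x) = a s (a r x) := fun r s x =>
      DFunLike.congr_fun ((map_mul a r s).symm.trans ((congrArg a (mul_comm r s)).trans
        (map_mul a s r))) x
    have sb : ∀ x, a (e i - ν i) x = e i • x - a (ν i) x := fun x => by
      rw [map_sub, map_natCast]; rfl
    have := fin_map (A := B) (a (e i - ν i))
    rw [mm, prod_insert hi, mul_comm, ← mp, ← mm, ← ih (fun j k => h j (mem_insert_of_mem k)) _ (by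
      rintro j k _ ⟨x, m, rfl⟩
      exact ⟨_, hB j (mem_insert_of_mem k) x m, cm _ _ x⟩), alt, alt, sum_powerset_insert hi,
      ← sum_add_distrib]
    refine sum_congr rfl fun T hT => ?_
    have iT : i ∉ T := fun k => hi (mem_powerset.1 hT k)
    have := fin_map (A := B) (a (nu ν T))
    have s := split (B := B.map (a (nu ν T))) h1 (a (ν i)) (a (e i - ν i)) (by
      rintro _ ⟨x, m, rfl⟩
      exact ⟨_, sb x ▸ sub_mem (nsmul_mem m _) (hB i (mem_insert_self i S) x m), cm _ _ x⟩)
      fun x => ⟨(congrArg _ (sb x)).trans (add_sub_cancel _ _), by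
        refine (DFunLike.congr_fun (map_mul a _ _) x).symm.trans ?_
        rw [mul_sub, h2, mul_comm, sub_self, map_zero]; rfl⟩
    rw [mp, mp] at s
    rw [s, card_insert_of_notMem iT, mp, nu, nu, prod_insert iT, mul_comm _ (_ - _)]
    push_cast
    ring

end Rm

open Rm in
/-- **row RKM** -/
theorem rkm : RKM := fun Λ M ι _ _ a S e n P P' h s _ => by
  rw [← mob a e n S h P fun i k x m => s.le {i} (singleton_subset_iff.2 k)
    (by simpa [nu] using s.nm {i} (singleton_subset_iff.2 k) x m)]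
  refine sum_congr rfl fun T hT => ?_
  have t := mem_powerset.1 hT
  have := fin_le (s.le T t)
  exact congrArg (fun k : ℕ => (-1) ^ T.card * (k : ℤ)) (rk_eq (A := P.map (a (nu n T))) (B := P' T)
    (by rintro _ ⟨x, m, rfl⟩; exact s.nm T t x m) (prod_ne_zero_iff.2 fun i k => (h i (t k)).1)
    fun x m => ⟨x, s.le T t m, s.fx T t x m⟩).symm

end Vale.Agent.P014Z.Ac
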