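import Vale.Agent.P014Z.Ac.Aca
import Vale.Agent.P014Z.Ac.Nut
import Vale.Agent.P014Z.Ac.Rkf
import Vale.Agent.P014Z.Ac.Okf
import Vale.Agent.P014Z.Ac.Cvt
import Vale.Agent.P014Z.Ac.Cnz
import Vale.Agent.P014Z.Ac.Gen
import Vale.Agent.P014Z.Ac.Key
import Vale.Agent.P014Z.Ac.Mob2
import Vale.Agent.P014Z.Ac.Rkm
import Vale.Agent.P014X.Ac.Beq

/-! # P014Z, the class number step on the side of the fields -/

namespace Vale.Agent.P014Z.Ac

theorem x_aca : ACA :=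
  aca nut iex rkf (okf nut) (cvt nut) (cn0 nut rkf) (gen nut) (key P014X.Ac.beq mob rkm)

end Vale.Agent.P014Z.Ac
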