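import Vale.Agent.P014Z.St
import Vale.Agent.P014Z.Su.Ana0
import Vale.Agent.P014Z.Su.Lfa
import Vale.Agent.P014Z.Lk.Kw
import Vale.Agent.P014Z.Lk.Cyc2

/-! # P014Z, block Ac: the characters of the layer -/

set_option autoImplicit false
set_option linter.all false

open NumberField IsDedekindDomain Finset
open scoped Classical

noncomputable section

namespace Vale.Agent.P014Z.Ac.Cr

open Vale.Agent.P022 (Qb GQ GK below)
open P004K
open P027M.M (io)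
open Vale.Agent.P027M.S (Inert LI)
open Vale.Agent.P022E.GW (Ov)
open Lk.Cy (cy cy_act cy_of cy_inert cy_eq ex_hc zq_prim)
open La (Pc Cz dict li_dep)
open Su (Pch)

variable {K : Type} [Field K] [NumberField K] {j : K →+* Qb} {c f : ℕ} [NeZero f]

/-- the series depends on the character only -/
theorem pc_li {φ : GK j →* ℂˣ} {θ θ' : Ideal (𝓞 K) →* ℂ} (h : Pc j φ θ) (h' : Pc j φ θ') {s : ℝ}
    (hs : 1 < s) : LI θ' s = LI θ s := by
  rw [li_dep h.le h'.le ∅ (fun v _ => ?_) (by simp) hs, prod_empty, mul_one]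
  obtain ⟨P, hP, hv⟩ := P022.H916.exists_above j v.asIdeal v.isPrime
  have h0 : below j P ≠ ⊥ := hv ▸ v.ne_bot
  rw [← hv]
  by_cases r : ∀ t : GK j, Inert P t → φ t = 1
  · obtain ⟨ψ, hψ⟩ := P022.H916.exists_frob j hP (P016Z.EP.rc_prime v)
      ((P004R.Gl.mem_below (j := j) (P := P) _).1 (hv ▸ P016Z.EP.rc_mem v))
    rw [h.unr P hP h0 r ψ hψ, h'.unr P hP h0 r ψ hψ]
  · push Not at r
    obtain ⟨t, a, b⟩ := r
    rw [h.ram P hP h0 t a b, h'.ram P hP h0 t a b]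

/-- primitive characters are ramified -/
theorem ram {F : Type} [Field F] {η : GQ →* F} {ψ : DirichletCharacter F f} (pr : ψ.IsPrimitive)
    (eq : ∀ g, η g = ψ (cy f g)) {l : ℕ} {P : Ideal (𝓞 Qb)} (o : Ov l P) (d : l ∣ f) :
    ∃ g, Inert P g ∧ η g ≠ 1 := by
  have k : Lk.Kw η.toHomUnits f ψ.toUnitHom := ⟨fun g => Units.ext (by
    rw [MonoidHom.coe_toHomUnits, eq, cy_eq, MulChar.coe_toUnitHom]), fun d h a =>
      le_antisymm (Nat.le_of_dvd (NeZero.pos f) h) (pr.ge.trans (Nat.sInf_le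
        ((DirichletCharacter.factorsThrough_iff_ker_unitsMap h).2 a)))⟩
  obtain ⟨g, a, b⟩ := k.ram o d
  exact ⟨g, a, fun e => b (Units.ext e)⟩

variable {F A : Type} [Field F] [AddCommGroup A] {η : GQ →* F} {χ : GQ → A} {ξ : GK j →* ℂˣ}

theorem same (add : ∀ g ∈ GK j, ∀ h ∈ GK j, χ (g * h) = χ g + χ h)
    (hU : ∀ g : GK j, η g = 1 → χ g = 0 → ξ g = 1) {g h : GK j} (a : η g = η h) (b : χ g = χ h) :
    ξ g = ξ h := by
  have e := add g g.2 _ (g⁻¹ * h).2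
  rw [Subgroup.coe_mul, Subgroup.coe_inv, mul_inv_cancel_left, b, left_eq_add] at e
  rw [← inv_mul_eq_one, ← map_inv, ← map_mul]
  refine hU _ ?_ e
  rw [Subgroup.coe_mul, map_mul, ← a, ← map_mul, Subgroup.coe_inv, inv_mul_cancel, map_one]

/-- faithful characters -/
theorem fai (add : ∀ g ∈ GK j, ∀ h ∈ GK j, χ (g * h) = χ g + χ h)
    (hU : ∀ g : GK j, η g = 1 → χ g = 0 → ξ g = 1) {τ : GK j} {d : ℕ} (d0 : 0 < d) (z : χ τ = 0)
    (o : η τ ^ d = 1) (gen : ∀ g : GK j, ∃ i : ℕ, η g = η τ ^ i)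
    (n : ∀ l : ℕ, l.Prime → l ∣ d → ξ (τ ^ (d / l)) ≠ 1) (g : GK j) (a : χ g = 0) (b : ξ g = 1) :
    η g = 1 := by
  have p (i : ℕ) : χ (τ ^ i : GK j) = 0 := by
    induction i with
    | zero => simpa using add 1 (one_mem _) 1 (one_mem _)
    | succ i k => rw [pow_succ, Subgroup.coe_mul, add _ (τ ^ i).2 _ τ.2, k, z, add_zero]
  have e : orderOf (ξ τ) = d := orderOf_eq_of_pow_and_pow_div_prime d0
    (by rw [← map_pow]; exact hU _ (by rw [Subgroup.coe_pow, map_pow, o]) (p d))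
    fun l h k => by rw [← map_pow]; exact n l h k
  obtain ⟨i, k⟩ := gen g
  rw [same add hU (h := τ ^ i) (by rw [k, Subgroup.coe_pow, map_pow]) (a.trans (p i).symm), map_pow,
    ← orderOf_dvd_iff_pow_eq_one, e] at b
  obtain ⟨m, rfl⟩ := b
  rw [k, pow_mul, o, one_pow]

/-- **the decomposition** -/
theorem chr (r1 : P004K.RC1) (r2 : RC2) (iq : Iq K) (sq : Squarefree c) (co : c.Coprime f)
    (spl : ∀ l P, Ov l P → l ∣ f → ∀ g, Inert P g → g ∈ GK j) {ψ : DirichletCharacter F f}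
    (pr : ψ.IsPrimitive) (eq : ∀ g, η g = ψ (cy f g))
    (add : ∀ g ∈ GK j, ∀ h ∈ GK j, χ (g * h) = χ g + χ h) (ker : ∀ g ∈ Hc j c, χ g = 0) {γ : GK j}
    (g1 : η γ = 1) (rm : ∀ q P, Ov q P → q ∣ c → ∃ t ∈ GK j, Inert P t ∧ χ t = χ γ)
    (hU : ∀ g : GK j, η g = 1 → χ g = 0 → ξ g = 1) (n1 : ξ γ ≠ 1)
    (n2 : ∀ g : GK j, χ g = 0 → ξ g = 1 → η g = 1) (nm : ∀ g, ‖(ξ g : ℂ)‖ = 1) :
    ∃ (χ' : GQ → ℂ) (ψ' : DirichletCharacter ℂ f) (θ : Ideal (𝓞 K) →* ℂ),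
      (∀ g : GK j, (ξ g : ℂ) = χ' g * ψ' (cy f g)) ∧ (∀ a, ψ a = 1 → ψ' a = 1) ∧ Pch j c χ' ∧
      (∀ g ∈ GK j, ‖χ' g‖ = 1) ∧
      (∀ B g, Cop c B → Ar j c B g → θ B = χ' g * ψ' (Ideal.absNorm B)) ∧
      (∀ B, ¬ Cop c B → θ B = 0) ∧ Pc j ξ θ := by
  have hc := Nat.pos_of_ne_zero sq.ne_zero
  choose h h1 h2 using ex_hc r1 r2 iq hc co spl
  let h' : (ZMod f)ˣ → GK j := fun a => ⟨h a, (h1 a).1⟩
  have v : ∀ g : GK j, g.1 ∈ Hc j c → ξ (h' (cy f g)) = ξ g := fun g k =>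
    same add hU (by rw [eq, eq, h2]) ((ker _ (h1 _)).trans (ker _ k).symm)
  let u : (ZMod f)ˣ →* ℂˣ := MonoidHom.mk' (fun a => ξ (h' a)) fun a b => by
    rw [← map_mul, ← v (h' a * h' b) (mul_mem (h1 a) (h1 b)), Subgroup.coe_mul, map_mul, h2, h2]
  let x : GK j →* ℂˣ := ξ * (u.comp ((cy f).comp (GK j).subtype))⁻¹
  have e0 (g : GK j) : ξ g = x g * u (cy f g) := (inv_mul_cancel_right _ _).symm
  have e (g : GK j) : (ξ g : ℂ) = x g * MulChar.ofUnitHom u (cy f g) := by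
    rw [MulChar.ofUnitHom_coe, ← Units.val_mul, ← e0]
  have xk : ∀ g : GK j, g.1 ∈ Hc j c → x g = 1 := fun g k =>
    mul_right_cancel ((e0 g).symm.trans ((v g k).symm.trans (one_mul _).symm))
  have xn (g : GK j) : ‖(x g : ℂ)‖ = 1 := by
    have := nm g
    rwa [e, norm_mul, DirichletCharacter.unit_norm_eq_one, mul_one] at this
  have rq : ∀ q P, Ov q P → q ∣ c → ∃ t : GK j, Inert P t ∧ ξ t ≠ 1 ∧ x t ≠ 1 := fun q P o d => by
    obtain ⟨t, m, i, z⟩ := rm q P o d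
    have y := cy_inert (f := f) o (fun k => o.1.one_lt.ne' (Nat.eq_one_of_dvd_coprimes co d k)) i
    have w : ξ ⟨t, m⟩ ≠ 1 := by
      rwa [same add hU (g := ⟨t, m⟩) (h := γ) (by rw [g1, eq, y, Units.val_one, map_one]) z]
    exact ⟨⟨t, m⟩, i, w, by rwa [e0, y, map_one, mul_one] at w⟩
  obtain ⟨θ, -, t1, t0, -, -, pc⟩ := dict r2 iq hc x ξ (fun g => (xn g).le) xk (MulChar.ofUnitHom u)
    fun g a k => by rw [e, cy_of (k _ (zq_prim f).pow_eq_one)]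
  let X : GQ → ℂ := fun g => if m : g ∈ GK j then x ⟨g, m⟩ else 0
  have hX : ∀ g (m : g ∈ GK j), X g = x ⟨g, m⟩ := fun g m => dif_pos m
  refine ⟨X, _, θ, fun g => by rw [hX g g.2, e], fun a k => ?_, ⟨fun g m g' m' => ?_,
    fun g m => by rw [hX g m.1, xk _ m, Units.val_one], Su.Lz.prim_of r2 iq sq fun l hl d => ?_⟩,
    fun g m => by rw [hX g m, xn], fun B g a b => by rw [hX g b.1, t1 B ⟨g, b.1⟩ a b], t0,
    pc fun P hP m => ?_⟩
  · obtain ⟨a, rfl⟩ : IsUnit a := by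
      by_contra n
      exact zero_ne_one ((ψ.map_nonunit n).symm.trans k)
    rw [MulChar.ofUnitHom_coe, Units.val_eq_one]
    exact hU _ (by rw [eq, h2, k]) (ker _ (h1 a))
  · rw [hX g m, hX g' m', hX _ (mul_mem m m'), ← Units.val_mul, ← map_mul]
    rfl
  · obtain ⟨P, a, b⟩ := P022.H916.exists_prime hl
    obtain ⟨t, i, -, w⟩ := rq l P ⟨hl, a, b⟩ d
    exact ⟨P, t, a, b, t.2, i, by rwa [hX _ t.2, Ne, Units.val_eq_one]⟩
  · obtain ⟨l, hl, d, lm⟩ : ∃ l : ℕ, l.Prime ∧ l ∣ c * f ∧ (l : 𝓞 Qb) ∈ P := by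
      have z := mul_ne_zero hc.ne' (NeZero.ne f)
      rw [← Nat.prod_primeFactorsList z, Nat.cast_list_prod] at m
      obtain ⟨y, a, b⟩ := (Ideal.IsPrime.multiset_prod_mem_iff_exists_mem hP
        (List.map Nat.cast (c * f).primeFactorsList : List (𝓞 Qb))).1 (by simpa using m)
      obtain ⟨l, k, rfl⟩ := List.mem_map.1 (Multiset.mem_coe.1 a)
      exact ⟨l, Nat.prime_of_mem_primeFactorsList k, Nat.dvd_of_mem_primeFactorsList k, b⟩
    have o : Ov l P := ⟨hl, hP, lm⟩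
    by_cases k : l ∣ c
    · exact (rq l P o k).imp fun t a => ⟨a.1, a.2.1⟩
    · have k' := (hl.dvd_mul.1 d).resolve_left k
      obtain ⟨t, i, w⟩ := ram pr eq o k'
      exact ⟨⟨t, spl l P o k' t i⟩, i, fun z => w (n2 _
        (ker _ (P004R.Wr.inert_hc r2 iq o k (spl l P o k' t i) i)) z)⟩

end Vale.Agent.P014Z.Ac.Cr
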