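import Vale.Agent.P014Z.Ac.St2

/-! # P014Z, the class number step: the span of the unit (helper15) -/

set_option autoImplicit false
set_option linter.all false

open Finset Function
open scoped Classical

noncomputable section

namespace Vale.Agent.P014Z.Ac

open P014X.Ac (pw)
open MonoidAlgebra (of)

namespace Ez

theorem aux {M Q : Type} [AddCommGroup M] [AddCommGroup Q] (p : ℕ) [Fact p.Prime] [Module (ZMod p) Q]
    (f : M →+ Q) (sur : Surjective f) (r : AddMonoid.End M → Q →+ Q) (e : ∀ t x, r t (f x) = f (t x)) :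
    ∃ R : AddMonoid.End M →+* Module.End (ZMod p) Q, ∀ t x, R t (f x) = f (t x) :=
  ⟨{ toFun := fun t => (r t).toZModLinearMap p
     map_one' := LinearMap.ext (sur.forall.2 fun x => e 1 x)
     map_mul' := fun s t => LinearMap.ext (sur.forall.2 fun x =>
      (e _ x).trans ((e s (t x)).symm.trans (congrArg (r s) (e t x).symm)))
     map_zero' := LinearMap.ext (sur.forall.2 fun x => (e 0 x).trans (map_zero f))
     map_add' := fun s t => LinearMap.ext (sur.forall.2 fun x => (e _ x).trans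
      ((map_add f (s x) (t x)).trans (congrArg₂ (· + ·) (e s x).symm (e t x).symm))) }, e⟩

/-- the quotient by the multiples of `p` -/
theorem ex_q (M : Type) [AddCommGroup M] (p : ℕ) [Fact p.Prime] : ∃ (Q : Type) (_ : AddCommGroup Q)
    (_ : Module (ZMod p) Q) (f : M →+ Q) (R : AddMonoid.End M →+* Module.End (ZMod p) Q),
    Surjective f ∧ f.ker = pw M p ∧ ∀ t x, R t (f x) = f (t x) := by
  letI i : Module (ZMod p) (M ⧸ pw M p) := QuotientAddGroup.zmodModule fun x => ⟨x, rfl⟩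
  obtain ⟨R, h⟩ := aux p (QuotientAddGroup.mk' (pw M p)) (QuotientAddGroup.mk'_surjective _)
    (fun t => QuotientAddGroup.map (pw M p) (pw M p) t (by
      rintro _ ⟨x, rfl⟩
      exact ⟨t x, (map_nsmul t p x).symm⟩)) fun _ _ => rfl
  exact ⟨_, _, i, _, R, QuotientAddGroup.mk'_surjective _, QuotientAddGroup.ker_mk' _, h⟩

variable {p : ℕ} [Fact p.Prime] {Q Γ : Type} [AddCommGroup Q] [Module (ZMod p) Q] [CommGroup Γ]
  (L : MonoidAlgebra ℤ Γ →+* Module.End (ZMod p) Q) {τ g : Γ} {d n : ℕ} {a₀ : ZMod p} (u : Q)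

theorem com (x y : MonoidAlgebra ℤ Γ) (v : Q) : L x (L y v) = L y (L x v) := by
  rw [← Module.End.mul_apply, ← map_mul, mul_comm, map_mul, Module.End.mul_apply]

theorem frob (g : Γ) (n : ℕ) : L (of ℤ Γ (g ^ p ^ n) - 1) = L ((of ℤ Γ g - 1) ^ p ^ n) := by
  have := congrArg (Polynomial.aeval (L (of ℤ Γ g)))
    (sub_pow_char_pow (p := p) (n := n) (Polynomial.X : Polynomial (ZMod p)) 1)
  simp only [map_pow, map_sub, Polynomial.aeval_X, map_one, one_pow] at this ⊢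
  exact this.symm

/-- the component -/
def cp (τ : Γ) (d : ℕ) (a₀ : ZMod p) (a : ℕ) : Q :=
  ∑ i ∈ range d, (a₀ ^ i)⁻¹ ^ a • L (of ℤ Γ (τ ^ i)) u

theorem eig (h : a₀ ^ d = 1) (a0 : a₀ ≠ 0) (td : τ ^ d = 1) (a : ℕ) :
    L (of ℤ Γ τ) (cp L u τ d a₀ a) = a₀ ^ a • cp L u τ d a₀ a := by
  let F : ℕ → Q := fun i => (a₀ ^ i)⁻¹ ^ a • L (of ℤ Γ (τ ^ i)) u
  have e : ∑ i ∈ range d, F (i + 1) = ∑ i ∈ range d, F i := by
    have := (sum_range_succ F d).symm.trans (sum_range_succ' F d)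
    rw [show F d = F 0 by simp only [F, h, td, pow_zero]] at this
    exact (add_right_cancel this).symm
  show L (of ℤ Γ τ) (∑ i ∈ range d, F i) = a₀ ^ a • ∑ i ∈ range d, F i
  conv_rhs => rw [← e]
  rw [map_sum, smul_sum]
  refine sum_congr rfl fun i _ => ?_
  simp only [F]
  rw [map_smul, smul_smul, pow_succ' τ, map_mul, map_mul, Module.End.mul_apply, ← mul_pow,
    pow_succ' a₀, mul_inv, mul_inv_cancel_left₀ a0]

theorem eigp {v : Q} {c : ZMod p} (h : L (of ℤ Γ τ) v = c • v) (i : ℕ) :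
    L (of ℤ Γ (τ ^ i)) v = c ^ i • v := by
  induction i with
  | zero => rw [pow_zero, pow_zero, map_one, map_one, one_smul]; rfl
  | succ i k => rw [pow_succ, pow_succ, map_mul, map_mul, Module.End.mul_apply, h, map_smul, k,
      smul_smul, mul_comm]

theorem tot (pr : IsPrimitiveRoot a₀ d) (d0 : 0 < d) :
    ∑ a ∈ range d, cp L u τ d a₀ a = (d : ZMod p) • u := by
  rw [show ∑ a ∈ range d, cp L u τ d a₀ a = ∑ i ∈ range d, (∑ a ∈ range d, (a₀ ^ i)⁻¹ ^ a) •
    L (of ℤ Γ (τ ^ i)) u by simp only [cp, sum_smul]; exact sum_comm,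
    sum_eq_single 0 (fun i m k => ?_) fun m => (m (mem_range.2 d0)).elim]
  · rw [pow_zero τ, map_one, map_one]
    simp
  · rw [geom_sum_eq (inv_ne_one.2 (pr.pow_ne_one_of_pos_of_lt k (mem_range.1 m))), inv_pow,
      ← pow_mul, mul_comm, pow_mul, pr.pow_eq_one, one_pow, inv_one, sub_self, zero_div, zero_smul]

theorem kill {v : Q} {a : ℕ} (h : a₀ ^ d = 1) (e : L (of ℤ Γ τ) v = a₀ ^ a • v) (d0 : d ≠ 0)
    (c : ¬ d.Coprime a) : L (mm d.primeFactors id (nl (tl d τ))) v = 0 := by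
  obtain ⟨l, hl, ⟨d', rfl⟩, a', rfl⟩ := Nat.Prime.not_coprime_iff_dvd.1 c
  obtain ⟨y, k⟩ := dvd_prod_of_mem (fun i => ((id i : ℕ) : MonoidAlgebra ℤ Γ) - nl (tl (l * d') τ) i)
    (Nat.mem_primeFactors.2 ⟨hl, dvd_mul_right l d', d0⟩)
  have z : L (nl (tl (l * d') τ) l) v = l • v := by
    rw [nl, map_sum, LinearMap.sum_apply, sum_congr rfl fun i _ => show _ = v by
      rw [tl, ← pow_mul, eigp L e, Nat.mul_div_cancel_left _ hl.pos, ← pow_mul,
        show l * a' * (d' * i) = l * d' * (a' * i) by ring, pow_mul, h, one_pow, one_smul],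
      sum_const, card_range]
  rw [mm, k, mul_comm, map_mul, Module.End.mul_apply, map_sub, LinearMap.sub_apply, z, map_natCast,
    Module.End.natCast_apply, id, sub_self, map_zero]

theorem core (pr : IsPrimitiveRoot a₀ d) (hd : d ∣ p - 1) (td : τ ^ d = 1)
    (gen : ∀ γ, ∃ i j : ℕ, γ = τ ^ i * g ^ j) (m : ℕ → ℕ)
    (z : ∀ a < d, d.Coprime a → L ((of ℤ Γ g - 1) ^ (p ^ n + m a)) (cp L u τ d a₀ a) = 0) :
    ∃ Z : Submodule (ZMod p) Q, Nat.card Z ≠ 0 ∧
      Nat.card Z ≤ p ^ ∑ a ∈ (range d).filter d.Coprime, m a ∧ ∀ γ,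
      L (mm d.primeFactors id (nl (tl d τ)) * (of ℤ Γ (γ * g ^ p ^ n) - of ℤ Γ γ)) u ∈ Z := by
  have hp : p.Prime := Fact.out
  have p1 : 0 < p - 1 := Nat.sub_pos_of_lt hp.one_lt
  have d0 : 0 < d := Nat.pos_of_dvd_of_pos hd p1
  have a0 : a₀ ≠ 0 := pr.ne_zero d0.ne'
  have eg := eig L u pr.pow_eq_one a0 td
  let S : Finset Q := (((range d).filter d.Coprime).sigma fun a => range (m a)).image
    fun x => L ((of ℤ Γ g - 1) ^ (p ^ n + x.2)) (cp L u τ d a₀ x.1)
  let Z : Submodule (ZMod p) Q := .span (ZMod p) S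
  have fz : Finite Z := Module.finite_of_finite (ZMod p)
  let V : Submodule (ZMod p) Q := ⨅ j : ℕ, Z.comap (L ((of ℤ Γ g - 1) ^ (p ^ n + j)))
  have mv : ∀ v, v ∈ V ↔ ∀ j, L ((of ℤ Γ g - 1) ^ (p ^ n + j)) v ∈ Z := fun v => by
    simp only [V, Submodule.mem_iInf, Submodule.mem_comap]
  have st : ∀ v ∈ V, L (of ℤ Γ g) v ∈ V := fun v h => (mv _).2 fun j => by
    have := add_mem ((mv _).1 h j) ((mv _).1 h (j + 1))
    rwa [← LinearMap.add_apply, ← map_add, show (of ℤ Γ g - 1) ^ (p ^ n + j) +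
      (of ℤ Γ g - 1) ^ (p ^ n + (j + 1)) = (of ℤ Γ g - 1) ^ (p ^ n + j) * of ℤ Γ g by ring,
      map_mul] at this
  have y0 : ∀ a < d, d.Coprime a → cp L u τ d a₀ a ∈ V := fun a l c => (mv _).2 fun j => by
    rcases lt_or_ge j (m a) with k | k
    · exact Submodule.subset_span (mem_coe.2 (mem_image.2 ⟨⟨a, j⟩,
        mem_sigma.2 ⟨mem_filter.2 ⟨mem_range.2 l, c⟩, mem_range.2 k⟩, rfl⟩))
    · obtain ⟨i, rfl⟩ := Nat.exists_eq_add_of_le k
      rw [← add_assoc, pow_add, mul_comm, map_mul, Module.End.mul_apply, z a l c, map_zero]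
      exact zero_mem _
  have y1 : ∀ a < d, d.Coprime a → ∀ x, L x (cp L u τ d a₀ a) ∈ V := fun a l c x => by
    induction x using MonoidAlgebra.induction_on with
    | of γ =>
      obtain ⟨i, j, rfl⟩ := gen γ
      rw [mul_comm, map_mul, map_mul, Module.End.mul_apply, eigp L (eg a), map_smul]
      refine V.smul_mem _ ?_
      induction j with
      | zero => rw [pow_zero, map_one, map_one]; exact y0 a l c
      | succ j k => rw [pow_succ', map_mul, map_mul]; exact st _ k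
    | add x y h k => rw [map_add]; exact add_mem h k
    | smul r x h => rw [map_zsmul]; exact zsmul_mem h r
  refine ⟨Z, Nat.card_pos.ne', ?_, fun γ => ?_⟩
  · rw [Module.natCard_eq_pow_finrank (K := ZMod p), Nat.card_zmod]
    refine Nat.pow_le_pow_right hp.pos ((finrank_span_finset_le_card S).trans (card_image_le.trans ?_))
    simp only [card_sigma, card_range, le_refl]
  have dn : (d : ZMod p) ≠ 0 := fun e => (Nat.le_of_dvd d0 ((ZMod.natCast_eq_zero_iff _ _).1 e)).not_gt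
    ((Nat.le_of_dvd p1 hd).trans_lt (by omega))
  have k : L (of ℤ Γ γ * mm d.primeFactors id (nl (tl d τ))) u ∈ V := by
    rw [← V.smul_mem_iff dn, ← map_smul, ← tot L u pr d0, map_sum]
    refine sum_mem fun a h => ?_
    by_cases c : d.Coprime a
    · exact y1 a (mem_range.1 h) c _
    · rw [map_mul, Module.End.mul_apply, kill L pr.pow_eq_one (eg a) d0.ne' c, map_zero]
      exact zero_mem _
  have := (mv _).1 k 0
  rwa [add_zero, ← frob, ← Module.End.mul_apply, ← map_mul, show (of ℤ Γ (g ^ p ^ n) - 1) *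
    (of ℤ Γ γ * mm d.primeFactors id (nl (tl d τ))) = mm d.primeFactors id (nl (tl d τ)) *
    (of ℤ Γ (γ * g ^ p ^ n) - of ℤ Γ γ) by rw [map_mul]; ring] at this

end Ez

open Ez in
/-- **the second count of `EXA`** -/
theorem exz {M Γ : Type} [AddCommGroup M] [CommGroup Γ] (A : Γ →* AddMonoid.End M)
    {p n d w : ℕ} [Fact p.Prime] {τ g : Γ} {a₀ : ZMod p} {u : M} {x : ℕ → M}
    (pr : IsPrimitiveRoot a₀ d) (hd : d ∣ p - 1) (td : τ ^ d = 1)
    (gen : ∀ γ, ∃ i j : ℕ, γ = τ ^ i * g ^ j) (hw : w * p < p ^ n)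
    (hx : ∀ a, x a = ∑ i ∈ range d, ((a₀ ^ i)⁻¹ ^ a).val • A (τ ^ i) u)
    (k0 : ∀ a, a.Coprime d → ((A g - 1) ^ (p ^ (n + 1) - w)) (x a) ∈ pw M p)
    (k1 : ((A g - 1) ^ (p ^ (n + 1) - (w + 1))) (x 1) ∈ pw M p) : ∃ Z : AddSubgroup M,
    (∀ γ, gr A (mm d.primeFactors id (nl (tl d τ)) *
      (MonoidAlgebra.of ℤ Γ (γ * g ^ p ^ n) - MonoidAlgebra.of ℤ Γ γ)) u ∈ Z) ∧
    (pw M p).relIndex Z ≠ 0 ∧
    p * (pw M p).relIndex Z ≤ p ^ (d.totient * (p ^ (n + 1) - p ^ n - w)) := by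
  have hp : p.Prime := Fact.out
  obtain ⟨Q, _, _, f, R, sur, kf, e⟩ := ex_q M p
  have z : ∀ y, y ∈ pw M p → f y = 0 := fun y h => by rwa [← kf] at h
  have c : ∀ a, cp (R.comp (gr A)) (f u) τ d a₀ a = f (x a) := fun a => by
    rw [hx, map_sum]
    exact sum_congr rfl fun i _ => by
      rw [map_nsmul, ← Nat.cast_smul_eq_nsmul (ZMod p), ZMod.natCast_zmod_val, RingHom.comp_apply,
        gr_of, e]
  have s : ∀ i y, (R.comp (gr A)) ((of ℤ Γ g - 1) ^ i) (f y) = f (((A g - 1) ^ i) y) := fun i y => by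
    rw [RingHom.comp_apply, map_pow (gr A), map_sub (gr A), gr_of, map_one (gr A), e]
  have x1 : x (1 % d) = x 1 := by
    rw [hx, hx]
    exact sum_congr rfl fun i _ => by
      rw [← pow_eq_pow_mod 1 (by rw [inv_pow, ← pow_mul, mul_comm, pow_mul, pr.pow_eq_one, one_pow,
        inv_one])]
  have l1 : w < p ^ n := (Nat.le_mul_of_pos_right w hp.pos).trans_lt hw
  have l2 : p ^ n * 2 ≤ p ^ (n + 1) := Nat.mul_le_mul_left _ hp.two_le
  have d0 : 0 < d := Nat.pos_of_dvd_of_pos hd (Nat.sub_pos_of_lt hp.one_lt)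
  obtain ⟨Z, z0, z1, z2⟩ := core (R.comp (gr A)) (f u) (n := n) pr hd td gen
    (fun a => p ^ (n + 1) - p ^ n - if a = 1 % d then w + 1 else w) fun a _ h => by
      rw [c, s]
      split_ifs with k
      · rw [k, x1, show p ^ n + (p ^ (n + 1) - p ^ n - (w + 1)) = p ^ (n + 1) - (w + 1) by omega]
        exact z _ k1
      · rw [show p ^ n + (p ^ (n + 1) - p ^ n - w) = p ^ (n + 1) - w by omega]
        exact z _ (k0 a h.symm)
  have r : (pw M p).relIndex (Z.toAddSubgroup.comap f) = Nat.card Z := by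
    rw [← kf, AddSubgroup.relIndex_ker, AddSubgroup.map_comap_eq_self_of_surjective sur]; rfl
  refine ⟨Z.toAddSubgroup.comap f, fun γ => ?_, r ▸ z0, ?_⟩
  · have := z2 γ
    rwa [RingHom.comp_apply, e] at this
  rw [r]
  refine (Nat.mul_le_mul_left p z1).trans ?_
  rw [← pow_succ', Nat.totient_eq_card_coprime, ← smul_eq_mul, ← sum_const]
  refine Nat.pow_le_pow_right hp.pos (Nat.succ_le_of_lt ?_)
  refine sum_lt_sum (fun a _ => ?_) ⟨1 % d, mem_filter.2 ⟨mem_range.2 (Nat.mod_lt _ d0), ?_⟩, ?_⟩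
  · split_ifs <;> omega
  · rw [Nat.Coprime, Nat.gcd_comm, ← Nat.gcd_rec, Nat.gcd_one_right]
  · rw [if_pos rfl]; omega

end Vale.Agent.P014Z.Ac
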