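import Vale.Agent.P014X.Ac.Ix
import Mathlib.Algebra.BigOperators.Group.Finset.Powerset
import Mathlib.Tactic.Abel

/-! # P014Z, block Ac: inclusion and exclusion for the orders of finite groups (helper39) -/

set_option autoImplicit false
set_option linter.all false

namespace Vale.Agent.P014Z.Ac.Mo

open AddSubgroup
open P014X.Ac (ix dvd_right ne_right not_dvd cop)

variable {M M' : Type} [AddCommGroup M] [AddCommGroup M'] {p n : ℕ}

/-- a smaller group whose quotient is killed by a number prime to `p` -/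
theorem val_eq (hp : p.Prime) (hn : ¬ p ∣ n) {A Q P : AddSubgroup M} (le : Q ≤ P ⊔ A)
    (h : ∀ x ∈ P, n • x ∈ Q ⊔ A) (n0 : A.relIndex P ≠ 0) :
    padicValNat p (A.relIndex Q) = padicValNat p (A.relIndex P) := by
  have := Fact.mk hp
  rw [← relIndex_sup_right P A, ← relIndex_mul_relIndex A (Q ⊔ A) (P ⊔ A) le_sup_right
    (sup_le le le_sup_right)] at n0 ⊢
  rw [padicValNat.mul (left_ne_zero_of_mul n0) (right_ne_zero_of_mul n0), relIndex_sup_right,
    padicValNat.eq_zero_of_not_dvd (not_dvd hp hn (fun x k => ?_) (right_ne_zero_of_mul n0)),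
    add_zero]
  obtain ⟨y, y1, z, z1, rfl⟩ := mem_sup.1 k
  rw [smul_add]
  exact add_mem (h y y1) (mem_sup_right (nsmul_mem z1 n))

/-- two complementary operators -/
theorem split (hp : p.Prime) (hn : ¬ p ∣ n) (f g : M →+ M) {A B : AddSubgroup M}
    (fA : ∀ x ∈ A, f x ∈ A) (gB : ∀ x ∈ B, g x ∈ B) (n0 : A.relIndex B ≠ 0)
    (h : ∀ x ∈ B, f x + g x - n • x ∈ A ∧ f (g x) ∈ A) :
    padicValNat p (A.relIndex B) =
      padicValNat p (A.relIndex (B.map f)) + padicValNat p (A.relIndex (B.map g)) := by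
  have := Fact.mk hp
  have e := relIndex_mul_relIndex (A ⊓ B) (A.comap f ⊓ B) B (inf_le_inf_right _ fA) inf_le_right
  rw [inf_relIndex_right, inf_relIndex_right, relIndex_comap, ← inf_relIndex_right (A ⊓ B),
    inf_assoc, inf_eq_right.2 (inf_le_right : A.comap f ⊓ B ≤ B), inf_relIndex_right] at e
  rw [← e] at n0 ⊢
  rw [padicValNat.mul (left_ne_zero_of_mul n0) (right_ne_zero_of_mul n0), add_comm,
    val_eq hp hn (Q := B.map g) (P := A.comap f ⊓ B) (le_sup_of_le_left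
      (map_le_iff_le_comap.2 fun x k => ⟨(h x k).2, gB x k⟩)) (fun x k => ?_) (left_ne_zero_of_mul n0)]
  rw [show n • x = g x + (f x - (f x + g x - n • x)) by abel]
  exact add_mem (mem_sup_left ⟨x, k.2, rfl⟩) (mem_sup_right (sub_mem k.1 (h x k.2).1))

/-- **inclusion and exclusion** -/
theorem mob {R ι : Type} [CommMonoid R] [DecidableEq ι] (hp : p.Prime) (φ : R → M →+ M)
    (mul : ∀ r s x, φ (r * s) x = φ r (φ s x)) {A B : AddSubgroup M}
    (hA : ∀ r, ∀ x ∈ A, φ r x ∈ A) (hB : ∀ r, ∀ x ∈ B, φ r x ∈ B) (n0 : A.relIndex B ≠ 0)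
    (ν μ : ι → R) (n : ι → ℕ) (S : Finset ι) (h : ∀ i ∈ S, ¬ p ∣ n i ∧ ∀ x ∈ B,
      φ (ν i) x + φ (μ i) x - n i • x ∈ A ∧ φ (ν i * μ i) x ∈ A) (r : R) :
    (padicValNat p (A.relIndex (B.map (φ (r * ∏ i ∈ S, μ i)))) : ℤ) = ∑ T ∈ S.powerset,
      (-1) ^ T.card * (padicValNat p (A.relIndex (B.map (φ (r * ∏ i ∈ T, ν i)))) : ℤ) := by
  induction S using Finset.induction_on generalizing r with
  | empty => simp
  | insert a S ha ih =>
    obtain ⟨h1, h2⟩ := h a (Finset.mem_insert_self a S)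
    have mp : ∀ r s, (B.map (φ s)).map (φ r) = B.map (φ (r * s)) := fun r s => by
      rw [map_map]
      exact congrArg B.map (AddMonoidHom.ext fun x => (mul r s x).symm)
    rw [Finset.prod_insert ha, ← mul_assoc, ih (fun i k => h i (Finset.mem_insert_of_mem k)),
      Finset.sum_powerset_insert ha, ← Finset.sum_add_distrib]
    refine Finset.sum_congr rfl fun T hT => ?_
    have aT : a ∉ T := fun k => ha (Finset.mem_powerset.1 hT k)
    have := split hp h1 (φ (ν a)) (φ (μ a)) (B := B.map (φ (r * ∏ i ∈ T, ν i))) (hA _)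
      (by rintro _ ⟨x, k, rfl⟩; exact ⟨_, hB (μ a) x k, by rw [← mul, ← mul, mul_comm]⟩)
      (ne_right A (map_le_iff_le_comap.2 (hB _)) n0)
      (by rintro _ ⟨x, k, rfl⟩; rw [← mul (ν a) (μ a)]; exact h2 _ (hB _ x k))
    rw [mp, mp] at this
    rw [this, Finset.card_insert_of_notMem aT, Finset.prod_insert aT, mul_left_comm (ν a),
      mul_right_comm r (μ a), mul_comm (μ a)]
    push_cast
    ring

/-- the image of both groups -/
theorem map_eq (hp : p.Prime) (hn : ¬ p ∣ n) (m : M →+ M) {A B : AddSubgroup M} (le : A ≤ B)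
    (mA : ∀ x ∈ A, m x ∈ A) (n0 : A.relIndex B ≠ 0) (mm : ∀ x ∈ B, m (m x) = n • m x) :
    (A.map m).relIndex (B.map m) ≠ 0 ∧ A.relIndex (B.map m) ≠ 0 ∧
      padicValNat p ((A.map m).relIndex (B.map m)) = padicValNat p (A.relIndex (B.map m)) := by
  have n1 : (A.map m).relIndex (B.map m) ≠ 0 := left_ne_zero_of_mul (ix m le ▸ n0)
  have n2 : A.relIndex (B.map m) ≠ 0 :=
    ne_zero_of_dvd_ne_zero n1 (relIndex_dvd_of_le_left _ (map_le_iff_le_comap.2 mA))
  refine ⟨n1, n2, le_antisymm (cop hp hn (.id M) (fun _ k => k) (map_le_iff_le_comap.2 mA) ?_ n1 n2)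
    ?_⟩
  · rintro _ ⟨x, k, rfl⟩ l
    exact ⟨_, l, mm x k⟩
  · have := Fact.mk hp
    rw [← padicValNat_dvd_iff_le n1]
    exact pow_padicValNat_dvd.trans (relIndex_dvd_of_le_left _ (map_le_iff_le_comap.2 mA))

/-- **descent**: an inclusion `j` and a norm `N` -/
theorem dsc (hp : p.Prime) (hn : ¬ p ∣ n) (j : M' →+ M) (N : M →+ M') (ν : M →+ M)
    {A B : AddSubgroup M} {A' B' : AddSubgroup M'} (jA : ∀ y ∈ A', j y ∈ A) (jB : ∀ y ∈ B', j y ∈ B)
    (NA : ∀ x ∈ A, N x ∈ A') (NB : ∀ x ∈ B, N x ∈ B') (jN : ∀ x ∈ B, j (N x) - ν x ∈ A)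
    (Nj : ∀ y ∈ B', N (j y) - n • y ∈ A') (n0 : A.relIndex B ≠ 0) (n1 : A'.relIndex B' ≠ 0) :
    padicValNat p (A.relIndex (B.map ν)) = padicValNat p (A'.relIndex B') := by
  have n2 := ne_right A (map_le_iff_le_comap.2 jB : B'.map j ≤ B) n0
  rw [val_eq hp hn (Q := B.map ν) (P := B'.map j) ?_ ?_ n2]
  · refine le_antisymm ?_ (cop hp hn j (fun y k => ⟨y, k, rfl⟩) jA (fun y k l => ?_) n1 n2)
    · have := Fact.mk hp
      rw [← padicValNat_dvd_iff_le n1, ← relIndex_comap]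
      exact pow_padicValNat_dvd.trans (relIndex_dvd_of_le_left _ jA)
    · simpa using sub_mem (NA _ l) (Nj y k)
  · rintro _ ⟨x, k, rfl⟩
    rw [← sub_sub_cancel (j (N x)) (ν x)]
    exact sub_mem (mem_sup_left ⟨_, NB x k, rfl⟩) (mem_sup_right (jN x k))
  · rintro _ ⟨y, k, rfl⟩
    rw [show n • j y = ν (j y) + (j (N (j y)) - ν (j y) - j (N (j y) - n • y)) by
      simp]
    exact add_mem (mem_sup_left ⟨_, jB y k, rfl⟩)
      (mem_sup_right (sub_mem (jN _ (jB y k)) (jA _ (Nj y k))))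

end Vale.Agent.P014Z.Ac.Mo
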