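import Vale.Agent.P014Z.St
import Vale.Agent.P014Z.Ac.St
import Vale.Agent.P014Z.Su.Lfa

/-! # P014Z, the class number step: the export (words and rows) -/

set_option autoImplicit false
set_option linter.all false

open NumberField Function Finset
open scoped Classical

noncomputable section

namespace Vale.Agent.P014Z.Ac

open Vale.Agent.P022 (Qb GQ GK)
open Vale.Agent.P022E.GW (Ov)
open Vale.Agent.P027M.S (LI)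
open Vale.Agent.P014U P004K
open P027M.M (io)
open P014Y.F (Crv Fld)
open P014X.Ac (pw AM AI am ai ad pm Js)
open P014X.An (Pm xs)
open Gl (Lt Wv Hf)

/-- `H` is the fixed field of `U`, `Γ = G / U` -/
structure Ga (G U : Subgroup GQ) {H Γ : Type} [Field H] [CommGroup Γ] (jH : H →+* Qb) (π : G →* Γ)
    (ρ : Γ →* (H ≃+* H)) : Prop where
  gk : GK jH = U
  sur : Surjective π
  ker : ∀ g, π g = 1 ↔ g.1 ∈ U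
  act : ∀ g x, jH (ρ (π g) x) = g.1 (jH x)

/-- the complex embedding -/
abbrev ph {H : Type} [Field H] (jH : H →+* Qb) : H →+* ℂ := io.toRingHom.comp jH

/-- the elements of prime order -/
def tl {Γ : Type} [CommGroup Γ] (d : ℕ) (τ : Γ) (l : ℕ) : Γ := τ ^ (d / l)

/-- **the field, the group, the zeta functions** -/
def ZFG : Prop := ∀ (K : Type) [Field K] [NumberField K] (j : K →+* Qb), Iq K →
  ∀ U : Subgroup GQ, IsOpen (U : Set GQ) → U ≤ GK j →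
  (∀ g ∈ GK j, ∀ h ∈ GK j, g * h * g⁻¹ * h⁻¹ ∈ U) →
  ∃ (H Γ : Type) (_ : Field H) (_ : NumberField H) (_ : CommGroup Γ) (_ : Fintype Γ) (jH : H →+* Qb)
    (π : GK j →* Γ) (ρ : Γ →* (H ≃+* H)) (θ : (Γ →* ℂˣ) → Ideal (𝓞 K) →* ℂ),
    Ga (GK j) U jH π ρ ∧ Fr ρ (ph jH) ∧ Zf ρ (fun ξ => LI (θ ξ)) ∧ ∀ ξ, La.Pc j (ξ.comp π) (θ ξ)

/-- the faithful characters -/
def GR2 : Prop := ∀ (Γ : Type) [CommGroup Γ] [Fintype Γ] (p n d : ℕ) (τ g : Γ), p.Prime → d ∣ p - 1 →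
  (∀ i j : ℕ, τ ^ i * g ^ j = 1 ↔ d ∣ i ∧ p ^ (n + 1) ∣ j) → (∀ γ, ∃ i j : ℕ, γ = τ ^ i * g ^ j) →
  ∃ Y, Da p (g ^ p ^ n) d.primeFactors (tl d τ) Y ∧ d.totient * (p ^ (n + 1) - p ^ n) ≤ Y.card

/-- **the two counts** -/
def EXA : Prop := ∀ (M Γ : Type) [AddCommGroup M] [CommGroup Γ] (A : Γ →* AddMonoid.End M)
  (p n d w : ℕ) [Fact p.Prime] (τ g : Γ) (a₀ : ZMod p) (u : M) (x : ℕ → M) (E : AddSubgroup M),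
  IsPrimitiveRoot a₀ d → d ∣ p - 1 → τ ^ d = 1 → g ^ p ^ (n + 1) = 1 →
  (∀ γ, ∃ i j : ℕ, γ = τ ^ i * g ^ j) → (∀ y ∈ E, A τ y ∈ E) → w * p < p ^ n →
  (∀ a, x a = ∑ i ∈ range d, ((a₀ ^ i)⁻¹ ^ a).val • A (τ ^ i) u) →
  (∀ a, a.Coprime d → ((A g - 1) ^ (p ^ (n + 1) - w)) (x a) ∈ pw M p) →
  ((A g - 1) ^ (p ^ (n + 1) - (w + 1))) (x 1) ∈ pw M p →
  (∀ a, a.Coprime d → ∃ (Z : Type) (_ : Finite Z) (κ : M → Z),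
    Nat.card Z ≤ p ^ (p ^ (n + 1) - p ^ n + w) ∧ ∀ y ∈ E, ∀ z ∈ E,
      A τ y - (a₀ ^ a).val • y ∈ pw M p → A τ z - (a₀ ^ a).val • z ∈ pw M p →
      ((A g - 1) ^ (p ^ (n + 1) - p ^ n)) y ∈ pw M p →
      ((A g - 1) ^ (p ^ (n + 1) - p ^ n)) z ∈ pw M p → κ y = κ z → y - z ∈ pw M p) →
  ∃ W Z : AddSubgroup M,
    (∀ y ∈ E, ∑ i ∈ range p, A ((g ^ p ^ n) ^ i) y ∈ pw M p →
      (∀ l ∈ d.primeFactors, ∑ i ∈ range l, A (tl d τ l ^ i) y ∈ pw M p) → y ∈ W) ∧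
    (∀ γ, gr A (mm d.primeFactors id (nl (tl d τ)) *
      (MonoidAlgebra.of ℤ Γ (γ * g ^ p ^ n) - MonoidAlgebra.of ℤ Γ γ)) u ∈ Z) ∧
    (pw M p).relIndex W ≠ 0 ∧ (pw M p).relIndex Z ≠ 0 ∧
    (pw M p).relIndex W ≤ p ^ (d.totient * (p ^ (n + 1) - p ^ n + w)) ∧
    p * (pw M p).relIndex Z ≤ p ^ (d.totient * (p ^ (n + 1) - p ^ n - w))

variable [Pp]

section

variable {e : Crv} {D : Gl.Da e} {b : Fld e} {n : ℕ} (L : Lt D b n)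

/-- the unit of the layer -/
def uu : Qb := ∏ g ∈ L.R' with g ∈ L.U, g L.s

/-- the generator of the tower -/
def gam : b.Γ := ⟨L.γ, L.lz.g0⟩

/-- `τ` generates the group of `η` -/
structure Gt (τ : b.Γ) : Prop where
  chi : L.χ τ.1 = 0
  prim : IsPrimitiveRoot (D.η τ.1) (orderOf D.η)

end

/-- the group of the layer -/
def GR1 : Prop := ∀ (e : Crv) (D : Gl.Da e) (b : Fld e) n (L : Lt D b n), IsOpen (L.U : Set GQ) ∧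
  (∀ g ∈ b.Γ, ∀ h ∈ b.Γ, g * h * g⁻¹ * h⁻¹ ∈ L.U) ∧ (∃ τ, Gt L τ) ∧ orderOf D.η ∣ pp - 1 ∧
  (∀ z : Qb, z ^ pp = 1 → (∀ g ∈ L.U, g z = z) → z = 1) ∧ ∀ τ, Gt L τ →
    (∀ i j : ℕ, τ.1 ^ i * L.γ ^ j ∈ L.U ↔ orderOf D.η ∣ i ∧ pp ^ (n + 1) ∣ j) ∧
    ∀ g ∈ b.Γ, ∃ i, D.η g = D.η τ.1 ^ i ∧ g⁻¹ * (τ.1 ^ i * L.γ ^ (L.χ g).val) ∈ L.U

/-- the value at the Heegner point -/
def UNI : Prop := ∀ (e : Crv) (D : Gl.Da e) (b : Fld e) n (L : Lt D b n), L.s ≠ 0 ∧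
  (∀ g ∈ Hf b L.c D.f, g L.s = L.s) ∧ Hf b L.c D.f ≤ L.U ∧
  (∀ g ∈ b.Γ, ∀ h ∈ b.Γ, g * h * g⁻¹ * h⁻¹ ∈ Hf b L.c D.f) ∧
  ∀ l P, Ov l P → ¬ l ∣ D.f → ∀ g ∈ b.Γ, Ip P (g L.s) ∧ Ip P (g L.s)⁻¹

/-- the components of the unit -/
def XAU : Prop := ∀ (e : Crv) (D : Gl.Da e) (b : Fld e) n (L : Lt D b n), uu L ≠ 0 ∧
  (∀ g ∈ L.U, g (uu L) = uu L) ∧ ∀ τ, Gt L τ → ∀ a, L.X a =
    ∏ i ∈ range (orderOf D.η), (τ.1 ^ i) (uu L) ^ ((D.η τ.1 ^ i)⁻¹ ^ a).val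

/-- the eigenspaces -/
def WVB : Prop := ∀ (e : Crv) (D : Gl.Da e) (b : Fld e) n (L : Lt D b n) (H Γ : Type) [Field H]
  [NumberField H] [CommGroup Γ] (jH : H →+* Qb) (π : b.Γ →* Γ) (ρ : Γ →* (H ≃+* H)) τ,
  Ga b.Γ L.U jH π ρ → Gt L τ → ∀ (a : ℕ) (y : AM H), ad H y ∈ pw (AI H) pp →
  am (ρ (π τ)).toRingHom y - (D.η τ.1 ^ a).val • y ∈ pw (AM H) pp →
  Wv b D.η L.χ L.U a (jH (y.toMul : Hˣ))

/-- the support of the unit -/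
def SUP : Prop := ∀ (e : Crv) (D : Gl.Da e) (b : Fld e) n (L : Lt D b n) (H Γ : Type) [Field H]
  [NumberField H] [CommGroup Γ] (jH : H →+* Qb) (π : b.Γ →* Γ) (ρ : Γ →* (H ≃+* H)) τ (u : Hˣ),
  Ga b.Γ L.U jH π ρ → Gt L τ → jH u = uu L → ∃ B : Finset (Pm H), ad H (.ofMul u) ∈ Js B ∧
    ∀ w ∈ B, ∃ l ∈ (orderOf D.η).primeFactors,
      ai (ρ (tl (orderOf D.η) (π τ) l)).toRingHom (pm w) = pm w

/-- **the limit formula** -/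
def ANA : Prop := ∀ (e : Crv) (D : Gl.Da e) (b : Fld e) n (L : Lt D b n) (H Γ : Type) [Field H]
  [NumberField H] [CommGroup Γ] [Fintype Γ] (jH : H →+* Qb) (π : b.Γ →* Γ) (ρ : Γ →* (H ≃+* H)) τ
  (u : Hˣ), Ga b.Γ L.U jH π ρ → Gt L τ → jH u = uu L → ∃ a a' : ℕ, ¬ pp ∣ a' ∧ a ≠ 0 ∧
    ∀ (ξ : Γ →* ℂˣ) θ, ξ (π (gam L) ^ pp ^ n) ≠ 1 →
      (∀ l ∈ (orderOf D.η).primeFactors, ξ (tl (orderOf D.η) (π τ) l) ≠ 1) →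
      La.Pc b.j (ξ.comp π) θ → ∃ G, Ct (LI θ) G ∧ a * ‖2 * xs ρ (ph jH) (u : H) ξ‖ = a' * ‖G 0‖

end Vale.Agent.P014Z.Ac
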